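import Vale.Agent.P167.H167.Q.JunMix
import Vale.Agent.P167.H562.Q.CB3
import Vale.Agent.P167.H825.Q.Frm
import Vale.Agent.P167.H718.DobN

/-!
# P167, general `q`, block Q-EQUI: regular domains

`Reg m D η`: up to the scale `m`, near every site of `D` the boundary has one colour or is flat with at
most one junction, and in all boxes near `D` the open (closed) squares outside of `D` are joined.
`S_REG`: the enlargements of a lattice polygon with Dobrushin boundary conditions are regular up to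
the scale `c n`, for a suitable configuration outside.
-/

namespace Vale.Agent.P167.H167.Q

open Finset Filter Vale.Agent.P167.FK
open Vale.Agent.P167.E6 (IsPolygon Encloses)
open Vale.Agent.P167.H718 (Dob)
open Vale.Agent.P167.H825 (enl)
open Vale.Agent.P167.H825.Q (Bc)
open Vale.Agent.P167.H562.QM (OneC)

/-- Regular domains up to the scale `m`. -/
structure Reg (m : ℤ) (D : Finset (ℤ × ℤ)) (η : Cfg) : Prop where
  good : Good η
  bd : ∀ x ∈ BR.sites D, ∀ R : ℤ, 1 ≤ R → R ≤ m → Bd3 D η x R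
  one : ∀ (x : ℤ × ℤ) (R : ℤ), 1 ≤ R → R ≤ m → (∃ v ∈ D, nm (x - v) ≤ m) → OneC x R D η

theorem Reg.mono {m m' : ℤ} {D : Finset (ℤ × ℤ)} {η : Cfg} (h : Reg m D η) (hm : m' ≤ m) :
    Reg m' D η :=
  ⟨h.good, fun x hx R h1 h2 => h.bd x hx R h1 (h2.trans hm), fun x R h1 h2 h3 =>
    h.one x R h1 (h2.trans hm) (h3.imp fun _ hv => ⟨hv.1, hv.2.trans hm⟩)⟩

/-- The junction is in the interior of a side (not the side of the base site). -/
def BcIn (l : ℕ) : Bc → Prop
  | .dob ia ta => 0 < ia ∧ ia < l ∧ 0 < ta ∧ ta < 1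
  | _ => True

/-- **Regularity of the enlargements with Dobrushin (or free, or wired) boundary conditions.** -/
def S_REG : Prop :=
  ∀ (l : ℕ) [NeZero l] (p : ZMod l → ℤ × ℤ) (S₀ : Finset (ℤ × ℤ)), IsPolygon p → Encloses p S₀ →
    ∀ tp : ℝ, 0 < tp → tp < 1 → ∀ bc : Bc, BcIn l bc → ∃ c : ℝ, 0 < c ∧ ∀ᶠ n : ℕ in atTop,
      ∃ η : Cfg, Dob η (enl S₀ n) (Enl.qN p n ⌊tp * (n : ℝ)⌋₊) (bc.ka l n ⌊tp * (n : ℝ)⌋₊) ∧
        Reg ⌊c * (n : ℝ)⌋ (enl S₀ n) η

end Vale.Agent.P167.H167.Q
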