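import Vale.Agent.P167.H167.Q.Mix
import Vale.Agent.P167.H519.GRat

/-!
# P167, general `q`: ratio mixing in two different domains, with a rate

`rat_dom`: the expectations of a nonnegative function of the box `(x, r)` in two domains which contain the
box `(x, L r)` agree up to the factor `4`. `rat_mix`: with the rate `(r / R) ^ α`, jointly with a function
off the box `(x, R)`.
-/

namespace Vale.Agent.P167.H167.Q

open Finset Vale.Agent.P167.FK Vale.Agent.P167.FKA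
open Vale.Agent.P145.FB (PStep PConn)
open Vale.Agent.P167.H259 (f_markov f_fkg f_comp f_comp2)
open Vale.Agent.P167.H519 (Rat rat_all)

variable {Q : ℝ} {L : ℤ} {x : ℤ × ℤ} {r R : ℤ} {D D' : Finset (ℤ × ℤ)} {η η' : Cfg} {F G : Cfg → ℝ}

/-- Two domains and two boundary conditions. -/
theorem rat_dom (hQ : 1 ≤ Q) (hL : Rat Q L) (hr : 1 ≤ r) (hF0 : ∀ ω, 0 ≤ F ω)
    (hF : Loc (Bq x r) F) (hD : Bq x (L * r) ⊆ D) (hD' : Bq x (L * r) ⊆ D') (hη : Good η)
    (hη' : Good η') : Ex Q D η F ≤ 4 * Ex Q D' η' F := by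
  have hQ0 : 0 < Q := by linarith
  set B := Bq x (L * r) with hB
  rw [f_markov Q B D' η' F hQ0 hD' hη', ← Ex_mul_left,
    ← Ex_const (Q := Q) (D := D') (η := η') hQ0 (Ex Q D η F)]
  refine Ex_mono hQ0 fun S' _ => ?_
  rw [f_markov Q B D η F hQ0 hD hη,
    ← Ex_const (Q := Q) (D := D) (η := η) hQ0 (4 * Ex Q B (cf D' η' S') F)]
  exact Ex_mono hQ0 fun S _ => rat_all hQ hL hr (x := x) subset_rfl subset_rfl hF0 hF
    (f_good.1 D η S hη) (f_good.1 D' η' S' hη')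

/-- A nonnegative function off the box times a nonnegative local function. -/
theorem rat_mul (hQ : 1 ≤ Q) (hL : Rat Q L) (hr : 1 ≤ r) (hF0 : ∀ ω, 0 ≤ F ω)
    (hF : Loc (Bq x r) F) (hD : Bq x (L * r) ⊆ D) (hD' : Bq x (L * r) ⊆ D') (hη : Good η)
    (hη' : Good η') (hG0 : ∀ ω, 0 ≤ G ω) (hG : Ind (Bq x (L * r)) G) :
    Ex Q D η (fun ω => G ω * F ω) ≤ 4 * (Ex Q D η G * Ex Q D' η' F) ∧
      Ex Q D η G * Ex Q D' η' F ≤ 4 * Ex Q D η (fun ω => G ω * F ω) := by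
  have hQ0 : 0 < Q := by linarith
  set B := Bq x (L * r) with hB
  have h1 : ∀ S, Ex Q B (cf D η S) F ≤ 4 * Ex Q D' η' F := fun S =>
    rat_dom hQ hL hr hF0 hF subset_rfl hD' (f_good.1 D η S hη) hη'
  have h2 : ∀ S, Ex Q D' η' F ≤ 4 * Ex Q B (cf D η S) F := fun S =>
    rat_dom hQ hL hr hF0 hF hD' subset_rfl hη' (f_good.1 D η S hη)
  rw [markov f_markov hQ0 (A := B) hD hη hG]
  constructor
  · have e : 4 * (Ex Q D η G * Ex Q D' η' F) = Ex Q D η (fun ω => 4 * Ex Q D' η' F * G ω) := by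
      rw [Ex_mul_left]; ring
    rw [e]
    refine Ex_mono hQ0 fun S _ => ?_
    rw [mul_comm]
    exact mul_le_mul_of_nonneg_right (h1 S) (hG0 _)
  · have e : Ex Q D η G * Ex Q D' η' F = Ex Q D η (fun ω => Ex Q D' η' F * G ω) := by
      rw [Ex_mul_left]; ring
    rw [e, ← Ex_mul_left]
    refine Ex_mono hQ0 fun S _ => ?_
    calc Ex Q D' η' F * G (cf D η S) ≤ 4 * Ex Q B (cf D η S) F * G (cf D η S) :=
          mul_le_mul_of_nonneg_right (h2 S) (hG0 _)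
      _ = _ := by ring

/-- **Ratio mixing with a rate.** `F` is a nonnegative function of the box `(x, r)`, `G` any function off
the box `(x, R)`; the two domains contain the box `(x, R)`. -/
theorem rat_mix (hQ : 1 ≤ Q) {α C : ℝ} (h : ArmDec Q α C) (hL : Rat Q L) (hr : 1 ≤ r)
    (hrR : L * r ≤ R) (hF0 : ∀ ω, 0 ≤ F ω) (hF : Loc (Bq x r) F) (hD : Bq x R ⊆ D)
    (hD' : Bq x R ⊆ D') (hη : Good η) (hη' : Good η') (hG : Ind (Bq x R) G) :
    |Ex Q D η (fun ω => G ω * F ω) - Ex Q D η G * Ex Q D' η' F| ≤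
      16 * C * ((L : ℝ) * r / R) ^ α * (Ex Q D η (fun ω => |G ω|) * Ex Q D' η' F) := by
  have hQ0 : 0 < Q := by linarith
  have hL1 : 1 ≤ L := by have := hL.1; omega
  have hLr : 1 ≤ L * r := by nlinarith
  have hF' : Loc (Bq x (L * r)) F := fun ω ω' h' => hF ω ω' fun v hv =>
    h' v (bq_mono (by nlinarith) hv)
  set M := 4 * Ex Q D' η' F with hM
  have hMb : ∀ ξ, Good ξ → Ex Q (Bq x (L * r)) ξ (fun ω => |F ω|) ≤ M := by
    intro ξ hξ
    have e : (fun ω => |F ω|) = F := by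
      funext ω
      exact abs_of_nonneg (hF0 ω)
    rw [e]
    exact rat_dom hQ hL hr hF0 hF subset_rfl ((bq_mono hrR).trans hD') hξ hη'
  have h1 := mix_mul hQ h hLr hrR hF' hMb hη hD hG
  have h2 := mix_mul hQ h hLr hrR hF' hMb hη' hD' (G := fun _ => 1) fun _ _ _ => rfl
  simp only [one_mul, abs_one] at h2
  rw [Ex_const hQ0, one_mul, one_mul] at h2
  have h3 : |Ex Q D η G| ≤ Ex Q D η (fun ω => |G ω|) := abs_Ex_le hQ0 G
  push_cast at h1 h2
  set e := Ex Q (Bq x R) eta1 F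
  set f := Ex Q D' η' F
  have e1 : Ex Q D η (fun ω => G ω * F ω) - Ex Q D η G * f =
      (Ex Q D η (fun ω => G ω * F ω) - Ex Q D η G * e) - Ex Q D η G * (f - e) := by ring
  rw [e1]
  refine (abs_sub _ _).trans ?_
  rw [abs_mul]
  have h4 : |Ex Q D η G| * |f - e| ≤
      Ex Q D η (fun ω => |G ω|) * (2 * M * (C * ((L : ℝ) * r / R) ^ α)) :=
    mul_le_mul h3 h2 (abs_nonneg _) ((abs_nonneg _).trans h3)
  calc _ ≤ Ex Q D η (fun ω => |G ω|) * (2 * M * (C * ((L : ℝ) * r / R) ^ α)) +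
      Ex Q D η (fun ω => |G ω|) * (2 * M * (C * ((L : ℝ) * r / R) ^ α)) := add_le_add h1 h4
    _ = _ := by rw [hM]; ring

/-- The expectations in two domains, with a rate. -/
theorem rat_mix' (hQ : 1 ≤ Q) {α C : ℝ} (h : ArmDec Q α C) (hL : Rat Q L) (hr : 1 ≤ r)
    (hrR : L * r ≤ R) (hF0 : ∀ ω, 0 ≤ F ω) (hF : Loc (Bq x r) F) (hD : Bq x R ⊆ D)
    (hD' : Bq x R ⊆ D') (hη : Good η) (hη' : Good η') :
    |Ex Q D η F - Ex Q D' η' F| ≤ 16 * C * ((L : ℝ) * r / R) ^ α * Ex Q D' η' F := by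
  have hQ0 : 0 < Q := by linarith
  have h1 := rat_mix hQ h hL hr hrR hF0 hF hD hD' hη hη' (G := fun _ => 1) fun _ _ _ => rfl
  simp only [one_mul, abs_one, Ex_const hQ0] at h1
  exact h1

end Vale.Agent.P167.H167.Q
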