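import Vale.Agent.P167.H167.Q.EDefs
import Vale.Agent.P167.H167.Crs
import Vale.Agent.P167.H506.Q.Arm

/-!
# P167, general `q`, block Q-EQUI: pieces which cross an annulus

A piece of `D` which crosses an annulus gives a raw primal arm and a raw dual arm (paths of open,
closed squares of `D`). `arm_all`: the probability decays, in regular domains.
-/

namespace Vale.Agent.P167.H167.Q

open Finset Vale.Agent.P167.FK Vale.Agent.P167.FKA Vale.Agent.P167.BR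
open Vale.Agent.P145.FB (PStep PConn)
open Vale.Agent.P167.H259 (f_markov)
open Vale.Agent.P167.H519 (ind_le_of_imp)
open Vale.Agent.P167.H562.GL (near_of_corx far_of_corx)
open Vale.Agent.P167.H192.Q (SRSW)
open Vale.Agent.P167.H506.Q (arm_cl mem_bq)
open Relation

variable {Q : ℝ} {D D' : Finset (ℤ × ℤ)} {η : Cfg} {x : ℤ × ℤ} {r R r' R' : ℤ} {ω ω' : Cfg}

/-- Raw primal arms of `D`. -/
def PA (D : Finset (ℤ × ℤ)) (x : ℤ × ℤ) (r R : ℤ) : Set Cfg :=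
  {ω | ∃ u v : ℤ × ℤ, Even (u.1 + u.2) ∧ nm (u - x) ≤ r ∧ R ≤ nm (v - x) ∧
    ReflTransGen (PStep {q | q ∈ D ∧ ω q = true}) u v}

/-- Raw dual arms of `D`. -/
def DA (D : Finset (ℤ × ℤ)) (x : ℤ × ℤ) (r R : ℤ) : Set Cfg :=
  {ω | ∃ u v : ℤ × ℤ, ¬ Even (u.1 + u.2) ∧ nm (u - x) ≤ r ∧ R ≤ nm (v - x) ∧
    ReflTransGen (PStep {q | q ∈ D ∧ ω q = false}) u v}

/-- Comparison of indicators. -/
theorem ind_le2 {A B : Set Cfg} {ω ω' : Cfg} (h : ω ∈ A → ω' ∈ B) :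
    A.indicator (1 : Cfg → ℝ) ω ≤ B.indicator 1 ω' := by
  by_cases h1 : ω ∈ A
  · rw [Set.indicator_of_mem h1, Set.indicator_of_mem (h h1)]
    exact le_refl _
  · rw [Set.indicator_of_notMem h1]
    exact Set.indicator_nonneg (fun _ _ => zero_le_one) _

theorem pa_mono (hD : D ⊆ D') (hr : r ≤ r') (hR : R' ≤ R) : PA D x r R ⊆ PA D' x r' R' := by
  rintro ω ⟨u, v, h1, h2, h3, h4⟩
  have hs : {q : ℤ × ℤ | q ∈ D ∧ ω q = true} ⊆ {q | q ∈ D' ∧ ω q = true} :=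
    fun q hq => ⟨hD hq.1, hq.2⟩
  exact ⟨u, v, h1, h2.trans hr, hR.trans h3, rtg_mono hs h4⟩

theorem da_mono (hD : D ⊆ D') (hr : r ≤ r') (hR : R' ≤ R) : DA D x r R ⊆ DA D' x r' R' := by
  rintro ω ⟨u, v, h1, h2, h3, h4⟩
  have hs : {q : ℤ × ℤ | q ∈ D ∧ ω q = false} ⊆ {q | q ∈ D' ∧ ω q = false} :=
    fun q hq => ⟨hD hq.1, hq.2⟩
  exact ⟨u, v, h1, h2.trans hr, hR.trans h3, rtg_mono hs h4⟩

theorem pa_loc (h : ∀ v ∈ D, ω v = ω' v) : ω ∈ PA D x r R ↔ ω' ∈ PA D x r R := by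
  have e : ({q | q ∈ D ∧ ω q = true} : Set (ℤ × ℤ)) = {q | q ∈ D ∧ ω' q = true} := by
    ext q
    exact and_congr_right fun hq => by rw [h q hq]
  show (∃ u v : ℤ × ℤ, _) ↔ ∃ u v : ℤ × ℤ, _
  rw [e]

theorem da_loc (h : ∀ v ∈ D, ω v = ω' v) : ω ∈ DA D x r R ↔ ω' ∈ DA D x r R := by
  have e : ({q | q ∈ D ∧ ω q = false} : Set (ℤ × ℤ)) = {q | q ∈ D ∧ ω' q = false} := by
    ext q
    exact and_congr_right fun hq => by rw [h q hq]
  show (∃ u v : ℤ × ℤ, _) ↔ ∃ u v : ℤ × ℤ, _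
  rw [e]

/-- The squares off the box. -/
noncomputable def oD (D : Finset (ℤ × ℤ)) (x : ℤ × ℤ) (r : ℤ) : Finset (ℤ × ℤ) :=
  D.filter fun v => r < nm (v - x)

theorem mem_oD {v : ℤ × ℤ} : v ∈ oD D x r ↔ v ∈ D ∧ r < nm (v - x) := Finset.mem_filter

theorem oD_sub : oD D x r ⊆ D := Finset.filter_subset _ _

/-- The two sides of an arc. -/
theorem arc_open {S : Set (ℤ × ℤ)} {e : Ed} {n : ℕ} (h : ∀ i < n, hdv ((nx ω)^[i] e) ∈ S) :
    ReflTransGen (PStep {q | q ∈ S ∧ ω q = true}) (ls e) (ls ((nx ω)^[n] e)) ∧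
    ReflTransGen (PStep {q | q ∈ S ∧ ω q = false}) (rs e) (rs ((nx ω)^[n] e)) := by
  induction n with
  | zero => exact ⟨ReflTransGen.refl, ReflTransGen.refl⟩
  | succ n ih =>
    obtain ⟨h1, h2⟩ := ih fun i hi => h i (by omega)
    have h3 := h n (by omega)
    rw [Function.iterate_succ_apply']
    generalize (nx ω)^[n] e = a at h1 h2 h3
    obtain ⟨h4, h5⟩ := H166.nx_step ω a
    cases hb : ω (hdv a) with
    | true =>
      obtain ⟨h6, h7⟩ := h4 hb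
      rw [h7]
      refine ⟨h1.tail (H166.PStep_mono ?_ h6), h2⟩
      rw [Set.singleton_subset_iff]
      exact ⟨h3, hb⟩
    | false =>
      obtain ⟨h6, h7⟩ := h5 hb
      rw [h6]
      refine ⟨h1, h2.tail (H166.PStep_mono ?_ h7)⟩
      rw [Set.singleton_subset_iff]
      exact ⟨h3, hb⟩

/-- An arc from the inside to the outside. -/
theorem arm_fw (hrR : r < R) {a : Ed} {k : ℕ} (hD : ∀ j < k, hdv ((nx ω)^[j] a) ∈ D)
    (h0 : nm (hdv a - x) ≤ r) (hk : R ≤ nm (hdv ((nx ω)^[k] a) - x)) :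
    ω ∈ PA (oD D x r) x (r + 1) (R - 1) ∧ ω ∈ DA (oD D x r) x (r + 1) (R - 1) := by
  obtain ⟨i, j, hij, hjk, hi, hj, hl⟩ :=
    seq_cross (g := fun i => nm (hdv ((nx ω)^[i] a) - x)) (by simpa using h0) hk hrR
  obtain ⟨h1, h2⟩ := arc_open (ω := ω) (S := (↑(oD D x r) : Set (ℤ × ℤ)))
    (e := (nx ω)^[i + 1] a) (n := j - (i + 1)) (fun l hl' => by
      rw [← Function.iterate_add_apply]
      have := hl (l + (i + 1)) (by omega) (by omega)
      exact Finset.mem_coe.2 (mem_oD.2 ⟨hD _ (by omega), this.1⟩))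
  rw [← Function.iterate_add_apply, Nat.sub_add_cancel (by omega)] at h1 h2
  have ht : tlv ((nx ω)^[i + 1] a) = hdv ((nx ω)^[i] a) := by
    rw [Function.iterate_succ_apply', tlv_nx]
  obtain ⟨c1, c2, c3, c4⟩ := corner_tl ((nx ω)^[i + 1] a)
  obtain ⟨d1, d2, d3, d4⟩ := corner_hd ((nx ω)^[j] a)
  rw [ht] at c1 c2 c3 c4
  have hpar := (H166.corner ((nx ω)^[i + 1] a)).2.2.2.2
  refine ⟨⟨_, _, ?_, nm_near_hd c1 c2 hi, nm_far_hd d1 d2 hj, h1⟩,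
    ⟨_, _, ?_, nm_near_hd c3 c4 hi, nm_far_hd d3 d4 hj, h2⟩⟩
  · rw [Int.even_iff]; exact hpar.1
  · rw [Int.even_iff]; omega

theorem rtg_symm {F : Set (ℤ × ℤ)} {u v : ℤ × ℤ} (h : ReflTransGen (PStep F) u v) :
    ReflTransGen (PStep F) v u := by
  induction h with
  | refl => exact ReflTransGen.refl
  | tail _ h ih => exact ReflTransGen.head h.symm ih

/-- An arc from the outside to the inside. -/
theorem arm_bw (hrR : r < R) {b : Ed} {k : ℕ} (hD : ∀ j < k, hdv ((nx ω)^[j] b) ∈ D)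
    (h0 : R ≤ nm (hdv b - x)) (hk : nm (hdv ((nx ω)^[k] b) - x) ≤ r) :
    ω ∈ PA (oD D x r) x (r + 1) (R - 1) ∧ ω ∈ DA (oD D x r) x (r + 1) (R - 1) := by
  obtain ⟨i, j, hij, hjk, hi, hj, hl⟩ :=
    seq_cross (g := fun i => - nm (hdv ((nx ω)^[i] b) - x)) (r := -R) (R := -r)
      (by simpa using h0) (by simpa using hk) (by omega)
  have hi' : R ≤ nm (hdv ((nx ω)^[i] b) - x) := by omega
  have hj' : nm (hdv ((nx ω)^[j] b) - x) ≤ r := by omega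
  obtain ⟨h1, h2⟩ := arc_open (ω := ω) (S := (↑(oD D x r) : Set (ℤ × ℤ)))
    (e := (nx ω)^[i + 1] b) (n := j - (i + 1)) (fun l hl' => by
      rw [← Function.iterate_add_apply]
      have := hl (l + (i + 1)) (by omega) (by omega)
      exact Finset.mem_coe.2 (mem_oD.2 ⟨hD _ (by omega), by omega⟩))
  rw [← Function.iterate_add_apply, Nat.sub_add_cancel (by omega)] at h1 h2
  have ht : tlv ((nx ω)^[i + 1] b) = hdv ((nx ω)^[i] b) := by
    rw [Function.iterate_succ_apply', tlv_nx]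
  obtain ⟨c1, c2, c3, c4⟩ := corner_tl ((nx ω)^[i + 1] b)
  obtain ⟨d1, d2, d3, d4⟩ := corner_hd ((nx ω)^[j] b)
  rw [ht] at c1 c2 c3 c4
  have hpar := (H166.corner ((nx ω)^[j] b)).2.2.2.2
  refine ⟨⟨_, _, ?_, nm_near_hd d1 d2 hj', nm_far_hd c1 c2 hi', rtg_symm h1⟩,
    ⟨_, _, ?_, nm_near_hd d3 d4 hj', nm_far_hd c3 c4 hi', rtg_symm h2⟩⟩
  · rw [Int.even_iff]; exact hpar.1
  · rw [Int.even_iff]; omega

/-- A piece which crosses an annulus gives a raw primal and a raw dual arm. -/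
theorem arm_of_pc {A : Finset Ed} (hA : A ∈ pcs ω D) (hrR : r < R) {a b : Ed} (ha : a ∈ A)
    (hb : b ∈ A) (h1 : nm (hdv a - x) ≤ r) (h2 : R ≤ nm (hdv b - x)) :
    ω ∈ PA (oD D x r) x (r + 1) (R - 1) ∧ ω ∈ DA (oD D x r) x (r + 1) (R - 1) := by
  obtain ⟨k, hk | hk⟩ := run_of_mem hA ha hb
  · exact arm_fw (k := k) hrR hk.2 h1 (by rw [hk.1]; exact h2)
  · exact arm_bw (k := k) hrR hk.2 h2 (by rw [hk.1]; exact h1)

/-! ### Decay -/

/-- Closed squares outside. -/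
theorem pa_closed (hQ : 1 ≤ Q) {α C : ℝ} (h : ArmDec Q α C) (hη : Good η)
    (hc : ∀ v ∈ Bq x R, v ∉ D → η v = false) (hr : 1 ≤ r) (hrR : r ≤ R) :
    Ex Q D η ((PA D x r R).indicator 1) ≤ C * ((r : ℝ) / R) ^ α := by
  have hQ0 : 0 < Q := by linarith
  have h1 := arm_cl hQ h (x := x) hr hrR hη (fun v hv hvD => hc v (Finset.mem_sdiff.1 hv).1 hvD)
    (G := fun _ => 1) (fun _ => zero_le_one) (fun _ _ _ => rfl)
  rw [Ex_const hQ0, mul_one] at h1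
  refine le_trans (Ex_mono hQ0 fun S _ => ?_) h1
  rw [one_mul]
  refine ind_le_of_imp ?_
  rintro ⟨u, v, k1, k2, k3, k4⟩
  show ArmPx x r R _
  rw [armPx_iff hrR]
  exact ⟨u, v, k1, k2, k3, rtg_mono (fun q hq => hq.2) k4⟩

/-- Open squares outside. -/
theorem da_open (hQ : 1 ≤ Q) {α C : ℝ} (h : ArmDec Q α C) (hη : Good η)
    (hc : ∀ v ∈ Bq x R, v ∉ D → η v = true) (hr : 1 ≤ r) (hrR : r ≤ R) :
    Ex Q D η ((DA D x r R).indicator 1) ≤ C * ((r : ℝ) / R) ^ α := by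
  have hQ0 : 0 < Q := by linarith
  have h1 := pa_closed hQ h (D := D.image H506.Q.sq) (η := du η) (x := H506.Q.sq x) (f_dual.1 _ hη)
    (fun v hv hvD => by
      have h2 : ((v.1 - 1, v.2) : ℤ × ℤ) ∈ Bq x R := by
        rw [mem_bq] at hv ⊢
        simp only [H506.Q.sq] at hv
        omega
      show (!(η (v.1 - 1, v.2))) = false
      rw [hc _ h2 fun h3 => hvD (Finset.mem_image.2 ⟨_, h3, by simp [H506.Q.sq]⟩)]
      rfl) hr hrR
  rw [H519.Ex_du hQ0 D hη]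
  refine le_trans (Ex_mono hQ0 fun S _ => ind_le2 ?_) h1
  show H519.dui (cf (D.image H506.Q.sq) (du η) S) ∈ DA D x r R →
    cf (D.image H506.Q.sq) (du η) S ∈ PA (D.image H506.Q.sq) (H506.Q.sq x) r R
  generalize cf (D.image H506.Q.sq) (du η) S = ω
  rintro ⟨u, v, k1, k2, k3, k4⟩
  have hstep : ∀ a b : ℤ × ℤ, PStep {q | q ∈ D ∧ H519.dui ω q = false} a b →
      PStep {q | q ∈ D.image H506.Q.sq ∧ ω q = true} (H506.Q.sq a) (H506.Q.sq b) := by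
    rintro a b ⟨g1, g2, g3, g4⟩
    refine ⟨?_, ?_, ?_, ?_⟩
    · simp only [H506.Q.sq]; omega
    · simp only [H506.Q.sq]; exact g2
    · refine Finset.mem_image.2 ⟨_, g3, ?_⟩
      simp only [H506.Q.sq]
      rw [min_add_add_right]
    · have g5 : (!(ω (min a.1 b.1 + 1, min a.2 b.2))) = false := g4
      simp only [H506.Q.sq]
      rw [min_add_add_right]
      simpa using g5
  refine ⟨H506.Q.sq u, H506.Q.sq v, ?_, ?_, ?_, ReflTransGen.lift H506.Q.sq hstep _ _ k4⟩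
  · rw [Int.even_iff] at k1 ⊢
    simp only [H506.Q.sq]
    omega
  · rw [nm_le_iff] at k2 ⊢
    simp only [H506.Q.sq, Prod.fst_sub, Prod.snd_sub] at k2 ⊢
    omega
  · rw [le_nm_iff] at k3 ⊢
    simp only [H506.Q.sq, Prod.fst_sub, Prod.snd_sub] at k3 ⊢
    omega

/-- Symmetry of the expectations. -/
theorem Ex_sym (hQ0 : 0 < Q) {τ : ℤ × ℤ → ℤ × ℤ} (hτ : τ ∈ syms) (hi : ∀ v, τ (τ v) = v)
    (hη : Good η) (F : Cfg → ℝ) :
    Ex Q D η F = Ex Q (D.image τ) (η ∘ τ) (fun ω => F (ω ∘ τ)) := by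
  classical
  obtain ⟨hg, hs⟩ := f_sym τ hτ
  have hback : (D.image τ).image τ = D := by
    rw [Finset.image_image]
    have : τ ∘ τ = id := funext hi
    rw [this, Finset.image_id]
  rw [hs Q (D.image τ) η _ hQ0 hη, hback]
  refine Ex_congr fun S _ => ?_
  congr 1
  funext v
  show _ = cf D η S (τ (τ v))
  rw [hi]

/-- Symmetry of the raw arms. -/
theorem pa_sym {τ σ : ℤ × ℤ → ℤ × ℤ} (hi : ∀ v, τ (τ v) = v)
    (hst : ∀ F : Set (ℤ × ℤ), ∀ a b, PStep F a b → PStep {v | τ v ∈ F} (σ a) (σ b))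
    (hpar : ∀ u, Even (u.1 + u.2) → Even ((σ u).1 + (σ u).2)) {x' : ℤ × ℤ}
    (hnm : ∀ u, nm (σ u - x') = nm (u - x)) {ω : Cfg} (h : ω ∘ τ ∈ PA D x r R) :
    ω ∈ PA (D.image τ) x' r R := by
  obtain ⟨u, v, h1, h2, h3, h4⟩ := h
  refine ⟨σ u, σ v, hpar u h1, by rw [hnm]; exact h2, by rw [hnm]; exact h3,
    ReflTransGen.lift σ (fun a b hab => ?_) _ _ h4⟩
  refine H166.PStep_mono ?_ (hst _ a b hab)
  rintro q ⟨hq1, hq2⟩
  refine ⟨(FlR.im hi).2 hq1, ?_⟩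
  have h5 : ω (τ (τ q)) = true := hq2
  rwa [hi] at h5

theorem pa_of_sym (hQ0 : 0 < Q) {τ σ : ℤ × ℤ → ℤ × ℤ} (hτ : τ ∈ syms) (hi : ∀ v, τ (τ v) = v)
    (hst : ∀ F : Set (ℤ × ℤ), ∀ a b, PStep F a b → PStep {v | τ v ∈ F} (σ a) (σ b))
    (hpar : ∀ u, Even (u.1 + u.2) → Even ((σ u).1 + (σ u).2)) {x' : ℤ × ℤ}
    (hnm : ∀ u, nm (σ u - x') = nm (u - x)) (hη : Good η) {B : ℝ}
    (h : Ex Q (D.image τ) (η ∘ τ) ((PA (D.image τ) x' r R).indicator 1) ≤ B) :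
    Ex Q D η ((PA D x r R).indicator 1) ≤ B := by
  rw [Ex_sym hQ0 hτ hi hη]
  exact le_trans (Ex_mono hQ0 fun S _ => ind_le2 fun h' => pa_sym hi hst hpar hnm h') h

/-- A flat side below. -/
theorem pa_flat0 (hQ : 1 ≤ Q) {α C : ℝ}
    (hdec : ∀ (h : ℤ) (x : ℤ × ℤ) (r R : ℤ) (D : Finset (ℤ × ℤ)) (η : Cfg) (G : Cfg → ℝ),
      h ≤ x.2 → 1 ≤ r → r ≤ R → Good η → hann h x r R ⊆ D → (∀ ω, 0 ≤ G ω) →
      Ind (hann h x r R) G →
      Ex Q D η (fun ω => G ω * (RA h x r R).indicator 1 ω) ≤ C * ((r : ℝ) / R) ^ α * Ex Q D η G)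
    (hη : Good η) {z : ℤ × ℤ} {pl pr : Bool} (h : FlR 0 D η x R z pl pr) (hr : 1 ≤ r)
    (hrR : r ≤ R) : Ex Q D η ((PA D x r R).indicator 1) ≤ C * ((r : ℝ) / R) ^ α := by
  have hQ0 : 0 < Q := by linarith
  have h1 := hdec z.2 x r R D η (fun _ => 1) h.pos hr hrR hη (fun v hv => by
    rw [mem_hann] at hv
    exact (h.dom v hv.1.1).2 hv.2) (fun _ => zero_le_one) (fun _ _ _ => rfl)
  rw [Ex_const hQ0, mul_one] at h1
  refine le_trans (Ex_mono hQ0 fun S _ => ?_) h1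
  rw [one_mul]
  refine ind_le_of_imp ?_
  rintro ⟨u, v, k1, k2, k3, k4⟩
  show ArmPx x r R (mk z.2 _)
  rw [armPx_iff hrR, op_mk]
  obtain ⟨v', k5, hin, hp⟩ := exit k4 (show nm (u - x) ≤ R by omega) k3
  refine ⟨u, v', k1, k2, k5.ge, ?_⟩
  clear k5 k4 k3
  induction hp with
  | refl => exact ReflTransGen.refl
  | @tail a c hab hac ih =>
    have ha : nm (a - x) ≤ R := by
      rcases ReflTransGen.cases_tail hab with h8 | ⟨d, -, hd⟩
      · rw [h8]; exact hin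
      · exact hd.2
    have hm := step_mem hac.1 ha hac.2
    refine ih.tail ⟨hac.1.1, hac.1.2.1, hac.1.2.2.2, ?_⟩
    exact (h.dom _ hm).1 hac.1.2.2.1

/-- A flat side. -/
theorem pa_flat (hQ : 1 ≤ Q) {α C : ℝ}
    (hdec : ∀ (h : ℤ) (x : ℤ × ℤ) (r R : ℤ) (D : Finset (ℤ × ℤ)) (η : Cfg) (G : Cfg → ℝ),
      h ≤ x.2 → 1 ≤ r → r ≤ R → Good η → hann h x r R ⊆ D → (∀ ω, 0 ≤ G ω) →
      Ind (hann h x r R) G →
      Ex Q D η (fun ω => G ω * (RA h x r R).indicator 1 ω) ≤ C * ((r : ℝ) / R) ^ α * Ex Q D η G)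
    (hη : Good η) {i : Fin 4} {z : ℤ × ℤ} {pl pr : Bool} (hB : FlR i D η x R z pl pr) (hr : 1 ≤ r)
    (hrR : r ≤ R) : Ex Q D η ((PA D x r R).indicator 1) ≤ C * ((r : ℝ) / R) ^ α := by
  have hQ0 : 0 < Q := by linarith
  have hsw : (fun v : ℤ × ℤ => ((v.2, v.1) : ℤ × ℤ)) ∈ syms := by simp [syms]
  have hry : (fun v : ℤ × ℤ => ((v.1, -1 - v.2) : ℤ × ℤ)) ∈ syms := by simp [syms]
  -- the image of a flat side
  have h2 : ∀ (D : Finset (ℤ × ℤ)) (η : Cfg) (x z : ℤ × ℤ) (pl pr : Bool), Good η →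
      FlR 2 D η x R z pl pr →
      Ex Q D η ((PA D x r R).indicator 1) ≤ C * ((r : ℝ) / R) ^ α := by
    intro D η x z pl pr hη h
    have hi : ∀ v : ℤ × ℤ, (fun v : ℤ × ℤ => ((v.1, -1 - v.2) : ℤ × ℤ))
        ((fun v : ℤ × ℤ => ((v.1, -1 - v.2) : ℤ × ℤ)) v) = v := fun v => by
      simp
    refine pa_of_sym hQ0 (σ := fun u => (u.1, -u.2)) hry hi ?_ ?_ (x' := (x.1, -x.2)) ?_ hη
      (pa_flat0 hQ hdec ((f_sym _ hry).1 _ hη) (z := (z.1, -z.2)) (pl := pl) (pr := pr)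
        ⟨?_, ?_, ?_⟩ hr hrR)
    · rintro F a b ⟨g1, g2, g3⟩
      refine ⟨g1, ?_, ?_⟩
      · show -b.2 = -a.2 + 1 ∨ -b.2 = -a.2 - 1
        omega
      · show ((min a.1 b.1, -1 - min (-a.2) (-b.2)) : ℤ × ℤ) ∈ F
        have e : -1 - min (-a.2) (-b.2) = min a.2 b.2 := by omega
        rw [e]
        exact g3
    · intro u hu
      rw [Int.even_iff] at hu ⊢
      simp only
      omega
    · intro u
      simp only [nm, Prod.fst_sub, Prod.snd_sub]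
      rw [show -u.2 - -x.2 = -(u.2 - x.2) by ring, abs_neg]
    · have h1 : x.2 ≤ z.2 := h.pos
      show -z.2 ≤ -x.2
      omega
    · intro v hv
      have hv' : ((v.1, -1 - v.2) : ℤ × ℤ) ∈ Bq x R := by
        rw [mem_bq] at hv ⊢
        simp only at hv ⊢
        omega
      have h3 : ((v.1, -1 - v.2) : ℤ × ℤ) ∈ D ↔ -1 - v.2 < z.2 := h.dom _ hv'
      rw [FlR.im hi]
      show ((v.1, -1 - v.2) : ℤ × ℤ) ∈ D ↔ -z.2 ≤ v.2
      rw [h3]
      omega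
    · intro v hv hvD
      have hv' : ((v.1, -1 - v.2) : ℤ × ℤ) ∈ Bq x R := by
        rw [mem_bq] at hv ⊢
        simp only at hv ⊢
        omega
      exact h.out _ hv' fun h' => hvD ((FlR.im hi).2 h')
  have hsi : ∀ v : ℤ × ℤ, (fun v : ℤ × ℤ => ((v.2, v.1) : ℤ × ℤ))
      ((fun v : ℤ × ℤ => ((v.2, v.1) : ℤ × ℤ)) v) = v := fun v => by simp
  have hsB : ∀ (x : ℤ × ℤ) (s : ℤ) (v : ℤ × ℤ), ((v.2, v.1) : ℤ × ℤ) ∈ Bq (x.2, x.1) s ↔
      v ∈ Bq x s := by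
    intro x s v
    rw [mem_bq, mem_bq]
    simp only
    omega
  have hsw2 : ∀ (B : ℝ), Ex Q (D.image fun v => ((v.2, v.1) : ℤ × ℤ))
      (η ∘ fun v => ((v.2, v.1) : ℤ × ℤ))
      ((PA (D.image fun v => ((v.2, v.1) : ℤ × ℤ)) (x.2, x.1) r R).indicator 1) ≤ B →
      Ex Q D η ((PA D x r R).indicator 1) ≤ B := by
    intro B hB
    refine pa_of_sym hQ0 (σ := fun u => (u.2, u.1)) hsw hsi ?_ ?_ (x' := (x.2, x.1)) ?_ hη hB
    · rintro F a b ⟨g1, g2, g3⟩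
      exact ⟨g2, g1, g3⟩
    · intro u hu
      rw [Int.even_iff] at hu ⊢
      simp only
      omega
    · intro u
      simp only [nm, Prod.fst_sub, Prod.snd_sub]
      rw [max_comm]
  match i, hB with
  | 0, hB => exact pa_flat0 hQ hdec hη hB hr hrR
  | 2, hB => exact h2 _ _ _ _ _ _ hη hB
  | 3, hB =>
    refine hsw2 _ (pa_flat0 hQ hdec ((f_sym _ hsw).1 _ hη) (z := (z.2, z.1)) (pl := pl)
      (pr := pr) ⟨?_, ?_, ?_⟩ hr hrR)
    · exact hB.pos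
    · intro v hv
      have hv' : ((v.2, v.1) : ℤ × ℤ) ∈ Bq x R := (hsB x R _).1 hv
      have h3 := hB.dom _ hv'
      rw [FlR.im hsi]
      exact h3
    · intro v hv hvD
      have hv' : ((v.2, v.1) : ℤ × ℤ) ∈ Bq x R := (hsB x R _).1 hv
      exact hB.out _ hv' fun h' => hvD ((FlR.im hsi).2 h')
  | 1, hB =>
    refine hsw2 _ (h2 _ _ _ (z.2, z.1) pl pr ((f_sym _ hsw).1 _ hη) ⟨?_, ?_, ?_⟩)
    · exact hB.pos
    · intro v hv
      have hv' : ((v.2, v.1) : ℤ × ℤ) ∈ Bq x R := (hsB x R _).1 hv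
      have h3 := hB.dom _ hv'
      rw [FlR.im hsi]
      exact h3
    · intro v hv hvD
      have hv' : ((v.2, v.1) : ℤ × ℤ) ∈ Bq x R := (hsB x R _).1 hv
      exact hB.out _ hv' fun h' => hvD ((FlR.im hsi).2 h')

/-- The event which contains the crossings of the annulus by pieces. It depends on the squares of `D`
off the box of radius `r`. -/
def AE (D : Finset (ℤ × ℤ)) (x : ℤ × ℤ) (r R : ℤ) : Set Cfg :=
  PA (oD D x r) x (r + 1) (R - 1) ∩ DA (oD D x r) x (r + 1) (R - 1)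

theorem ae_loc (h : ∀ v ∈ oD D x r, ω v = ω' v) : ω ∈ AE D x r R ↔ ω' ∈ AE D x r R :=
  and_congr (pa_loc h) (da_loc h)

/-- **Pieces which cross an annulus**, in regular domains. -/
theorem arm_all (hQ : 1 ≤ Q) (hR : RSW Q) (hS : SRSW Q) : ∃ C α : ℝ, 0 < C ∧ 0 < α ∧ α ≤ 1 ∧
    ∀ (m : ℤ) (D : Finset (ℤ × ℤ)) (η : Cfg), Reg m D η → ∀ x ∈ sites D, ∀ r R : ℤ, 1 ≤ r →
      1 ≤ R → R ≤ m → Ex Q D η ((AE D x r R).indicator 1) ≤ C * ((r : ℝ) / R) ^ α := by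
  have hQ0 : 0 < Q := by linarith
  obtain ⟨α1, C1, hα1, hC1, hd1, -⟩ := FKA.arm_fk hQ hR
  obtain ⟨α2, C2, hα2, hC2, hd2⟩ := ra_dec hQ hR hS
  set α : ℝ := min (min α1 α2) 1 with hα
  have hα0 : 0 < α := lt_min (lt_min hα1 hα2) one_pos
  have hαle : α ≤ 1 := min_le_right _ _
  refine ⟨8 * max C1 C2 + 8, α, by positivity, hα0, hαle, fun m D η hreg x hx r R hr hR1 hRm => ?_⟩
  have hle1 : Ex Q D η ((AE D x r R).indicator 1) ≤ 1 := by
    rw [← Ex_const (Q := Q) (D := D) (η := η) hQ0 1]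
    refine Ex_mono hQ0 fun S _ => ?_
    unfold Set.indicator
    split_ifs <;> simp
  have hrR0 : (1 : ℝ) ≤ r := by exact_mod_cast hr
  have hRR0 : (1 : ℝ) ≤ R := by exact_mod_cast hR1
  have hmax : 0 < max C1 C2 := lt_max_of_lt_left hC1
  by_cases hle : r + 1 ≤ R - 1
  · have hq0 : (0 : ℝ) < ((r + 1 : ℤ) : ℝ) / ((R - 1 : ℤ) : ℝ) := by
      have h1 : (0 : ℝ) < ((r + 1 : ℤ) : ℝ) := by exact_mod_cast (by omega : 0 < r + 1)
      have h2 : (0 : ℝ) < ((R - 1 : ℤ) : ℝ) := by exact_mod_cast (by omega : 0 < R - 1)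
      positivity
    have hq1 : ((r + 1 : ℤ) : ℝ) / ((R - 1 : ℤ) : ℝ) ≤ 1 := by
      rw [div_le_one (by exact_mod_cast (by omega : 0 < R - 1))]
      exact_mod_cast hle
    have key : Ex Q D η ((AE D x r R).indicator 1) ≤
        max C1 C2 * (((r + 1 : ℤ) : ℝ) / ((R - 1 : ℤ) : ℝ)) ^ α := by
      have e1 : C1 * (((r + 1 : ℤ) : ℝ) / ((R - 1 : ℤ) : ℝ)) ^ α1 ≤
          max C1 C2 * (((r + 1 : ℤ) : ℝ) / ((R - 1 : ℤ) : ℝ)) ^ α :=
        mul_le_mul (le_max_left _ _) (Real.rpow_le_rpow_of_exponent_ge hq0 hq1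
          ((min_le_left _ _).trans (min_le_left _ _))) (by positivity) hmax.le
      have e2 : C2 * (((r + 1 : ℤ) : ℝ) / ((R - 1 : ℤ) : ℝ)) ^ α2 ≤
          max C1 C2 * (((r + 1 : ℤ) : ℝ) / ((R - 1 : ℤ) : ℝ)) ^ α :=
        mul_le_mul (le_max_right _ _) (Real.rpow_le_rpow_of_exponent_ge hq0 hq1
          ((min_le_left _ _).trans (min_le_right _ _))) (by positivity) hmax.le
      have i1 : Ex Q D η ((AE D x r R).indicator 1) ≤
          Ex Q D η ((PA D x (r + 1) (R - 1)).indicator 1) :=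
        Ex_mono hQ0 fun S _ => ind_le_of_imp fun h => pa_mono oD_sub le_rfl le_rfl h.1
      have i2 : Ex Q D η ((AE D x r R).indicator 1) ≤
          Ex Q D η ((DA D x (r + 1) (R - 1)).indicator 1) :=
        Ex_mono hQ0 fun S _ => ind_le_of_imp fun h => da_mono oD_sub le_rfl le_rfl h.2
      rcases hreg.bd x hx (R - 1) (by omega) (by omega) with h | h | ⟨i, z, pl, pr, h⟩
      · exact (i1.trans (pa_closed hQ hd1 hreg.good h (by omega) hle)).trans e1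
      · exact (i2.trans (da_open hQ hd1 hreg.good h (by omega) hle)).trans e1
      · exact (i1.trans (pa_flat hQ hd2 hreg.good h (by omega) hle)).trans e2
    refine key.trans ?_
    have h3 : ((r + 1 : ℤ) : ℝ) / ((R - 1 : ℤ) : ℝ) ≤ 8 * ((r : ℝ) / R) := by
      have hR3 : (3 : ℝ) ≤ R := by exact_mod_cast (by omega : 3 ≤ R)
      push_cast
      rw [div_le_iff₀ (by linarith)]
      have e : 8 * ((r : ℝ) / R) * (R - 1) = 8 * r * ((R - 1) / R) := by ring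
      rw [e]
      have h7 : (1 : ℝ) / 2 ≤ (R - 1) / R := by
        rw [div_le_div_iff₀ (by norm_num) (by linarith)]; linarith
      nlinarith
    have h4 : (((r + 1 : ℤ) : ℝ) / ((R - 1 : ℤ) : ℝ)) ^ α ≤ 8 * ((r : ℝ) / R) ^ α := by
      calc (((r + 1 : ℤ) : ℝ) / ((R - 1 : ℤ) : ℝ)) ^ α ≤ (8 * ((r : ℝ) / R)) ^ α :=
            Real.rpow_le_rpow hq0.le h3 hα0.le
        _ = 8 ^ α * ((r : ℝ) / R) ^ α := Real.mul_rpow (by norm_num) (by positivity)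
        _ ≤ 8 * ((r : ℝ) / R) ^ α := by
            refine mul_le_mul_of_nonneg_right ?_ (by positivity)
            calc (8 : ℝ) ^ α ≤ 8 ^ (1 : ℝ) :=
                  Real.rpow_le_rpow_of_exponent_le (by norm_num) hαle
              _ = 8 := Real.rpow_one 8
    have h5 : (0 : ℝ) ≤ ((r : ℝ) / R) ^ α := by positivity
    nlinarith
  · have h1 : (R : ℝ) ≤ 3 * r := by exact_mod_cast (by omega : R ≤ 3 * r)
    have h2 : (1 : ℝ) / 3 ≤ (r : ℝ) / R := by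
      rw [div_le_div_iff₀ (by norm_num) (by linarith)]; linarith
    have h3 : (1 : ℝ) / 3 ≤ ((r : ℝ) / R) ^ α := by
      calc (1 : ℝ) / 3 = (1 / 3) ^ (1 : ℝ) := (Real.rpow_one _).symm
        _ ≤ (1 / 3 : ℝ) ^ α :=
            Real.rpow_le_rpow_of_exponent_ge (by norm_num) (by norm_num) hαle
        _ ≤ _ := Real.rpow_le_rpow (by norm_num) h2 hα0.le
    nlinarith

end Vale.Agent.P167.H167.Q
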