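import Vale.Agent.P167.H167.Q.Arm

/-!
# P167, general `q`, block Q-EQUI: exponential moments of the number of the large pieces, up to the
boundary of a regular domain
-/

namespace Vale.Agent.P167.H167.Q

open Finset Vale.Agent.P167.FK Vale.Agent.P167.FKA Vale.Agent.P167.BR
open Vale.Agent.P167.H166 (bxx mem_bxx)
open Vale.Agent.P167.H562.QM (OneC MajA Nr macro_B)

variable {Q : ℝ} {D : Finset (ℤ × ℤ)} {η : Cfg} {x : ℤ × ℤ} {ω : Cfg}

/-- The head of an edge of `D` is near `D`. -/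
theorem near_hd {e : Ed} (he : e ∈ eds D) : ∃ v ∈ D, nm (hdv e - v) ≤ 1 := by
  rcases mem_eds.mp he with h | h
  · exact ⟨_, h, by rw [sub_self]; simp [nm]⟩
  · refine ⟨_, h, ?_⟩
    have h2 := tlv_adj e
    rw [H45.nm_le]
    simp only [Prod.fst_sub, Prod.snd_sub]
    rw [abs_sub_comm (hdv e).1, abs_sub_comm (hdv e).2]
    have := abs_nonneg ((tlv e).1 - (hdv e).1)
    have := abs_nonneg ((tlv e).2 - (hdv e).2)
    omega

/-- Few pieces visit a small box. -/
theorem card_Bg_le (D : Finset (ℤ × ℤ)) (x : ℤ × ℤ) {L : ℤ} (hL : 0 ≤ L) (d : ℝ) (ω : Cfg) :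
    ((Bg D x L d ω).card : ℝ) ≤ 2 * (2 * L + 1) ^ 2 := by
  classical
  have hex : ∀ A ∈ Bg D x L d ω, ∃ e ∈ A, nm (hdv e - x) ≤ L := fun A hA =>
    (Finset.mem_filter.1 hA).2.1
  choose! c hc1 hc2 using hex
  have hmaps : ∀ A ∈ Bg D x L d ω, c A ∈
      (bxx x L).image FK.ia ∪ (bxx x L).image FK.ib := by
    intro A hA
    rw [Finset.mem_union, Finset.mem_image, Finset.mem_image]
    rcases FK.eq_of_hdv (v := hdv (c A)) rfl with h | h
    · exact Or.inl ⟨_, mem_bxx.2 (hc2 A hA), h.symm⟩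
    · exact Or.inr ⟨_, mem_bxx.2 (hc2 A hA), h.symm⟩
  have h1 := Finset.card_le_card_of_injOn c hmaps (by
    intro A hA B hB hAB
    have h2 := hc1 A hA
    have h3 := hc1 B hB
    rw [← hAB] at h3
    exact eq_of_mem_pcs (Finset.mem_filter.1 hA).1 (Finset.mem_filter.1 hB).1 h2 h3)
  have h4 : ((bxx x L).card : ℝ) = (2 * L + 1) ^ 2 := by
    have : ((bxx x L).card : ℤ) = (2 * L + 1) ^ 2 := by
      unfold bxx
      rw [Finset.card_product, Int.card_Icc, Int.card_Icc]
      push_cast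
      rw [Int.toNat_of_nonneg (by linarith), Int.toNat_of_nonneg (by linarith)]
      ring
    have h5 : (((bxx x L).card : ℤ) : ℝ) = (((2 * L + 1) ^ 2 : ℤ) : ℝ) := by rw [this]
    push_cast at h5
    exact h5
  have h6 := h1.trans (Finset.card_union_le _ _)
  have h7 := Finset.card_image_le (s := bxx x L) (f := FK.ia)
  have h8 := Finset.card_image_le (s := bxx x L) (f := FK.ib)
  have h9 : (Bg D x L d ω).card ≤ 2 * (bxx x L).card := by omega
  have h10 : ((Bg D x L d ω).card : ℝ) ≤ 2 * ((bxx x L).card : ℝ) := by exact_mod_cast h9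
  rwa [h4] at h10

/-- **Exponential moments of the number of the large pieces of a box**, uniformly in what happens
outside of a larger box. -/
theorem ex_bg (hQ : 1 ≤ Q) (h : RSW Q) (Λ : ℕ) {s : ℝ} (hs : 0 ≤ s) : ∃ M : ℝ, 1 ≤ M ∧
    ∀ (m : ℤ) (D : Finset (ℤ × ℤ)) (η : Cfg), Reg m D η → ∀ (x : ℤ × ℤ) (L : ℤ) (d : ℝ), 1 ≤ d →
      0 ≤ L → (L : ℝ) ≤ Λ * d → (Λ + 2) * d ≤ m → ∀ G : Cfg → ℝ, (∀ ω, 0 ≤ G ω) →
      (∀ ω ω' : Cfg, (∀ v, ¬ (v ∈ D ∧ (nm (v - x) : ℝ) ≤ L + d) → ω v = ω' v) → G ω = G ω') →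
      Ex Q D η (fun ω => G ω * Real.exp (s * ((Bg D x L d ω).card : ℝ))) ≤ M * Ex Q D η G := by
  classical
  have hQ0 : 0 < Q := by linarith
  obtain ⟨ε, C, ρ0, hε, hC, hρ0, hmac⟩ := macro_B hQ h 1 Λ s 0 one_pos (Nat.cast_nonneg Λ)
  set E0 : ℝ := 2 * (2 * (Λ * ρ0) + 1) ^ 2 with hE0
  refine ⟨C + Real.exp (s * E0), ?_, fun m D η hreg x L d hd hL0 hL hdm G hG0 hG => ?_⟩
  · have : 1 ≤ Real.exp (s * E0) := Real.one_le_exp (by positivity)
    linarith
  have hGE : 0 ≤ Ex Q D η G := Ex_nonneg hQ0 fun _ _ => hG0 _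
  by_cases hsm : d < ρ0
  · calc Ex Q D η (fun ω => G ω * Real.exp (s * ((Bg D x L d ω).card : ℝ)))
        ≤ Ex Q D η (fun ω => Real.exp (s * E0) * G ω) := by
          refine Ex_mono hQ0 fun S _ => ?_
          rw [mul_comm]
          refine mul_le_mul_of_nonneg_right (Real.exp_le_exp.2 (mul_le_mul_of_nonneg_left ?_ hs))
            (hG0 _)
          refine (card_Bg_le D x hL0 d _).trans ?_
          have hL' : (0 : ℝ) ≤ L := by exact_mod_cast hL0
          have hL2 : (L : ℝ) ≤ Λ * ρ0 :=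
            hL.trans (mul_le_mul_of_nonneg_left hsm.le (Nat.cast_nonneg _))
          have : (2 * (L : ℝ) + 1) ^ 2 ≤ (2 * (Λ * ρ0) + 1) ^ 2 :=
            pow_le_pow_left₀ (by linarith) (by linarith) 2
          linarith
      _ = Real.exp (s * E0) * Ex Q D η G := Ex_mul_left _ _
      _ ≤ _ := mul_le_mul_of_nonneg_right (by linarith) hGE
  · push Not at hsm
    set A : Finset (ℤ × ℤ) := (bxx x L).filter (fun u => ∃ v ∈ D, nm (u - v) ≤ 1) with hA
    have hAx : ∀ v ∈ A, nm (v - x) ≤ L := fun v hv => mem_bxx.1 (Finset.mem_filter.1 hv).1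
    obtain ⟨N, -, hN2, hN3⟩ := hmac d hsm x A (fun v hv => by
      have h1 : (nm (v - x) : ℝ) ≤ L := by exact_mod_cast hAx v hv
      linarith) (fun i : Fin 0 => i.elim0)
    rw [one_mul] at hN2
    simp only [one_mul] at hN3
    have hNr : ∀ v, Nr A d v → (nm (v - x) : ℝ) ≤ L + d := by
      rintro v ⟨u, hu, huv⟩
      have h1 := H45.nm_sub_le v u x
      have h2 : (nm (v - x) : ℝ) ≤ nm (v - u) + nm (u - x) := by exact_mod_cast h1
      have h3 : (nm (u - x) : ℝ) ≤ L := by exact_mod_cast hAx u hu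
      linarith
    have hmain := hN3 D η hreg.good (fun y a ha hya => by
      have hy : y ∈ bxx y a := mem_bxx.2 (by rw [sub_self]; simp [nm]; omega)
      refine hreg.one y a ha ?_ ?_
      · -- the radius
        have h1 := hNr _ (hya (y.1 + a, y.2) (mem_bxx.2 (by
          rw [H45.nm_le]
          simp only [Prod.fst_sub, Prod.snd_sub, abs_le]
          omega)))
        have h2 := hNr _ (hya (y.1 - a, y.2) (mem_bxx.2 (by
          rw [H45.nm_le]
          simp only [Prod.fst_sub, Prod.snd_sub, abs_le]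
          omega)))
        have h3 : |((y.1 + a, y.2) - x : ℤ × ℤ).1| ≤ nm ((y.1 + a, y.2) - x) := le_max_left _ _
        have h4 : |((y.1 - a, y.2) - x : ℤ × ℤ).1| ≤ nm ((y.1 - a, y.2) - x) := le_max_left _ _
        simp only [Prod.fst_sub] at h3 h4
        rw [abs_le] at h3 h4
        have h5 : 2 * a ≤ nm ((y.1 + a, y.2) - x) + nm ((y.1 - a, y.2) - x) := by linarith
        have h6 : (2 : ℝ) * a ≤ nm ((y.1 + a, y.2) - x) + nm ((y.1 - a, y.2) - x) := by
          exact_mod_cast h5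
        have h7 : (a : ℝ) ≤ m := by linarith
        exact_mod_cast h7
      · obtain ⟨u, hu, huy⟩ := hya y hy
        obtain ⟨v, hv, huv⟩ := (Finset.mem_filter.1 hu).2
        refine ⟨v, hv, ?_⟩
        have h1 := H45.nm_sub_le y u v
        have h2 : (nm (y - v) : ℝ) ≤ nm (y - u) + nm (u - v) := by exact_mod_cast h1
        have h3 : (nm (u - v) : ℝ) ≤ 1 := by exact_mod_cast huv
        have h4 : (nm (y - v) : ℝ) ≤ m := by
          have : (0 : ℝ) ≤ Λ * d := by positivity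
          linarith
        exact_mod_cast h4) G hG0 (fun ω ω' hw => hG ω ω' fun v hv => hw v fun hv' =>
        hv ⟨hv'.1, hNr v hv'.2⟩)
    have hcard : ∀ ω, (Bg D x L d ω).card ≤ N ω := by
      intro ω
      refine hN2 ω _ (fun γ hγ => isSeg (Finset.mem_filter.1 hγ).1) ?_ ?_
      · intro γ hγ γ' hγ' hne
        rw [Finset.disjoint_left]
        intro e he he'
        exact hne (eq_of_mem_pcs (Finset.mem_filter.1 hγ).1 (Finset.mem_filter.1 hγ').1 he he')
      · intro γ hγ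
        obtain ⟨h1, ⟨e, he, h2⟩, h3⟩ := Finset.mem_filter.1 hγ
        refine ⟨⟨e, he, Finset.mem_filter.2 ⟨mem_bxx.2 h2, near_hd (subset_eds h1 he)⟩⟩, ?_⟩
        unfold Small at h3
        push Not at h3
        obtain ⟨u, hu, v, hv, h4⟩ := h3
        obtain ⟨e1, he1, rfl⟩ := Finset.mem_image.1 hu
        obtain ⟨e2, he2, rfl⟩ := Finset.mem_image.1 hv
        exact ⟨e1, he1, e2, he2, h4⟩
    calc Ex Q D η (fun ω => G ω * Real.exp (s * ((Bg D x L d ω).card : ℝ)))
        ≤ Ex Q D η (fun ω => G ω * Real.exp (s * (N ω : ℝ))) := by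
          refine Ex_mono hQ0 fun S _ => mul_le_mul_of_nonneg_left (Real.exp_le_exp.2
            (mul_le_mul_of_nonneg_left ?_ hs)) (hG0 _)
          exact_mod_cast hcard _
      _ ≤ C * Ex Q D η G := hmain
      _ ≤ _ := mul_le_mul_of_nonneg_right (by linarith [Real.exp_pos (s * E0)]) hGE

end Vale.Agent.P167.H167.Q
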