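import Vale.Agent.P167.H167.Q.RawA
import Vale.Agent.P167.H506.Q.Rm
import Vale.Agent.P167.H562.Q.CB2
import Vale.Agent.P167.QM.Cons

/-!
# P167, general `q`, block Q-MIX-J: ratio mixing at a flat junction free | wired

`rm_flat`: half-plane, any two colours below the side on the left and on the right of a column `b`
(`b` may be anywhere): ratio mixing with a rate, from the strong Russo-Seymour-Welsh property. `MxA`:
mixing at a place of a domain; `mx_all`: boundary of any shape of one colour, or flat junction, any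
direction.
-/

namespace Vale.Agent.P167.H167.Q

open Finset Vale.Agent.P167.FK Vale.Agent.P167.FKA
open Vale.Agent.P145.FB (PStep PConn)
open Vale.Agent.P167.H259 (f_markov f_fkg f_comp f_comp2 Ex_out cf_cf PC_mono)
open Vale.Agent.P167.H519 (cf_in ind_le_of_imp loc_mono pc_of_cor pa_cor pa_even conn_symm)
open Vale.Agent.P167.H562.GL (near_of_corx far_of_corx)
open Vale.Agent.P167.H192.Q (SRSW)
open Vale.Agent.P167.H506.Q (RM rm_closed rm_open mem_bq)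
open Vale.Agent.P167.H562.QM (QC)
open Vale.Agent.P167.QM (hp)
open Relation

variable {Q : ℝ}

/-- **Ratio mixing at a flat junction.** -/
theorem rm_flat (hQ : 1 ≤ Q) (hR : RSW Q) (hS : SRSW Q) : ∃ α C : ℝ, 0 < α ∧ 0 < C ∧
    ∀ (h b : ℤ) (pl pr : Bool) (x : ℤ × ℤ) (r R : ℤ) (K : Finset (ℤ × ℤ)) (κ : Cfg), h ≤ x.2 →
      1 ≤ r → r ≤ R → (∀ v ∈ Bq x R, v ∈ K ↔ v.2 < h) →
      (∀ v ∈ K, v ∈ Bq x R → κ v = if v.1 < b then pl else pr) →
      C * ((r : ℝ) / R) ^ α < 1 →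
      RM Q K κ (Bq x R \ K) (Bq x r \ K) ((1 / (1 - C * ((r : ℝ) / R) ^ α)) ^ 2) := by
  have hQ0 : 0 < Q := by linarith
  obtain ⟨α, C, hα, hC, hdec⟩ := ra_dec hQ hR hS
  refine ⟨α, C, hα, hC, fun h b pl pr x r R K κ hhx hr hrR hK hκ hε => ?_⟩
  obtain ⟨ε, hε'⟩ : ∃ ε, ε = C * ((r : ℝ) / R) ^ α := ⟨_, rfl⟩
  rw [← hε'] at hε ⊢
  set A := Bq x R \ K with hA
  set V := Bq x r \ K with hVd
  have hmemA : ∀ v, v ∈ A ↔ v ∈ Bq x R ∧ h ≤ v.2 := by
    intro v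
    rw [hA, Finset.mem_sdiff]
    constructor
    · rintro ⟨h1, h2⟩
      refine ⟨h1, ?_⟩
      by_contra h3
      exact h2 ((hK v h1).2 (by omega))
    · rintro ⟨h1, h2⟩
      refine ⟨h1, fun h3 => ?_⟩
      have := (hK v h1).1 h3
      omega
  have hbq : ∀ v, v ∈ Bq x r → v ∈ Bq x R := by
    intro v hv
    rw [mem_bq] at hv ⊢
    omega
  have hVA : V ⊆ A := by
    intro v hv
    rw [hVd, Finset.mem_sdiff] at hv
    rw [hA, Finset.mem_sdiff]
    exact ⟨hbq v hv.1, hv.2⟩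
  set W : Set (ℤ × ℤ) := {v | v ∈ Bq x R ∧ v.2 < h ∧ (if v.1 < b then pl else pr) = true} with hW
  have hWA : ∀ v ∈ A, v ∉ W := by
    intro v hv hvW
    have := ((hmemA v).1 hv).2
    have h2 : v.2 < h := hvW.2.1
    omega
  -- the upper configuration
  obtain ⟨T, hT⟩ : ∃ T : Cfg, T = cf (Bq x R) eta1
      ((Bq x R).filter fun v => (if v.1 < b then pl else pr) = true) := ⟨_, rfl⟩
  have hTg : Good T := by rw [hT]; exact f_good.1 _ _ _ f_good.2.2
  have hT1 : ∀ v, v ∉ Bq x R → T v = true := by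
    intro v hv
    rw [hT, cf_out hv]
    rfl
  have hT0 : ∀ v ∈ Bq x R, T v = if v.1 < b then pl else pr := by
    intro v hv
    rw [hT, cf_in hv]
    simp only [Finset.mem_filter, hv, true_and]
    cases hh : (if v.1 < b then pl else pr) <;> simp
  -- the squares of `W` are joined
  have hWc : ∀ ξ : Cfg, (∀ v ∈ K, ξ v = κ v) → ∀ c ∈ Cw W, ∀ c' ∈ Cw W, PC (cf A ξ ∅) c c' := by
    intro ξ hξ c hc c' hc'
    obtain ⟨hce, v, hv, hvc⟩ := hc
    obtain ⟨hce', w, hw, hwc⟩ := hc'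
    have hF : ∀ z : ℤ × ℤ, z ∈ Bq x R → z.2 < h → (if z.1 < b then pl else pr) = true →
        z ∈ op (cf A ξ ∅) := by
      intro z hz1 hz2 hz3
      have hzK : z ∈ K := (hK z hz1).2 hz2
      have hzA : z ∉ A := fun h' => by
        have := ((hmemA z).1 h').2
        omega
      show cf A ξ ∅ z = true
      rw [cf_out hzA, hξ z hzK, hκ z hzK hz1]
      exact hz3
    obtain ⟨hv1, hv2, hv3⟩ := hv
    obtain ⟨hw1, hw2, hw3⟩ := hw
    have hv1' := mem_bq.1 hv1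
    have hw1' := mem_bq.1 hw1
    have hQC : QC (op (cf A ξ ∅)) v w := by
      cases pl <;> cases pr
      · simp at hv3
      · have e1 : b ≤ v.1 := by
          by_contra hc'
          rw [if_pos (by omega)] at hv3
          exact absurd hv3 (by simp)
        have e2 : b ≤ w.1 := by
          by_contra hc'
          rw [if_pos (by omega)] at hw3
          exact absurd hw3 (by simp)
        refine QC.rect (x0 := max (x.1 - R) b) (x1 := x.1 + R) (y0 := x.2 - R)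
          (y1 := min (x.2 + R) h) (fun z h1 h2 h3 h4 => hF z ?_ ?_ ?_) ?_ ?_
        · rw [mem_bq]; omega
        · omega
        · rw [if_neg (by omega)]
        · omega
        · omega
      · have e1 : v.1 < b := by
          by_contra hc'
          rw [if_neg hc'] at hv3
          exact absurd hv3 (by simp)
        have e2 : w.1 < b := by
          by_contra hc'
          rw [if_neg hc'] at hw3
          exact absurd hw3 (by simp)
        refine QC.rect (x0 := x.1 - R) (x1 := min (x.1 + R) b) (y0 := x.2 - R)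
          (y1 := min (x.2 + R) h) (fun z h1 h2 h3 h4 => hF z ?_ ?_ ?_) ?_ ?_
        · rw [mem_bq]; omega
        · omega
        · rw [if_pos (by omega)]
        · omega
        · omega
      · refine QC.rect (x0 := x.1 - R) (x1 := x.1 + R) (y0 := x.2 - R)
          (y1 := min (x.2 + R) h) (fun z h1 h2 h3 h4 => hF z ?_ ?_ ?_) ?_ ?_
        · rw [mem_bq]; omega
        · omega
        · simp
        · omega
        · omega
    exact hQC c c' hce hce' hvc hwc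
  -- separation
  have hSep : SepW Q W A V T ε := by
    intro F hF0 hF
    have hsub : hann h x r R ⊆ A := by
      intro v hv
      rw [mem_hann] at hv
      exact (hmemA v).2 ⟨hv.1.1, hv.2⟩
    have h1 := hdec h x r R A T F hhx hr hrR hTg hsub hF0 (fun ω ω' h' => hF ω ω' fun v hv =>
      h' v fun h2 => (mem_hann.1 h2).1.2 (Finset.mem_sdiff.1 hv).1)
    rw [← hε'] at h1
    refine le_trans (Ex_mono hQ0 fun S _ => mul_le_mul_of_nonneg_left (ind_le_of_imp ?_) (hF0 _)) h1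
    rintro ⟨s, ⟨hse, v, hvA, hvW, hvt, hvs⟩, u, ⟨w, hw, hwu⟩, hsu⟩
    show ArmPx x r R (mk h _)
    have hvR : v ∉ Bq x R := by
      intro hvR
      have hvh : v.2 < h := by
        by_contra h3
        exact hvA ((hmemA v).2 ⟨hvR, by omega⟩)
      rw [hT0 v hvR] at hvt
      exact hvW ⟨hvR, hvh, hvt⟩
    rw [armPx_iff hrR, op_mk]
    refine ⟨u, s, ?_, near_of_corx (Finset.mem_sdiff.1 hw).1 hwu, far_of_corx hvR hvs,
      conn_symm (rtg_mono ?_ hsu)⟩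
    · have := rtg_parity hsu
      rw [Int.even_iff] at *
      omega
    · rintro z ⟨hz1, hz2⟩
      exact ⟨hz1, ((hmemA z).1 (Finset.mem_coe.1 hz2)).2⟩
  have hle : ∀ ξ : Cfg, (∀ v ∈ K, ξ v = κ v) → ∀ v, v ∉ A → ξ v = true → T v = true := by
    intro ξ hξ v hv hvt
    by_cases hvR : v ∈ Bq x R
    · have hvh : v.2 < h := by
        by_contra h3
        exact hv ((hmemA v).2 ⟨hvR, by omega⟩)
      have hvK := (hK v hvR).2 hvh
      rw [hξ v hvK, hκ v hvK hvR] at hvt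
      rw [hT0 v hvR]
      exact hvt
    · exact hT1 v hvR
  intro ξ ξ' hξ hξ' hk hk' F hF0 hF
  have h1 := cmpW_dn hQ hVA hξ hTg (hle ξ hk) (hWc ξ hk) hWA hSep hF0 hF
  have h2 := cmpW_up hQ hVA hξ' hTg (hle ξ' hk') (hWc ξ' hk') hSep hF0 hF
  have h3 : 0 < 1 - ε := by linarith
  have h4 : (1 - ε) * ((1 - ε) * Ex Q A ξ F) ≤ Ex Q A ξ' F :=
    (mul_le_mul_of_nonneg_left h1 h3.le).trans h2
  have h5 : Ex Q A ξ F = (1 / (1 - ε)) ^ 2 * ((1 - ε) * ((1 - ε) * Ex Q A ξ F)) := by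
    field_simp
  rw [h5]
  exact mul_le_mul_of_nonneg_left h4 (by positivity)

/-! ### Mixing at a place of a domain -/

/-- Mixing at the place `(x; r, R)` of the domain `D` with the configuration `η` outside: for all
outside configurations which agree with `η` in the box `(x, R)`. -/
def MxA (Q : ℝ) (D : Finset (ℤ × ℤ)) (η : Cfg) (x : ℤ × ℤ) (r R : ℤ) (ε : ℝ) : Prop :=
  ∀ ξ ξ' : Cfg, Good ξ → Good ξ' → (∀ v ∈ Bq x R, v ∉ D → ξ v = η v) →
    (∀ v ∈ Bq x R, v ∉ D → ξ' v = η v) → ∀ F : Cfg → ℝ, (∀ ω, 0 ≤ F ω) → Loc (Bq x r ∩ D) F →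
    Ex Q (Bq x R ∩ D) ξ F ≤ (1 + ε) * Ex Q (Bq x R ∩ D) ξ' F

theorem sq_inv_le {e : ℝ} (h0 : 0 ≤ e) (h1 : e ≤ 1 / 2) : (1 / (1 - e)) ^ 2 ≤ 1 + 6 * e := by
  have h2 : 0 < 1 - e := by linarith
  rw [div_pow, one_pow, div_le_iff₀ (by positivity)]
  nlinarith [mul_nonneg h0 (by linarith : (0 : ℝ) ≤ 1 - 2 * e), mul_nonneg h0 h0,
    mul_nonneg (mul_nonneg h0 h0) h0]

theorem MxA.of_rm (hQ : 1 ≤ Q) {D : Finset (ℤ × ℤ)} {η : Cfg} {x : ℤ × ℤ} {r R : ℤ} {e : ℝ}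
    (h0 : 0 ≤ e) (h1 : e ≤ 1 / 2)
    (h : RM Q (Bq x R \ D) η (Bq x R \ (Bq x R \ D)) (Bq x r \ (Bq x R \ D)) ((1 / (1 - e)) ^ 2))
    (hrR : r ≤ R) : MxA Q D η x r R (6 * e) := by
  have hQ0 : 0 < Q := by linarith
  intro ξ ξ' hξ hξ' hk hk' F hF0 hF
  have e1 : Bq x R \ (Bq x R \ D) = Bq x R ∩ D := by
    ext v
    simp only [Finset.mem_sdiff, Finset.mem_inter]
    tauto
  have e2 : Bq x r \ (Bq x R \ D) = Bq x r ∩ D := by
    ext v
    have : v ∈ Bq x r → v ∈ Bq x R := by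
      intro hv
      rw [mem_bq] at hv ⊢
      omega
    simp only [Finset.mem_sdiff, Finset.mem_inter]
    tauto
  rw [e1, e2] at h
  have h2 := h ξ ξ' hξ hξ' (fun v hv => hk v (Finset.mem_sdiff.1 hv).1 (Finset.mem_sdiff.1 hv).2)
    (fun v hv => hk' v (Finset.mem_sdiff.1 hv).1 (Finset.mem_sdiff.1 hv).2) F hF0 hF
  exact h2.trans (mul_le_mul_of_nonneg_right (sq_inv_le h0 h1) (Ex_nonneg hQ0 fun _ _ => hF0 _))

/-- Half-planes: `0`: above, `1`: left, `2`: below, `3`: right of `z`. -/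
def hpl (i : Fin 4) (z v : ℤ × ℤ) : Prop :=
  match i with
  | 0 => z.2 ≤ v.2
  | 1 => v.1 < z.1
  | 2 => v.2 < z.2
  | 3 => z.1 ≤ v.1

/-- Sites of the closed half-planes. -/
def hcl (i : Fin 4) (z v : ℤ × ℤ) : Prop :=
  match i with
  | 0 => z.2 ≤ v.2
  | 1 => v.1 ≤ z.1
  | 2 => v.2 ≤ z.2
  | 3 => z.1 ≤ v.1

/-- The first half of the side. -/
def lsd (i : Fin 4) (z v : ℤ × ℤ) : Prop :=
  match i with
  | 0 => v.1 < z.1
  | 1 => v.2 < z.2
  | 2 => v.1 < z.1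
  | 3 => v.2 < z.2

open Classical in
/-- `D` is a half-plane in the box, the squares outside have two colours, separated at `z`. The site
`x` is in the closed half-plane. -/
structure FlR (i : Fin 4) (D : Finset (ℤ × ℤ)) (η : Cfg) (x : ℤ × ℤ) (R : ℤ) (z : ℤ × ℤ)
    (pl pr : Bool) : Prop where
  pos : hcl i z x
  dom : ∀ v ∈ Bq x R, (v ∈ D ↔ hpl i z v)
  out : ∀ v ∈ Bq x R, v ∉ D → η v = if lsd i z v then pl else pr

theorem FlR.self {i : Fin 4} {D : Finset (ℤ × ℤ)} {η ξ : Cfg} {x z : ℤ × ℤ} {R : ℤ} {pl pr : Bool}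
    (h : FlR i D η x R z pl pr) (hξ : ∀ v ∈ Bq x R, v ∉ D → ξ v = η v) :
    FlR i D ξ x R z pl pr :=
  ⟨h.pos, h.dom, fun v hv hvD => (hξ v hv hvD).trans (h.out v hv hvD)⟩

/-- Symmetry. -/
theorem MxA.sym (hQ0 : 0 < Q) {τ : ℤ × ℤ → ℤ × ℤ} (hτ : τ ∈ syms) (hi : ∀ v, τ (τ v) = v)
    {D : Finset (ℤ × ℤ)} {η : Cfg} {x x' : ℤ × ℤ} {r R : ℤ} {ε : ℝ}
    (hB : ∀ (s : ℤ) (v : ℤ × ℤ), τ v ∈ Bq x' s ↔ v ∈ Bq x s)
    (h : MxA Q (D.image τ) (η ∘ τ) x' r R ε) : MxA Q D η x r R ε := by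
  classical
  obtain ⟨hg, hs⟩ := f_sym τ hτ
  have him : ∀ (s : ℤ), (Bq x s ∩ D).image τ = Bq x' s ∩ D.image τ := by
    intro s
    ext v
    simp only [Finset.mem_image, Finset.mem_inter]
    constructor
    · rintro ⟨w, ⟨h1, h2⟩, rfl⟩
      exact ⟨(hB s w).2 h1, w, h2, rfl⟩
    · rintro ⟨h1, w, h2, rfl⟩
      exact ⟨w, ⟨(hB s w).1 h1, h2⟩, rfl⟩
  have hback : ∀ A : Finset (ℤ × ℤ), (A.image τ).image τ = A := by
    intro A
    rw [Finset.image_image]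
    have : τ ∘ τ = id := funext hi
    rw [this, Finset.image_id]
  intro ξ ξ' hξ hξ' hk hk' F hF0 hF
  have key : ∀ ζ : Cfg, Good ζ → Ex Q (Bq x R ∩ D) ζ F =
      Ex Q (Bq x' R ∩ D.image τ) (ζ ∘ τ) (fun ω => F (ω ∘ τ)) := by
    intro ζ hζ
    rw [hs Q (Bq x' R ∩ D.image τ) ζ _ hQ0 hζ, ← him, hback]
    refine Ex_congr fun S _ => ?_
    congr 1
    funext v
    show _ = cf (Bq x R ∩ D) ζ S (τ (τ v))
    rw [hi]
  rw [key ξ hξ, key ξ' hξ']
  refine h _ _ (hg _ hξ) (hg _ hξ') ?_ ?_ _ (fun ω => hF0 _) ?_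
  · intro v hv hvD
    show ξ (τ v) = η (τ v)
    refine hk _ ?_ fun h' => hvD (Finset.mem_image.2 ⟨τ v, h', hi v⟩)
    rw [← hB, hi]
    exact hv
  · intro v hv hvD
    show ξ' (τ v) = η (τ v)
    refine hk' _ ?_ fun h' => hvD (Finset.mem_image.2 ⟨τ v, h', hi v⟩)
    rw [← hB, hi]
    exact hv
  · rw [← him]
    intro ω ω' hw
    exact hF _ _ fun v hv => hw _ (Finset.mem_image_of_mem _ hv)

/-- The boundary near `x` has one colour (any shape), or is flat with at most one junction. -/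
def Bd3 (D : Finset (ℤ × ℤ)) (η : Cfg) (x : ℤ × ℤ) (R : ℤ) : Prop :=
  (∀ v ∈ Bq x R, v ∉ D → η v = false) ∨ (∀ v ∈ Bq x R, v ∉ D → η v = true) ∨
    ∃ (i : Fin 4) (z : ℤ × ℤ) (pl pr : Bool), FlR i D η x R z pl pr

theorem Bd3.mono {D : Finset (ℤ × ℤ)} {η : Cfg} {x : ℤ × ℤ} {R R' : ℤ} (h : Bd3 D η x R)
    (hR : R' ≤ R) : Bd3 D η x R' := by
  have hs : ∀ v, v ∈ Bq x R' → v ∈ Bq x R := by
    intro v hv
    rw [mem_bq] at hv ⊢
    omega
  rcases h with h | h | ⟨i, z, pl, pr, h⟩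
  · exact Or.inl fun v hv => h v (hs v hv)
  · exact Or.inr (Or.inl fun v hv => h v (hs v hv))
  · exact Or.inr (Or.inr ⟨i, z, pl, pr, h.pos, fun v hv => h.dom v (hs v hv),
      fun v hv => h.out v (hs v hv)⟩)

theorem FlR.im {τ : ℤ × ℤ → ℤ × ℤ} (hi : ∀ v, τ (τ v) = v) {D : Finset (ℤ × ℤ)} {v : ℤ × ℤ} :
    v ∈ D.image τ ↔ τ v ∈ D := by
  rw [Finset.mem_image]
  constructor
  · rintro ⟨w, hw, rfl⟩
    rw [hi]; exact hw
  · intro h
    exact ⟨τ v, h, hi v⟩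

/-- **Mixing at every place where the boundary has one colour or is flat.** -/
theorem mx_all (hQ : 1 ≤ Q) (hR : RSW Q) (hS : SRSW Q) : ∃ α C : ℝ, 0 < α ∧ 0 < C ∧
    ∀ (D : Finset (ℤ × ℤ)) (η : Cfg) (x : ℤ × ℤ) (r R : ℤ), Bd3 D η x R → 1 ≤ r → r ≤ R →
      C * ((r : ℝ) / R) ^ α ≤ 1 / 2 → MxA Q D η x r R (6 * (C * ((r : ℝ) / R) ^ α)) := by
  have hQ0 : 0 < Q := by linarith
  obtain ⟨α1, C1, hα1, hC1, hdec, -⟩ := FKA.arm_fk hQ hR
  obtain ⟨α2, C2, hα2, hC2, hfl⟩ := rm_flat hQ hR hS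
  refine ⟨min α1 α2, max C1 C2, lt_min hα1 hα2, lt_max_of_lt_left hC1, ?_⟩
  intro D η x r R hB hr hrR hε
  have hrR' : (0 : ℝ) < r := by exact_mod_cast (by omega : 0 < r)
  have hR' : (0 : ℝ) < R := by exact_mod_cast (by omega : 0 < R)
  have hq1 : (r : ℝ) / R ≤ 1 := by
    rw [div_le_one hR']
    exact_mod_cast hrR
  have hq0 : (0 : ℝ) < (r : ℝ) / R := by positivity
  have hb1 : C1 * ((r : ℝ) / R) ^ α1 ≤ max C1 C2 * ((r : ℝ) / R) ^ min α1 α2 :=
    mul_le_mul (le_max_left _ _) (Real.rpow_le_rpow_of_exponent_ge hq0 hq1 (min_le_left _ _))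
      (by positivity) (hC1.le.trans (le_max_left _ _))
  have hb2 : C2 * ((r : ℝ) / R) ^ α2 ≤ max C1 C2 * ((r : ℝ) / R) ^ min α1 α2 :=
    mul_le_mul (le_max_right _ _) (Real.rpow_le_rpow_of_exponent_ge hq0 hq1 (min_le_right _ _))
      (by positivity) (hC1.le.trans (le_max_left _ _))
  have h10 : 0 ≤ C1 * ((r : ℝ) / R) ^ α1 := by positivity
  have h20 : 0 ≤ C2 * ((r : ℝ) / R) ^ α2 := by positivity
  have hmono : ∀ {e e' : ℝ}, e ≤ e' → MxA Q D η x r R (6 * e) → MxA Q D η x r R (6 * e') := by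
    intro e e' hee h ξ ξ' h1 h2 h3 h4 F h5 h6
    refine (h ξ ξ' h1 h2 h3 h4 F h5 h6).trans (mul_le_mul_of_nonneg_right (by linarith)
      (Ex_nonneg hQ0 fun _ _ => h5 _))
  -- the flat side below
  have hflat : ∀ (D : Finset (ℤ × ℤ)) (η : Cfg) (x z : ℤ × ℤ) (pl pr : Bool),
      FlR 0 D η x R z pl pr → MxA Q D η x r R (6 * (C2 * ((r : ℝ) / R) ^ α2)) := by
    intro D η x z pl pr h
    refine MxA.of_rm hQ h20 (hb2.trans hε) (hfl z.2 z.1 pl pr x r R _ η h.pos hr hrR ?_ ?_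
      (by linarith)) hrR
    · intro v hv
      rw [Finset.mem_sdiff]
      have h2 : v ∈ D ↔ z.2 ≤ v.2 := h.dom v hv
      rw [h2]
      constructor
      · rintro ⟨-, h1⟩; omega
      · intro h1; exact ⟨hv, by omega⟩
    · intro v hv hvR
      rw [h.out v hvR (Finset.mem_sdiff.1 hv).2]
      by_cases h1 : v.1 < z.1
      · rw [if_pos h1, if_pos (show lsd 0 z v from h1)]
      · rw [if_neg h1, if_neg (show ¬ lsd 0 z v from h1)]
  rcases hB with hB | hB | ⟨i, z, pl, pr, hB⟩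
  · refine hmono hb1 (MxA.of_rm hQ h10 (hb1.trans hε) (rm_closed hQ hdec hr hrR ?_
      (by linarith)) hrR)
    intro v hv hvR
    exact hB v hvR (Finset.mem_sdiff.1 hv).2
  · refine hmono hb1 (MxA.of_rm hQ h10 (hb1.trans hε) (rm_open hQ hdec hr hrR ?_
      (by linarith)) hrR)
    intro v hv hvR
    exact hB v hvR (Finset.mem_sdiff.1 hv).2
  · refine hmono hb2 ?_
    have hsw : (fun v : ℤ × ℤ => ((v.2, v.1) : ℤ × ℤ)) ∈ syms := by simp [syms]
    have hry : (fun v : ℤ × ℤ => ((v.1, -1 - v.2) : ℤ × ℤ)) ∈ syms := by simp [syms]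
    -- the image of a flat side
    have h2 : ∀ (D : Finset (ℤ × ℤ)) (η : Cfg) (x z : ℤ × ℤ) (pl pr : Bool),
        FlR 2 D η x R z pl pr → MxA Q D η x r R (6 * (C2 * ((r : ℝ) / R) ^ α2)) := by
      intro D η x z pl pr h
      have hi : ∀ v : ℤ × ℤ, (fun v : ℤ × ℤ => ((v.1, -1 - v.2) : ℤ × ℤ))
          ((fun v : ℤ × ℤ => ((v.1, -1 - v.2) : ℤ × ℤ)) v) = v := fun v => by
        simp
      refine MxA.sym hQ0 hry hi (x' := (x.1, -x.2)) ?_ (hflat _ _ _ (z.1, -z.2) pl pr ⟨?_, ?_, ?_⟩)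
      · intro s v
        rw [mem_bq, mem_bq]
        simp only
        omega
      · have h1 : x.2 ≤ z.2 := h.pos
        show -z.2 ≤ -x.2
        omega
      · intro v hv
        have hv' : ((v.1, -1 - v.2) : ℤ × ℤ) ∈ Bq x R := by
          rw [mem_bq] at hv ⊢
          simp only at hv ⊢
          omega
        have h3 : ((v.1, -1 - v.2) : ℤ × ℤ) ∈ D ↔ -1 - v.2 < z.2 := h.dom _ hv'
        rw [FlR.im hi]
        show ((v.1, -1 - v.2) : ℤ × ℤ) ∈ D ↔ -z.2 ≤ v.2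
        rw [h3]
        omega
      · intro v hv hvD
        have hv' : ((v.1, -1 - v.2) : ℤ × ℤ) ∈ Bq x R := by
          rw [mem_bq] at hv ⊢
          simp only at hv ⊢
          omega
        exact h.out _ hv' fun h' => hvD ((FlR.im hi).2 h')
    have hsi : ∀ v : ℤ × ℤ, (fun v : ℤ × ℤ => ((v.2, v.1) : ℤ × ℤ))
        ((fun v : ℤ × ℤ => ((v.2, v.1) : ℤ × ℤ)) v) = v := fun v => by simp
    have hsB : ∀ (x : ℤ × ℤ) (s : ℤ) (v : ℤ × ℤ), ((v.2, v.1) : ℤ × ℤ) ∈ Bq (x.2, x.1) s ↔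
        v ∈ Bq x s := by
      intro x s v
      rw [mem_bq, mem_bq]
      simp only
      omega
    match i, hB with
    | 0, hB => exact hflat _ _ _ _ _ _ hB
    | 2, hB => exact h2 _ _ _ _ _ _ hB
    | 3, hB =>
      refine MxA.sym hQ0 hsw hsi (x' := (x.2, x.1)) (hsB x) (hflat _ _ _ (z.2, z.1) pl pr
        ⟨?_, ?_, ?_⟩)
      · exact hB.pos
      · intro v hv
        have hv' : ((v.2, v.1) : ℤ × ℤ) ∈ Bq x R := (hsB x R _).1 hv
        have h3 := hB.dom _ hv'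
        rw [FlR.im hsi]
        exact h3
      · intro v hv hvD
        have hv' : ((v.2, v.1) : ℤ × ℤ) ∈ Bq x R := (hsB x R _).1 hv
        exact hB.out _ hv' fun h' => hvD ((FlR.im hsi).2 h')
    | 1, hB =>
      refine MxA.sym hQ0 hsw hsi (x' := (x.2, x.1)) (hsB x) (h2 _ _ _ (z.2, z.1) pl pr
        ⟨?_, ?_, ?_⟩)
      · exact hB.pos
      · intro v hv
        have hv' : ((v.2, v.1) : ℤ × ℤ) ∈ Bq x R := (hsB x R _).1 hv
        have h3 := hB.dom _ hv'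
        rw [FlR.im hsi]
        exact h3
      · intro v hv hvD
        have hv' : ((v.2, v.1) : ℤ × ℤ) ∈ Bq x R := (hsB x R _).1 hv
        exact hB.out _ hv' fun h' => hvD ((FlR.im hsi).2 h')

/-! ### Consequences -/

variable {D D' : Finset (ℤ × ℤ)} {η η' : Cfg} {x : ℤ × ℤ} {r R : ℤ} {ε : ℝ} {F G : Cfg → ℝ}

/-- The conditional expectations of a nonnegative local function are close to the expectation. -/
theorem MxA.near (hQ : 1 ≤ Q) (h : MxA Q D η x r R ε) (hD : Bq x R ∩ D' = Bq x R ∩ D)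
    (hη' : Good η') (hηη : ∀ v ∈ Bq x R, v ∉ D → η' v = η v) (hF0 : ∀ ω, 0 ≤ F ω)
    (hF : Loc (Bq x r ∩ D) F) {ξ : Cfg} (hξ : Good ξ) (hξη : ∀ v ∈ Bq x R, v ∉ D → ξ v = η v) :
    Ex Q (Bq x R ∩ D) ξ F ≤ (1 + ε) * Ex Q D' η' F ∧
      Ex Q D' η' F ≤ (1 + ε) * Ex Q (Bq x R ∩ D) ξ F := by
  have hQ0 : 0 < Q := by linarith
  have hsub : Bq x R ∩ D ⊆ D' := by
    rw [← hD]
    exact Finset.inter_subset_right
  have hcf : ∀ S : Finset (ℤ × ℤ), ∀ v ∈ Bq x R, v ∉ D → cf D' η' S v = η v := by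
    intro S v hv hvD
    rw [cf_out (fun h' => hvD (Finset.mem_inter.1 (hD ▸ Finset.mem_inter.2 ⟨hv, h'⟩)).2)]
    exact hηη v hv hvD
  rw [f_markov Q _ D' η' F hQ0 hsub hη']
  constructor
  · rw [← Ex_mul_left, ← Ex_const (Q := Q) (D := D') (η := η') hQ0 (Ex Q (Bq x R ∩ D) ξ F)]
    exact Ex_mono hQ0 fun S _ => h ξ _ hξ (f_good.1 _ _ _ hη') hξη (hcf S) F hF0 hF
  · rw [← Ex_const (Q := Q) (D := D') (η := η') hQ0 ((1 + ε) * Ex Q (Bq x R ∩ D) ξ F)]
    exact Ex_mono hQ0 fun S _ => h _ ξ (f_good.1 _ _ _ hη') hξ (hcf S) hξη F hF0 hF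

theorem close_of {a b ε : ℝ} (h1 : a ≤ (1 + ε) * b) (h2 : b ≤ (1 + ε) * a) (hε : 0 ≤ ε) :
    |a - b| ≤ ε * b := by
  rw [abs_le]
  constructor
  · rcases le_total a b with h | h
    · nlinarith
    · nlinarith
  · linarith

/-- Two domains with the same trace on the box. -/
theorem MxA.dom (hQ : 1 ≤ Q) (hε : 0 ≤ ε) (h : MxA Q D η x r R ε)
    (hD : Bq x R ∩ D' = Bq x R ∩ D) (hη : Good η) (hη' : Good η')
    (hηη : ∀ v ∈ Bq x R, v ∉ D → η' v = η v) (hF0 : ∀ ω, 0 ≤ F ω)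
    (hF : Loc (Bq x r ∩ D) F) : |Ex Q D η F - Ex Q D' η' F| ≤ ε * Ex Q D' η' F := by
  have hQ0 : 0 < Q := by linarith
  have hcf : ∀ S : Finset (ℤ × ℤ), ∀ v ∈ Bq x R, v ∉ D → cf D η S v = η v := by
    intro S v _ hvD
    rw [cf_out hvD]
  have key : ∀ S, |Ex Q (Bq x R ∩ D) (cf D η S) F - Ex Q D' η' F| ≤ ε * Ex Q D' η' F := by
    intro S
    obtain ⟨h1, h2⟩ := h.near hQ hD hη' hηη hF0 hF (f_good.1 D η S hη) (hcf S)
    exact close_of h1 h2 hε
  rw [f_markov Q _ D η F hQ0 Finset.inter_subset_right hη,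
    ← Ex_const (Q := Q) (D := D) (η := η) hQ0 (Ex Q D' η' F), ← Ex_sub]
  refine (abs_Ex_le hQ0 _).trans ?_
  rw [Ex_const hQ0, ← Ex_const (Q := Q) (D := D) (η := η) hQ0 (ε * Ex Q D' η' F)]
  exact Ex_mono hQ0 fun S _ => key S

/-- A function off the box times a nonnegative local function, two domains. -/
theorem MxA.mul2 (hQ : 1 ≤ Q) (hε : 0 ≤ ε) (h : MxA Q D η x r R ε)
    (hD : Bq x R ∩ D' = Bq x R ∩ D) (hη : Good η) (hη' : Good η')
    (hηη : ∀ v ∈ Bq x R, v ∉ D → η' v = η v) (hF0 : ∀ ω, 0 ≤ F ω)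
    (hF : Loc (Bq x r ∩ D) F) (hG : Ind (Bq x R ∩ D) G) :
    |Ex Q D η (fun ω => G ω * F ω) - Ex Q D η G * Ex Q D' η' F| ≤
      ε * (Ex Q D η (fun ω => |G ω|) * Ex Q D' η' F) := by
  have hQ0 : 0 < Q := by linarith
  have hcf : ∀ S : Finset (ℤ × ℤ), ∀ v ∈ Bq x R, v ∉ D → cf D η S v = η v := by
    intro S v _ hvD
    rw [cf_out hvD]
  have key : ∀ S, |Ex Q (Bq x R ∩ D) (cf D η S) F - Ex Q D' η' F| ≤ ε * Ex Q D' η' F := by
    intro S
    obtain ⟨h1, h2⟩ := h.near hQ hD hη' hηη hF0 hF (f_good.1 D η S hη) (hcf S)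
    exact close_of h1 h2 hε
  have e0 : Ex Q D η G * Ex Q D' η' F = Ex Q D η (fun ω => Ex Q D' η' F * G ω) := by
    rw [Ex_mul_left, mul_comm]
  rw [markov f_markov hQ0 (A := Bq x R ∩ D) Finset.inter_subset_right hη hG, e0, ← Ex_sub]
  refine (abs_Ex_le hQ0 _).trans ?_
  have e : ε * (Ex Q D η (fun ω => |G ω|) * Ex Q D' η' F) =
      Ex Q D η (fun ω => (ε * Ex Q D' η' F) * |G ω|) := by
    rw [Ex_mul_left]; ring
  rw [e]
  refine Ex_mono hQ0 fun S _ => ?_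
  have e1 : G (cf D η S) * Ex Q (Bq x R ∩ D) (cf D η S) F - Ex Q D' η' F * G (cf D η S) =
      (Ex Q (Bq x R ∩ D) (cf D η S) F - Ex Q D' η' F) * G (cf D η S) := by ring
  rw [e1, abs_mul]
  exact mul_le_mul_of_nonneg_right (key S) (abs_nonneg _)

/-- **Covariance**, functions of any sign. -/
theorem MxA.cov (hQ : 1 ≤ Q) (hε : 0 ≤ ε) (h : MxA Q D η x r R ε) (hη : Good η)
    (hF : Loc (Bq x r ∩ D) F) (hG : Ind (Bq x R ∩ D) G) :
    |Ex Q D η (fun ω => G ω * F ω) - Ex Q D η G * Ex Q D η F| ≤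
      ε * (Ex Q D η (fun ω => |G ω|) * Ex Q D η (fun ω => |F ω|)) := by
  have hp : Loc (Bq x r ∩ D) (fun ω => max (F ω) 0) := fun ω ω' hw => by simp only [hF ω ω' hw]
  have hn : Loc (Bq x r ∩ D) (fun ω => max (-F ω) 0) := fun ω ω' hw => by simp only [hF ω ω' hw]
  have h1 := h.mul2 hQ hε rfl hη hη (fun _ _ _ => rfl) (fun ω => le_max_right (F ω) 0) hp hG
  have h2 := h.mul2 hQ hε rfl hη hη (fun _ _ _ => rfl) (fun ω => le_max_right (-F ω) 0) hn hG
  have e1 : Ex Q D η (fun ω => G ω * F ω) = Ex Q D η (fun ω => G ω * max (F ω) 0) -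
      Ex Q D η (fun ω => G ω * max (-F ω) 0) := by
    rw [← Ex_sub]
    refine Ex_congr fun S _ => ?_
    rcases le_total 0 (F (cf D η S)) with h0 | h0
    · rw [max_eq_left h0, max_eq_right (by linarith)]; ring
    · rw [max_eq_right h0, max_eq_left (by linarith)]; ring
  have e2 : Ex Q D η F = Ex Q D η (fun ω => max (F ω) 0) - Ex Q D η (fun ω => max (-F ω) 0) := by
    rw [← Ex_sub]
    refine Ex_congr fun S _ => ?_
    rcases le_total 0 (F (cf D η S)) with h0 | h0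
    · rw [max_eq_left h0, max_eq_right (by linarith)]; ring
    · rw [max_eq_right h0, max_eq_left (by linarith)]; ring
  have e3 : Ex Q D η (fun ω => |F ω|) = Ex Q D η (fun ω => max (F ω) 0) +
      Ex Q D η (fun ω => max (-F ω) 0) := by
    rw [← Ex_add]
    refine Ex_congr fun S _ => ?_
    rcases le_total 0 (F (cf D η S)) with h0 | h0
    · rw [max_eq_left h0, max_eq_right (by linarith), abs_of_nonneg h0]; ring
    · rw [max_eq_right h0, max_eq_left (by linarith), abs_of_nonpos h0]; ring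
  rw [e1, e2, e3]
  rw [abs_le] at *
  constructor
  · nlinarith [h1.1, h1.2, h2.1, h2.2]
  · nlinarith [h1.1, h1.2, h2.1, h2.2]

end Vale.Agent.P167.H167.Q
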