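import Vale.Agent.P167.H167.Q.EqF
import Vale.Agent.P167.H825.Q.BdQ
import Vale.Agent.P167.H825.Reg.Fin
import Vale.Agent.P167.H469.SrswAll

/-!
# P167, general `q`: the block Q-EQUI for the data of the enlargements, no hypothesis

`bdG_EQ`, `bdQ_EQ`: the field `EQ` of CORE-ASM for helper825's data, `2 cos θ = √q`, `1 ≤ q < 4`.
-/

namespace Vale.Agent.P167.H167.Q

open Finset Filter
open Vale.Agent.P167.H718 (Dob)
open Vale.Agent.P167.H825.Q (Bc qS kS tN bdG bdQ qS_zero dob_qS)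
open Vale.Agent.P167.H542.Q (BD)

theorem bcIn_of {l : ℕ} {bc : Bc} (h : bc.In l) : BcIn l bc := by
  cases bc <;> exact h

/-- **Regularity** of the enlargements of the polygon of `S`. -/
theorem reg_dat (S : CA.Dat) {bc : Bc} (hbc : bc.In S.l) : ∃ c : ℝ, 0 < c ∧ ∀ᶠ n : ℕ in atTop,
    ∃ η : Cfg, Dob η (S.D n) (qS S n) (kS S bc n) ∧ Reg ⌊c * (n : ℝ)⌋ (S.D n) η := by
  have : NeZero S.l := ⟨by have := S.poly.1; omega⟩
  exact H825.Reg.s_REG S.l S.p S.Q S.poly S.enc S.tp S.tp0 S.tp1 bc (bcIn_of hbc)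

variable {θ β : ℝ}

/-- **Q-EQUI**: the field `EQ` for the Dobrushin data of the boundary conditions `bc`, any outside
configurations. -/
theorem bdG_EQ (h0 : 0 < θ) (h1 : θ ≤ Real.pi / 3) (hβ : Real.cos (θ / 2 + β) = Real.sin θ)
    {S : CA.Dat} {bc : Bc} (hbc : bc.In S.l) {L : Filter ℕ} (hL : L ≤ atTop)
    (hc : L.IsCountablyGenerated) {η : ℕ → Cfg}
    (hη : ∀ᶠ n in L, Dob (η n) (S.D n) (qS S n) (kS S bc n)) :
    ((bdG S θ β bc hbc L hL hc η hη).famB h0 h1 hβ).EQ := by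
  obtain ⟨c, hc0, hreg⟩ := reg_dat S hbc
  refine famB_EQ h0 h1 hβ (K8.k_rsw θ h0.le h1) (H469.srsw_cos h0 h1)
    (bdG S θ β bc hbc L hL hc η hη) ?_ ⟨c, hc0, hL hreg⟩
  filter_upwards [hL (eventually_gt_atTop 0)] with n hn
  exact qS_zero S hn

/-- **Q-EQUI**: the field `EQ` for the Dobrushin data of the boundary conditions `bc`. -/
theorem bdQ_EQ (h0 : 0 < θ) (h1 : θ ≤ Real.pi / 3) (hβ : Real.cos (θ / 2 + β) = Real.sin θ)
    {S : CA.Dat} {bc : Bc} (hbc : bc.In S.l) {L : Filter ℕ} (hL : L ≤ atTop)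
    (hc : L.IsCountablyGenerated) : ((bdQ S θ β bc hbc L hL hc).famB h0 h1 hβ).EQ :=
  bdG_EQ h0 h1 hβ hbc hL hc (hL (dob_qS S bc))

end Vale.Agent.P167.H167.Q
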