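import Vale.Agent.P167.H718.Lam.Cut

/-!
# P167, general `q`, block Q-LAM: products of the local functions at the special points

`card_sp`: the number of the special indices is bounded. `spe_far`: they are far from each other.
`ex_sp`: the expectation of the product of the local products is comparable with the product of the
expectations.
-/

namespace Vale.Agent.P167.H167.Q

open Finset Filter Vale.Agent.P167.BR Vale.Agent.P167.FK
open Vale.Agent.P167.E6 (IsPolygon Encloses)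
open Vale.Agent.P167.H192.Q (SRSW)
open Vale.Agent.P167.H601.LG (GeoN Spe SepL)
open Vale.Agent.P167.H718.Lam (Pg)
open Vale.Agent.P167.H975 (TX TX_loc mx_ratio ex_prod)

/-- **Number of the special indices.** -/
theorem card_sep {L N : ℕ} {τ : ℕ → ℤ} {k : ℕ} (hL : 0 < L) (h : SepL L N τ k) (I : Finset ℕ)
    (hI : ∀ j ∈ I, j < N ∧ Spe τ k j) : I.card ≤ N / L + 1 := by
  have h1 : I.card ≤ (range (N / L + 1)).card := by
    refine card_le_card_of_injOn (fun j => j / L) (fun j hj => ?_) ?_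
    · have h2 := (hI j hj).1
      rw [coe_range, Set.mem_Iio]
      exact Nat.lt_succ_of_le (Nat.div_le_div_right h2.le)
    · have key : ∀ i ∈ I, ∀ j ∈ I, i < j → i / L ≠ j / L := by
        intro i hi j hj hij he
        obtain ⟨a1, a2⟩ := hI i hi
        obtain ⟨b1, b2⟩ := hI j hj
        have h3 := (h i j hij b1 a2 b2).1
        have h4 := Nat.div_le_div_right (c := L) h3
        rw [Nat.add_div_right _ hL, ← he] at h4
        omega
      intro i hi j hj he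
      by_contra hne
      rcases Nat.lt_or_gt_of_ne hne with h5 | h5
      · exact key i hi j hj h5 he
      · exact key j hj i hi h5 he.symm
  rwa [card_range] at h1

theorem mem_sp {X : Pg} {j : ℕ} : j ∈ X.sp ↔ j < X.N ∧ Spe X.τ X.k j := by
  classical
  unfold Pg.sp
  rw [mem_filter, mem_range]

/-- **Number of the special indices** of a regular polygon. -/
theorem card_sp {σ R : ℝ} (hσ : 0 < σ) {n : ℕ} (hn : 2 ≤ σ * n) {X : Pg} (h : X.Ok n σ R) :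
    X.sp.card ≤ ⌊2 * R / σ⌋₊ + 1 := by
  have hL2 : σ * n / 2 ≤ (⌊σ * n⌋₊ : ℝ) := by
    have := Nat.lt_floor_add_one (σ * (n : ℝ))
    linarith
  have hn0 : (0 : ℝ) < n := by
    by_contra hc
    push Not at hc
    nlinarith
  have hLp : 0 < ⌊σ * (n : ℝ)⌋₊ := Nat.floor_pos.2 (by linarith)
  have h1 := card_sep hLp h.sep X.sp fun j hj => mem_sp.1 hj
  refine h1.trans (Nat.succ_le_succ (Nat.le_floor ?_))
  have hLr : (0 : ℝ) < ⌊σ * (n : ℝ)⌋₊ := by exact_mod_cast hLp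
  calc ((X.N / ⌊σ * (n : ℝ)⌋₊ : ℕ) : ℝ) ≤ (X.N : ℝ) / ⌊σ * (n : ℝ)⌋₊ := Nat.cast_div_le
    _ ≤ R * n / (σ * n / 2) := div_le_div₀ ((Nat.cast_nonneg _).trans h.len) h.len (by positivity) hL2
    _ = 2 * R / σ := by field_simp

/-- **The special points are far from each other.** -/
theorem spe_far {n N L k : ℕ} {q : ZMod N → ℤ × ℤ} {τ : ℕ → ℤ} (hG : GeoN n N q τ)
    (hS : SepL L N τ k) {d : ℤ} (h1 : 3 * d < n) (h2 : 2 * d < L) {i j : ℕ} (hi : i < N) (hj : j < N)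
    (hsi : Spe τ k i) (hsj : Spe τ k j) (hne : i ≠ j) :
    d < nm (q (i : ZMod N) - q (j : ZMod N)) := by
  by_contra hc
  push Not at hc
  have h3 := hG.near hi.le hj.le h1 hc
  rcases Nat.lt_or_gt_of_ne hne with h4 | h4
  · obtain ⟨h5, h6⟩ := hS i j h4 hj hsi hsj
    rw [abs_of_nonpos (by omega)] at h3
    omega
  · obtain ⟨h5, h6⟩ := hS j i h4 hi hsj hsi
    rw [abs_of_nonneg (by omega)] at h3
    omega

theorem nm_le_of_Bq {v x : ℤ × ℤ} {r : ℤ} (h : v ∈ Bq x r) : nm (v - x) ≤ r :=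
  H601.LG.nm_of_Bq h

theorem disj_Bq {x y : ℤ × ℤ} {r R : ℤ} (h : R + r < nm (x - y)) : Disjoint (Bq x R) (Bq y r) := by
  rw [disjoint_left]
  intro v h1 h2
  have h3 := nm_le_of_Bq h1
  have h4 := nm_le_of_Bq h2
  have h5 : nm (x - y) ≤ nm (v - x) + nm (v - y) := by
    have e : x - y = (v - y) + (x - v) := by abel
    have h6 := H45.nm_add_le (v - y) (x - v)
    rw [← e] at h6
    have h7 : nm (x - v) = nm (v - x) := by
      rw [← H45.nm_neg, neg_sub]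
    omega
  omega

/-- **The expectation of the product** of the local products is comparable with the product of the
expectations. -/
theorem ex_sp {θ : ℝ} (h0 : 0 < θ) (h1 : θ ≤ Real.pi / 3) (hR : RSW (2 * Real.cos θ))
    (hSR : SRSW (2 * Real.cos θ)) : ∀ σ R : ℝ, 0 < σ → ∃ ρ₀ : ℝ, 0 < ρ₀ ∧ ∀ ρ : ℝ, 0 < ρ → ρ ≤ ρ₀ →
      ∃ (c C : ℝ) (n₀ : ℕ), 0 < c ∧ 0 < C ∧ ∀ n : ℕ, n₀ ≤ n → ∀ X : Pg, X.Ok n σ R →
        (∀ j ∈ X.sp, ∀ ω, 0 ≤ X.T θ j ⌊ρ * n⌋ ω) →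
        c * ∏ j ∈ X.sp, X.eT θ j ⌊ρ * n⌋ ≤ X.E θ (fun ω => ∏ j ∈ X.sp, X.T θ j ⌊ρ * n⌋ ω) ∧
          X.E θ (fun ω => ∏ j ∈ X.sp, X.T θ j ⌊ρ * n⌋ ω) ≤ C * ∏ j ∈ X.sp, X.eT θ j ⌊ρ * n⌋ := by
  intro σ R hσ
  have hQ1 : 1 ≤ 2 * Real.cos θ := by
    have h := Real.cos_le_cos_of_nonneg_of_le_pi h0.le (by linarith [Real.pi_pos]) h1
    rw [Real.cos_pi_div_three] at h
    linarith
  have hQ0 : 0 < 2 * Real.cos θ := by linarith
  obtain ⟨K, hK1, hK⟩ := mx_ratio hQ1 hR hSR (ε := 1 / 2) (by norm_num)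
  obtain ⟨κ, hκ, hκσ, hκ1⟩ : ∃ κ : ℝ, 0 < κ ∧ 16 * κ ≤ σ ∧ 16 * κ ≤ 1 :=
    ⟨min σ 1 / 16, by positivity, by linarith [min_le_left σ 1], by linarith [min_le_right σ 1]⟩
  refine ⟨κ / (2 * K), by positivity, fun ρ hρ hρ0 => ?_⟩
  rw [le_div_iff₀ (by positivity)] at hρ0
  obtain ⟨ms, hms⟩ : ∃ ms : ℕ, ms = ⌊2 * R / σ⌋₊ + 1 := ⟨_, rfl⟩
  obtain ⟨n₀, hn₀⟩ : ∃ n₀ : ℕ, 4 / κ + 4 / ρ + 4 / σ ≤ n₀ := ⟨⌈4 / κ + 4 / ρ + 4 / σ⌉₊, Nat.le_ceil _⟩
  refine ⟨(1 / 2) ^ ms, (3 / 2) ^ ms, n₀, by positivity, by positivity, fun n hn X hX hT => ?_⟩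
  have hnn : 4 / κ + 4 / ρ + 4 / σ ≤ (n : ℝ) := hn₀.trans (by exact_mod_cast hn)
  have p1 : 0 < 4 / κ := by positivity
  have p2 : 0 < 4 / ρ := by positivity
  have p3 : 0 < 4 / σ := by positivity
  have q1 : 4 / κ ≤ n := by linarith
  have q2 : 4 / ρ ≤ n := by linarith
  have q3 : 4 / σ ≤ n := by linarith
  rw [div_le_iff₀ hκ] at q1
  rw [div_le_iff₀ hρ] at q2
  rw [div_le_iff₀ hσ] at q3
  have hn0 : (0 : ℝ) < n := by linarith
  -- the radii
  obtain ⟨r, hr⟩ : ∃ r : ℤ, r = ⌊ρ * (n : ℝ)⌋ := ⟨_, rfl⟩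
  obtain ⟨R', hR'⟩ : ∃ R' : ℤ, R' = ⌊κ * (n : ℝ)⌋ := ⟨_, rfl⟩
  obtain ⟨L', hL'⟩ : ∃ L' : ℕ, L' = ⌊σ * (n : ℝ)⌋₊ := ⟨_, rfl⟩
  have r1 := Int.floor_le (ρ * (n : ℝ))
  have r2 := Int.lt_floor_add_one (ρ * (n : ℝ))
  have s1 := Int.floor_le (κ * (n : ℝ))
  have s2 := Int.lt_floor_add_one (κ * (n : ℝ))
  have t2 := Nat.lt_floor_add_one (σ * (n : ℝ))
  rw [← hr] at r1 r2
  rw [← hR'] at s1 s2
  rw [← hL'] at t2
  have m1 : 16 * (κ * n) ≤ σ * n := by
    have := mul_le_mul_of_nonneg_right hκσ hn0.le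
    linarith
  have m2 : 16 * (κ * n) ≤ n := by
    have := mul_le_mul_of_nonneg_right hκ1 hn0.le
    linarith
  have m3 : K * (ρ * n) ≤ κ * n / 2 := by
    have := mul_le_mul_of_nonneg_right hρ0 hn0.le
    linarith
  have hr1 : 1 ≤ r := by
    have : (0 : ℝ) < r := by linarith
    have : 0 < r := by exact_mod_cast this
    omega
  have hKr : K * r ≤ R' := by
    have : K * r ≤ K * (ρ * n) := mul_le_mul_of_nonneg_left r1 (by linarith)
    linarith
  have hrR : r ≤ R' := by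
    have : (r : ℝ) ≤ R' := by
      have h2 : (0 : ℝ) ≤ r := by exact_mod_cast (by omega : 0 ≤ r)
      nlinarith
    exact_mod_cast this
  have hR'1 : 1 ≤ R' := by omega
  have hR'σ : R' ≤ ⌊σ * (n : ℝ)⌋ := by
    rw [Int.le_floor]
    linarith
  have hfar3 : 3 * (2 * R') < (n : ℤ) := by
    have : (3 * (2 * R') : ℝ) < n := by linarith
    exact_mod_cast this
  have hfarL : 2 * (2 * R') < (L' : ℤ) := by
    have : (2 * (2 * R') : ℝ) < L' := by linarith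
    exact_mod_cast this
  have hcard : X.sp.card ≤ ms := by
    rw [hms]
    exact card_sp hσ (by linarith) hX
  have hsep := hX.sep
  rw [← hL'] at hsep
  have key := ex_prod (Q := 2 * Real.cos θ) (D := X.D) (η := X.η) (r := r) (R := R') (ε := 1 / 2) hQ1
    (by norm_num) (by norm_num) hX.reg.good (fun j : ℕ => X.q (j : ZMod X.N))
    (fun j ω => X.T θ j r ω) X.sp (fun j hj => ?_) (fun j hj ω => ?_) (fun j hj => TX_loc _ _ _ _)
    (fun i hi j hj hij => ?_)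
  · have hp0 : 0 ≤ ∏ j ∈ X.sp, X.eT θ j r := prod_nonneg fun j hj =>
      FKA.Ex_nonneg hQ0 fun S _ => by
        have := hT j hj
        rw [← hr] at this
        exact this _
    rw [← hr]
    have e1 : (1 - 1 / 2 : ℝ) = 1 / 2 := by norm_num
    have e2 : (1 + 1 / 2 : ℝ) = 3 / 2 := by norm_num
    rw [e1, e2] at key
    constructor
    · refine le_trans (mul_le_mul_of_nonneg_right ?_ hp0) key.1
      exact pow_le_pow_of_le_one (by norm_num) (by norm_num) hcard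
    · refine key.2.trans (mul_le_mul_of_nonneg_right ?_ hp0)
      exact pow_le_pow_right₀ (by norm_num) hcard
  · have hjN := (mem_sp.1 hj).1
    exact hK X.D X.η _ r R' (hX.reg.bd _ (H718.q_mem_sites hX.poly hX.enc _) R' hR'1 hR'σ) hr1 hKr
  · have := hT j hj
    rw [← hr] at this
    exact this ω
  · obtain ⟨a1, a2⟩ := mem_sp.1 hi
    obtain ⟨b1, b2⟩ := mem_sp.1 hj
    have h3 := spe_far hX.geo hsep hfar3 hfarL a1 b1 a2 b2 hij
    exact disj_Bq (by omega)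

end Vale.Agent.P167.H167.Q
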