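import Vale.Agent.P167.H506.Q.Cmp

/-!
# P167, general `q`, block Q-MIX-J: comparison of outside configurations next to a frozen cluster

`W` is a set of squares outside of the domain whose even corners are joined outside of the domain.
A connection of the outside to a block which uses only squares of the domain (a raw connection) is the
only way to influence the block: next to `W` (a wired side, a junction free | wired) raw arms decay by
the strong Russo-Seymour-Welsh property.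
-/

namespace Vale.Agent.P167.H167.Q

open Finset Vale.Agent.P167.FK Vale.Agent.P167.FKA
open Vale.Agent.P145.FB (PStep PConn)
open Vale.Agent.P167.H259 (f_markov f_fkg f_comp f_comp2 Ex_out cf_cf PC_mono four lattice_w
  cf_mono2 cf_mono)
open Vale.Agent.P167.H519 (cf_in ind_le_of_imp loc_mono pc_of_cor pa_cor pa_even conn_symm mT)
open Vale.Agent.P167.H562.GL (Ex_split eq_of_inc)
open Vale.Agent.P167.H506.Q (sub_le cl cl_nonneg cl_loc cl_dec cl_pos ratio_dn)
open Relation

variable {Q : ℝ} {A V : Finset (ℤ × ℤ)} {W : Set (ℤ × ℤ)} {ξ ξ' ζ : Cfg} {F : Cfg → ℝ} {ε : ℝ}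

/-- The even corners of the squares of `W`. -/
def Cw (W : Set (ℤ × ℤ)) : Set (ℤ × ℤ) := {s | Even (s.1 + s.2) ∧ ∃ v ∈ W, Cor v s}

/-- Even corners of the open squares of `ω` outside `A` and `W`. -/
def SxW (W : Set (ℤ × ℤ)) (A : Finset (ℤ × ℤ)) (ω : Cfg) : Set (ℤ × ℤ) :=
  {s | Even (s.1 + s.2) ∧ ∃ v, v ∉ A ∧ v ∉ W ∧ ω v = true ∧ Cor v s}

/-- `ω` joins a site of `S` to a corner of a square of `V` by open squares of `A`. -/
def JnA (A : Finset (ℤ × ℤ)) (S : Set (ℤ × ℤ)) (V : Finset (ℤ × ℤ)) (ω : Cfg) : Prop :=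
  ∃ s ∈ S, ∃ u, (∃ v ∈ V, Cor v u) ∧ ReflTransGen (PStep (op ω ∩ A)) s u

theorem step_mono {F G : Set (ℤ × ℤ)} (h : F ⊆ G) {u v : ℤ × ℤ} (hs : PStep F u v) :
    PStep G u v := ⟨hs.1, hs.2.1, h hs.2.2⟩

theorem rtg_mono {F G : Set (ℤ × ℤ)} (h : F ⊆ G) {u v : ℤ × ℤ}
    (hs : ReflTransGen (PStep F) u v) : ReflTransGen (PStep G) u v :=
  hs.lift (fun w => w) fun _ _ h' => step_mono h h'

/-- Raw connections in the smaller domain. -/
theorem jnA_erase {e c : ℤ × ℤ} (heA : e ∈ A) (hc : c ∈ SxW W A ξ) (hec : Cor e c)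
    (S T : Finset (ℤ × ℤ))
    (h : JnA (A.erase e) (SxW W (A.erase e) (cf A ξ S)) V (cf (A.erase e) (cf A ξ S) T)) :
    JnA A (SxW W A ξ) V (cf (A.erase e) (cf A ξ S) T) := by
  have hsub : (op (cf (A.erase e) (cf A ξ S) T) ∩ ↑(A.erase e)) ⊆
      op (cf (A.erase e) (cf A ξ S) T) ∩ ↑A := by
    intro v hv
    exact ⟨hv.1, Finset.mem_coe.2 (Finset.mem_of_mem_erase (Finset.mem_coe.1 hv.2))⟩
  obtain ⟨s, ⟨hse, v, hvA', hvW, hvω, hvs⟩, u, hu, hsu⟩ := h
  have hsu' := rtg_mono hsub hsu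
  by_cases hvA : v ∈ A
  · have hve : v = e := by
      by_contra h
      exact hvA' (Finset.mem_erase.2 ⟨h, hvA⟩)
    subst hve
    refine ⟨c, hc, u, hu, ?_⟩
    by_cases hcs : c = s
    · rw [hcs]; exact hsu'
    · refine ReflTransGen.head ?_ hsu'
      refine step_of_cor (F := op _ ∩ ↑A) (v := v) ⟨?_, Finset.mem_coe.2 heA⟩ hec hvs hc.1 hse hcs
      show cf (A.erase v) (cf A ξ S) T v = true
      rw [cf_out (Finset.notMem_erase _ _)]
      exact hvω
  · refine ⟨s, ⟨hse, v, hvA, hvW, ?_, hvs⟩, u, hu, hsu'⟩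
    rw [cf_out hvA] at hvω
    exact hvω

/-- If no square of `A` touches the sources, the connections of the squares of `A` in the upper
configuration exist in the lower one. -/
theorem path_dn (hW : ∀ c ∈ Cw W, ∀ c' ∈ Cw W, PC (cf A ξ ∅) c c')
    (he : ∀ e ∈ A, ∀ c ∈ SxW W A ξ', ¬ Cor e c) (S : Finset (ℤ × ℤ)) {a : ℤ × ℤ} (ha : a ∈ A)
    {u : ℤ × ℤ} (hu : PC (cf A ξ' S) (FK.pa a) u) :
    Even (u.1 + u.2) ∧ ((PC (cf A ξ S) (FK.pa a) u ∧ ∃ v ∈ A, Cor v u) ∨
      ((¬ ∃ v ∈ A, Cor v u) ∧ ∃ w ∈ Cw W, PC (cf A ξ S) (FK.pa a) w)) := by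
  have hmono : ∀ {c c' : ℤ × ℤ}, PC (cf A ξ ∅) c c' → PC (cf A ξ S) c c' := by
    intro c c' h
    refine PC_mono (fun v hv => ?_) h
    by_cases hvA : v ∈ A
    · rw [cf_in hvA] at hv; simp at hv
    · rw [cf_out hvA] at hv ⊢; exact hv
  induction hu with
  | refl => exact ⟨pa_even a, Or.inl ⟨ReflTransGen.refl, a, ha, pa_cor a⟩⟩
  | @tail u w _ huw ih =>
    obtain ⟨hue, ih⟩ := ih
    have hcw := cor_of_step huw
    have hwe : Even (w.1 + w.2) := (FKA.even_step huw).1 hue
    obtain ⟨v, hv⟩ : ∃ v : ℤ × ℤ, v = (min u.1 w.1, min u.2 w.2) := ⟨_, rfl⟩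
    rw [← hv] at hcw
    have hm : cf A ξ' S v = true := by rw [hv]; exact huw.2.2
    refine ⟨hwe, ?_⟩
    rcases ih with ⟨h1, v1, hv1A, hv1u⟩ | ⟨h1, w1, hw1, h2⟩
    · by_cases hvA : v ∈ A
      · refine Or.inl ⟨h1.tail ⟨huw.1, huw.2.1, ?_⟩, v, hvA, hcw.2⟩
        rw [← hv]
        show cf A ξ S v = true
        rw [cf_in hvA] at hm ⊢
        exact hm
      · rw [cf_out hvA] at hm
        have hvW : v ∈ W := by
          by_contra hvW
          exact he v1 hv1A u ⟨hue, v, hvA, hvW, hm, hcw.1⟩ hv1u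
        have h3 : PC (cf A ξ S) (FK.pa a) w :=
          h1.trans (hmono (hW u ⟨hue, v, hvW, hcw.1⟩ w ⟨hwe, v, hvW, hcw.2⟩))
        by_cases hwA : ∃ v ∈ A, Cor v w
        · exact Or.inl ⟨h3, hwA⟩
        · exact Or.inr ⟨hwA, w, ⟨hwe, v, hvW, hcw.2⟩, h3⟩
    · have hvA : v ∉ A := fun h => h1 ⟨v, h, hcw.1⟩
      rw [cf_out hvA] at hm
      by_cases hwA : ∃ v ∈ A, Cor v w
      · obtain ⟨v1, hv1A, hv1w⟩ := hwA
        have hvW : v ∈ W := by
          by_contra hvW
          exact he v1 hv1A w ⟨hwe, v, hvA, hvW, hm, hcw.2⟩ hv1w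
        exact Or.inl ⟨h2.trans (hmono (hW w1 hw1 w ⟨hwe, v, hvW, hcw.2⟩)), v1, hv1A, hv1w⟩
      · exact Or.inr ⟨hwA, w1, hw1, h2⟩

theorem pb_cor' (v : ℤ × ℤ) : Cor v (FK.pb v) := by
  unfold FK.pb Cor
  by_cases h : Even (v.1 + v.2) <;> simp [h]

theorem path_dn' (hW : ∀ c ∈ Cw W, ∀ c' ∈ Cw W, PC (cf A ξ ∅) c c')
    (he : ∀ e ∈ A, ∀ c ∈ SxW W A ξ', ¬ Cor e c) (S : Finset (ℤ × ℤ)) {a : ℤ × ℤ} (ha : a ∈ A)
    (hu : PC (cf A ξ' S) (FK.pa a) (FK.pb a)) : PC (cf A ξ S) (FK.pa a) (FK.pb a) := by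
  rcases (path_dn hW he S ha hu).2 with h | h
  · exact h.1
  · exact absurd ⟨a, ha, pb_cor' a⟩ h.1

/-- **Comparison of two boundary conditions on the event of no raw connection**, for all nonnegative
local functions. -/
theorem gen_compW (hQ : 1 ≤ Q) (hF0 : ∀ ω, 0 ≤ F ω) (hL : Loc V F) :
    ∀ (n : ℕ) (A : Finset (ℤ × ℤ)) (ξ ξ' : Cfg),
    A.card = n → V ⊆ A → Good ξ → Good ξ' → (∀ v, v ∉ A → ξ v = true → ξ' v = true) →
    (∀ c ∈ Cw W, ∀ c' ∈ Cw W, PC (cf A ξ ∅) c c') →
    Ex Q A ξ' (fun ω => F ω * (1 - {ω | JnA A (SxW W A ξ') V ω}.indicator 1 ω)) ≤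
      Ex Q A ξ F := by
  have hQ0 : 0 < Q := by linarith
  intro n
  induction n with
  | zero =>
    intro A ξ ξ' hn hVA hξ hξ' hle hW
    rw [Finset.card_eq_zero] at hn
    subst hn
    have hV : V = ∅ := Finset.subset_empty.1 hVA
    subst hV
    have h1 : ∀ ω ω' : Cfg, F ω = F ω' := fun ω ω' => hL ω ω' fun v hv => absurd hv (by simp)
    refine (Ex_mono (G := fun _ => F ξ) hQ0 fun S _ => ?_).trans ?_
    · rw [h1 _ ξ]
      have := hF0 ξ
      have h2 := ind_nonneg {ω | JnA ∅ (SxW W ∅ ξ') ∅ ω} (cf ∅ ξ' S)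
      nlinarith
    · rw [← Ex_congr (F := fun _ => F ξ) (G := F) fun S _ => h1 _ _, Ex_const hQ0, Ex_const hQ0]
  | succ n ih =>
    intro A ξ ξ' hn hVA hξ hξ' hle hW
    by_cases he : ∃ e ∈ A, ∃ c ∈ SxW W A ξ', Cor e c
    · obtain ⟨e, heA, c, hc, hec⟩ := he
      by_cases heV : e ∈ V
      · -- the event of no connection is empty
        have h1 : ∀ ω : Cfg, F ω * (1 - {ω | JnA A (SxW W A ξ') V ω}.indicator 1 ω) = 0 := by
          intro ω
          have h2 : ω ∈ {ω | JnA A (SxW W A ξ') V ω} :=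
            ⟨c, hc, c, ⟨e, heV, hec⟩, ReflTransGen.refl⟩
          rw [Set.indicator_of_mem h2]
          simp
        simp only [h1]
        rw [Ex_const hQ0]
        exact Ex_nonneg hQ0 fun S _ => hF0 _
      · set A' := A.erase e with hA'
        have hA'A : A' ⊆ A := Finset.erase_subset _ _
        have hcard : A'.card = n := by rw [hA', Finset.card_erase_of_mem heA, hn]; rfl
        have hVA' : V ⊆ A' := fun v hv => Finset.mem_erase.2 ⟨fun h => heV (h ▸ hv), hVA hv⟩
        have heA' : e ∉ A' := by rw [hA']; exact Finset.notMem_erase _ _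
        have hnot : ∀ v, v ∉ A' → v ∉ A ∨ v = e := by
          intro v hv
          by_cases h : v = e
          · exact Or.inr h
          · exact Or.inl fun h' => hv (Finset.mem_erase.2 ⟨h, h'⟩)
        have g0 : Good (cf A ξ ∅) := f_good.1 A ξ ∅ hξ
        have g1 : Good (cf A ξ {e}) := f_good.1 A ξ {e} hξ
        have g0' : Good (cf A ξ' ∅) := f_good.1 A ξ' ∅ hξ'
        have g1' : Good (cf A ξ' {e}) := f_good.1 A ξ' {e} hξ'
        have hWS : ∀ S : Finset (ℤ × ℤ), ∀ c ∈ Cw W, ∀ c' ∈ Cw W,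
            PC (cf A' (cf A ξ S) ∅) c c' := by
          intro S c hc c' hc'
          refine PC_mono (fun v hv => ?_) (hW c hc c' hc')
          by_cases hvA : v ∈ A
          · rw [cf_in hvA] at hv; simp at hv
          · rw [cf_out fun h => hvA (hA'A h), cf_out hvA]
            rw [cf_out hvA] at hv
            exact hv
        set p := Pr Q A ξ {ω : Cfg | ω e = true} with hp
        set p' := Pr Q A ξ' {ω : Cfg | ω e = true} with hp'
        have hp0 : 0 ≤ p := Pr_nonneg hQ0 _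
        have hp1 : p' ≤ 1 := Pr_le_one hQ0 _
        have hpp : p ≤ p' := by
          have k1 : p = Pr Q A (cf A ξ ∅) {ω : Cfg | ω e = true} := by
            rw [hp]
            exact Ex_out (fun v hv => by rw [cf_out hv]) _
          have k2 : p' = Pr Q A (cf A ξ' ∅) {ω : Cfg | ω e = true} := by
            rw [hp']
            exact Ex_out (fun v hv => by rw [cf_out hv]) _
          rw [k1, k2]
          refine f_comp Q A _ _ _ hQ g0 g0' (fun v hv => ?_) ?_
          · by_cases h : v ∈ A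
            · rw [cf_in h] at hv; simp at hv
            · rw [cf_out h] at hv ⊢
              exact hle v h hv
          · exact IncS.incF (A := {ω : Cfg | ω e = true}) fun ω ω' h h' => h e h'
        -- induction
        have i1 := ih A' (cf A ξ {e}) (cf A ξ' {e}) hcard hVA' g1 g1' (fun v hv hvt => by
          rcases hnot v hv with h | h
          · rw [cf_out h] at hvt ⊢
            exact hle v h hvt
          · subst h
            rw [cf_in heA]; simp) (hWS {e})
        have i2 := ih A' (cf A ξ ∅) (cf A ξ' ∅) hcard hVA' g0 g0' (fun v hv hvt => by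
          rcases hnot v hv with h | h
          · rw [cf_out h] at hvt ⊢
            exact hle v h hvt
          · subst h
            rw [cf_in heA] at hvt; simp at hvt) (hWS ∅)
        have i3 := ih A' (cf A ξ ∅) (cf A ξ' {e}) hcard hVA' g0 g1' (fun v hv hvt => by
          rcases hnot v hv with h | h
          · rw [cf_out h] at hvt ⊢
            exact hle v h hvt
          · subst h
            rw [cf_in heA]; simp) (hWS ∅)
        -- the left side
        have hJ : ∀ S : Finset (ℤ × ℤ),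
            Ex Q A' (cf A ξ' S) (fun ω => F ω *
              (1 - {ω | JnA A (SxW W A ξ') V ω}.indicator 1 ω)) ≤
            Ex Q A' (cf A ξ' S) (fun ω => F ω *
              (1 - {ω | JnA A' (SxW W A' (cf A ξ' S)) V ω}.indicator 1 ω)) := by
          intro S
          refine Ex_mono hQ0 fun T _ => mul_le_mul_of_nonneg_left (sub_le_sub_left
            (ind_le_of_imp ?_) _) (hF0 _)
          exact jnA_erase heA hc hec S T
        rw [Ex_split hQ0 heA hξ F, Ex_split hQ0 heA hξ' (fun ω => F ω *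
          (1 - {ω | JnA A (SxW W A ξ') V ω}.indicator 1 ω)), ← hp, ← hp', ← hA']
        have j1 := hJ {e}
        have j0 := hJ ∅
        set a1 := Ex Q A' (cf A ξ {e}) F
        set a0 := Ex Q A' (cf A ξ ∅) F
        set b1 := Ex Q A' (cf A ξ' {e}) (fun ω => F ω *
          (1 - {ω | JnA A (SxW W A ξ') V ω}.indicator 1 ω))
        set b0 := Ex Q A' (cf A ξ' ∅) (fun ω => F ω *
          (1 - {ω | JnA A (SxW W A ξ') V ω}.indicator 1 ω))
        have k1 : b1 ≤ a1 := j1.trans i1
        have k2 : b0 ≤ a0 := j0.trans i2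
        have k3 : b1 ≤ a0 := j1.trans i3
        have e1 : p' * b1 + (1 - p') * b0 = p * b1 + (1 - p') * b0 + (p' - p) * b1 := by ring
        have e2 : p * a1 + (1 - p) * a0 = p * a1 + (1 - p') * a0 + (p' - p) * a0 := by ring
        rw [e1, e2]
        have q1 := mul_le_mul_of_nonneg_left k1 hp0
        have q2 := mul_le_mul_of_nonneg_left k2 (sub_nonneg.2 hp1)
        have q3 := mul_le_mul_of_nonneg_left k3 (sub_nonneg.2 hpp)
        linarith
    · push Not at he
      have key : ∀ F : Cfg → ℝ, IncF F → (∀ ω, 0 ≤ F ω) → Loc V F →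
          Ex Q A ξ F = Ex Q A ξ' F := by
        intro F hF _ hL
        refine le_antisymm ?_ ?_
        · refine f_comp2 Q A ξ ξ' F hQ hξ hξ' ?_ hF (loc_mono hVA hL)
          intro S hS a ha haS hpc
          refine PC_mono (fun v hv => ?_) hpc
          by_cases h : v ∈ A
          · rw [cf_in h] at hv ⊢; exact hv
          · rw [cf_out h] at hv ⊢; exact hle v h hv
        · refine f_comp2 Q A ξ' ξ F hQ hξ' hξ ?_ hF (loc_mono hVA hL)
          intro S hS a ha haS hpc
          exact path_dn' hW he S ha hpc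
      have h1 := eq_of_inc (Q := Q) key V F hL ∅ (by simp)
      have h2 : ∀ ω, F ω * mT ∅ ω = F ω := fun ω => by simp [mT]
      simp only [h2] at h1
      rw [h1]
      refine Ex_mono hQ0 fun S _ => ?_
      have h3 := ind_nonneg {ω | JnA A (SxW W A ξ') V ω} (cf A ξ' S)
      have h4 := hF0 (cf A ξ' S)
      nlinarith

/-- **Exploration from the outside**: off the raw connection, a decreasing function of `V` is at least
as large as with the lower configuration. -/
theorem dec_compW (hQ : 1 ≤ Q) (hFd : IncF fun ω => - F ω) (hL : Loc V F) (hζ : Good ζ)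
    (hW : ∀ c ∈ Cw W, ∀ c' ∈ Cw W, PC ζ c c')
    {m : ℝ} : ∀ (n : ℕ) (A : Finset (ℤ × ℤ)) (ξ : Cfg), A.card = n → V ⊆ A →
    Good ξ → (∀ v ∈ A, v ∉ W) → (∀ v ∈ A, ζ v = false) →
    (∀ v, v ∉ A → ζ v = true → ξ v = true) → m ≤ Ex Q A ζ F →
    m * Ex Q A ξ (fun ω => 1 - {ω | JnA A (SxW W A ξ) V ω}.indicator 1 ω) ≤
      Ex Q A ξ (fun ω => F ω * (1 - {ω | JnA A (SxW W A ξ) V ω}.indicator 1 ω)) := by
  have hQ0 : 0 < Q := by linarith
  intro n
  induction n with
  | zero =>
    intro A ξ hn hVA hξ hWA hζA hle hm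
    rw [Finset.card_eq_zero] at hn
    subst hn
    have hV : V = ∅ := Finset.subset_empty.1 hVA
    subst hV
    have h1 : ∀ ω ω' : Cfg, F ω = F ω' := fun ω ω' => hL ω ω' fun v hv => absurd hv (by simp)
    rw [← Ex_mul_left]
    refine Ex_mono hQ0 fun S _ => mul_le_mul_of_nonneg_right ?_ (by
      have := ind_le_one {ω | JnA ∅ (SxW W ∅ ξ) ∅ ω} (cf ∅ ξ S)
      linarith)
    refine hm.trans ?_
    rw [← Ex_const (Q := Q) (D := ∅) (η := ζ) hQ0 (F (cf ∅ ξ S))]
    exact Ex_mono hQ0 fun T _ => (h1 _ _).le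
  | succ n ih =>
    intro A ξ hn hVA hξ hWA hζA hle hm
    by_cases he : ∃ e ∈ A, ∃ c ∈ SxW W A ξ, Cor e c
    · obtain ⟨e, heA, c, hc, hec⟩ := he
      by_cases heV : e ∈ V
      · -- the event of no connection is empty
        have h1 : ∀ ω : Cfg, (1 : ℝ) - {ω | JnA A (SxW W A ξ) V ω}.indicator 1 ω = 0 := by
          intro ω
          have h2 : ω ∈ {ω | JnA A (SxW W A ξ) V ω} :=
            ⟨c, hc, c, ⟨e, heV, hec⟩, ReflTransGen.refl⟩
          rw [Set.indicator_of_mem h2]
          simp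
        simp only [h1, mul_zero]
        rw [Ex_const hQ0, mul_zero]
      · set A' := A.erase e with hA'
        have hA'A : A' ⊆ A := Finset.erase_subset _ _
        have hcard : A'.card = n := by rw [hA', Finset.card_erase_of_mem heA, hn]; rfl
        have hVA' : V ⊆ A' := fun v hv => Finset.mem_erase.2 ⟨fun h => heV (h ▸ hv), hVA hv⟩
        have heA' : e ∉ A' := by rw [hA']; exact Finset.notMem_erase _ _
        have hnot : ∀ v, v ∉ A' → v ∉ A ∨ v = e := by
          intro v hv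
          by_cases h : v = e
          · exact Or.inr h
          · exact Or.inl fun h' => hv (Finset.mem_erase.2 ⟨h, h'⟩)
        have hm' : m ≤ Ex Q A' ζ F := by
          refine hm.trans ?_
          have h1 := sub_le hQ hA'A hζ (fun v hv _ => hζA v hv) hFd
          rw [Ex_neg, Ex_neg] at h1
          linarith
        have hζA' : ∀ v ∈ A', ζ v = false := fun v hv => hζA v (hA'A hv)
        have hle' : ∀ S : Finset (ℤ × ℤ), ∀ v, v ∉ A' → ζ v = true → cf A ξ S v = true := by
          intro S v hv hvt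
          rcases hnot v hv with h | h
          · rw [cf_out h]
            exact hle v h hvt
          · subst h
            rw [hζA v heA] at hvt
            simp at hvt
        have hWA' : ∀ v ∈ A', v ∉ W := fun v hv => hWA v (hA'A hv)
        have i1 := ih A' (cf A ξ {e}) hcard hVA' (f_good.1 A ξ {e} hξ) hWA' hζA' (hle' {e}) hm'
        have i0 := ih A' (cf A ξ ∅) hcard hVA' (f_good.1 A ξ ∅ hξ) hWA' hζA' (hle' ∅) hm'
        -- the connections
        have hJ : ∀ S T : Finset (ℤ × ℤ), {ω | JnA A (SxW W A ξ) V ω}.indicator (1 : Cfg → ℝ)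
            (cf A' (cf A ξ S) T) = {ω | JnA A' (SxW W A' (cf A ξ S)) V ω}.indicator 1
            (cf A' (cf A ξ S) T) := by
          intro S T
          have hiff : cf A' (cf A ξ S) T ∈ {ω | JnA A (SxW W A ξ) V ω} ↔
              cf A' (cf A ξ S) T ∈ {ω | JnA A' (SxW W A' (cf A ξ S)) V ω} := by
            constructor
            · rintro ⟨s, ⟨hse, v, hvA, hvW, hvω, hvs⟩, u, hu, hsu⟩
              -- the part of the path after the last use of `e`
              have key : ∀ t, ReflTransGen (PStep (op (cf A' (cf A ξ S) T) ∩ ↑A)) s t →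
                  Even (t.1 + t.2) ∧ ∃ s' ∈ SxW W A' (cf A ξ S),
                    ReflTransGen (PStep (op (cf A' (cf A ξ S) T) ∩ ↑A')) s' t := by
                intro t ht
                induction ht with
                | refl =>
                  refine ⟨hse, s, ⟨hse, v, fun h => hvA (hA'A h), hvW, ?_, hvs⟩,
                    ReflTransGen.refl⟩
                  rw [cf_out hvA]
                  exact hvω
                | @tail t t' _ htt' ih' =>
                  obtain ⟨hte, s', hs', hst⟩ := ih'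
                  have hte' : Even (t'.1 + t'.2) := (FKA.even_step htt').1 hte
                  refine ⟨hte', ?_⟩
                  have hcor := cor_of_step htt'
                  obtain ⟨v', hv'⟩ : ∃ v' : ℤ × ℤ, v' = (min t.1 t'.1, min t.2 t'.2) := ⟨_, rfl⟩
                  rw [← hv'] at hcor
                  have hop : v' ∈ op (cf A' (cf A ξ S) T) ∩ ↑A := by rw [hv']; exact htt'.2.2
                  by_cases hve : v' = e
                  · rw [hve] at hop hcor
                    refine ⟨t', ⟨hte', e, heA', hWA e heA, ?_, hcor.2⟩, ReflTransGen.refl⟩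
                    have : cf A' (cf A ξ S) T e = true := hop.1
                    rw [cf_out heA'] at this
                    exact this
                  · refine ⟨s', hs', hst.tail ⟨htt'.1, htt'.2.1, ?_⟩⟩
                    rw [← hv']
                    exact ⟨hop.1, Finset.mem_coe.2 (Finset.mem_erase.2 ⟨hve,
                      Finset.mem_coe.1 hop.2⟩)⟩
              obtain ⟨-, s', hs', hsu'⟩ := key u hsu
              exact ⟨s', hs', u, hu, hsu'⟩
            · exact jnA_erase heA hc hec S T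
          by_cases h : cf A' (cf A ξ S) T ∈ {ω | JnA A (SxW W A ξ) V ω}
          · rw [Set.indicator_of_mem h, Set.indicator_of_mem (hiff.1 h)]
          · rw [Set.indicator_of_notMem h, Set.indicator_of_notMem fun h' => h (hiff.2 h')]
        have e1 : ∀ S : Finset (ℤ × ℤ),
            Ex Q A' (cf A ξ S) (fun ω => 1 - {ω | JnA A' (SxW W A' (cf A ξ S)) V ω}.indicator 1 ω) =
            Ex Q A' (cf A ξ S) (fun ω => 1 - {ω | JnA A (SxW W A ξ) V ω}.indicator 1 ω) :=
          fun S => Ex_congr fun T _ => by rw [hJ S T]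
        have e2 : ∀ S : Finset (ℤ × ℤ),
            Ex Q A' (cf A ξ S) (fun ω => F ω *
              (1 - {ω | JnA A' (SxW W A' (cf A ξ S)) V ω}.indicator 1 ω)) =
            Ex Q A' (cf A ξ S) (fun ω => F ω *
              (1 - {ω | JnA A (SxW W A ξ) V ω}.indicator 1 ω)) :=
          fun S => Ex_congr fun T _ => by rw [hJ S T]
        rw [e1, e2] at i1 i0
        rw [Ex_split hQ0 heA hξ (fun ω => 1 - {ω | JnA A (SxW W A ξ) V ω}.indicator 1 ω),
          Ex_split hQ0 heA hξ (fun ω => F ω *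
            (1 - {ω | JnA A (SxW W A ξ) V ω}.indicator 1 ω)), ← hA']
        have hp0 : 0 ≤ Pr Q A ξ {ω : Cfg | ω e = true} := Pr_nonneg hQ0 _
        have hp1 : Pr Q A ξ {ω : Cfg | ω e = true} ≤ 1 := Pr_le_one hQ0 _
        have q1 := mul_le_mul_of_nonneg_left i1 hp0
        have q0 := mul_le_mul_of_nonneg_left i0 (sub_nonneg.2 hp1)
        rw [mul_add]
        linarith
    · push Not at he
      have h0 : ∀ S, {ω | JnA A (SxW W A ξ) V ω}.indicator (1 : Cfg → ℝ) (cf A ξ S) = 0 := by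
        intro S
        refine Set.indicator_of_notMem (show cf A ξ S ∉ {ω | JnA A (SxW W A ξ) V ω} from ?_) _
        rintro ⟨s, hs, u, ⟨v, hv, hvu⟩, hsu⟩
        rcases ReflTransGen.cases_head hsu with h | ⟨c, hsc, -⟩
        · subst h
          exact he v (hVA hv) s hs hvu
        · have hcor := cor_of_step hsc
          exact he _ (Finset.mem_coe.1 hsc.2.2.2) s hs hcor.1
      have e1 : Ex Q A ξ (fun ω => 1 - {ω | JnA A (SxW W A ξ) V ω}.indicator 1 ω) = 1 :=
        (Ex_congr (G := fun _ => 1) fun S _ => by rw [h0, sub_zero]).trans (Ex_const hQ0 1)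
      have e2 : Ex Q A ξ (fun ω => F ω * (1 - {ω | JnA A (SxW W A ξ) V ω}.indicator 1 ω)) =
          Ex Q A ξ F := Ex_congr fun S _ => by rw [h0, sub_zero, mul_one]
      rw [e1, e2, mul_one]
      refine hm.trans ?_
      have hcl : cf A ζ ∅ = ζ := by
        funext v
        by_cases hv : v ∈ A
        · rw [cf_in hv, hζA v hv]
          simp
        · rw [cf_out hv]
      have h1 : Ex Q A ξ (fun ω => - F ω) ≤ Ex Q A ζ (fun ω => - F ω) := by
        refine f_comp2 Q A ξ ζ _ hQ hξ hζ ?_ hFd fun ω ω' h => by rw [hL ω ω' fun v hv =>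
          h v (hVA hv)]
        intro S hS a ha haS hpc
        exact path_dn' (W := W) (by rw [hcl]; exact hW) he S ha hpc
      rw [Ex_neg, Ex_neg] at h1
      linarith

/-- The outside is not joined to `V` by squares of `A`, for all weights of the squares of `V`. -/
def SepW (Q : ℝ) (W : Set (ℤ × ℤ)) (A V : Finset (ℤ × ℤ)) (ξ : Cfg) (ε : ℝ) : Prop :=
  ∀ F : Cfg → ℝ, (∀ ω, 0 ≤ F ω) → Loc V F →
    Ex Q A ξ (fun ω => F ω * {ω | JnA A (SxW W A ξ) V ω}.indicator 1 ω) ≤ ε * Ex Q A ξ F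

theorem SepW.split (hS : SepW Q W A V ξ ε) (hF0 : ∀ ω, 0 ≤ F ω) (hF : Loc V F) :
    (1 - ε) * Ex Q A ξ F ≤
      Ex Q A ξ (fun ω => F ω * (1 - {ω | JnA A (SxW W A ξ) V ω}.indicator 1 ω)) := by
  have h1 := hS F hF0 hF
  have h2 : Ex Q A ξ (fun ω => F ω * (1 - {ω | JnA A (SxW W A ξ) V ω}.indicator 1 ω)) =
      Ex Q A ξ F - Ex Q A ξ (fun ω => F ω * {ω | JnA A (SxW W A ξ) V ω}.indicator 1 ω) := by
    rw [← Ex_sub]
    refine Ex_congr fun S _ => ?_
    ring
  rw [h2]
  linarith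

/-- From the larger to the smaller outside configuration. -/
theorem cmpW_up (hQ : 1 ≤ Q) (hV : V ⊆ A) (hξ : Good ξ) (hξ' : Good ξ')
    (hle : ∀ v, v ∉ A → ξ v = true → ξ' v = true)
    (hW : ∀ c ∈ Cw W, ∀ c' ∈ Cw W, PC (cf A ξ ∅) c c') (hS : SepW Q W A V ξ' ε)
    (hF0 : ∀ ω, 0 ≤ F ω) (hF : Loc V F) : (1 - ε) * Ex Q A ξ' F ≤ Ex Q A ξ F :=
  (hS.split hF0 hF).trans (gen_compW hQ hF0 hF A.card A ξ ξ' rfl hV hξ hξ' hle hW)

/-- From the smaller to the larger outside configuration. -/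
theorem cmpW_dn (hQ : 1 ≤ Q) (hV : V ⊆ A) (hξ : Good ξ) (hξ' : Good ξ')
    (hle : ∀ v, v ∉ A → ξ v = true → ξ' v = true)
    (hW : ∀ c ∈ Cw W, ∀ c' ∈ Cw W, PC (cf A ξ ∅) c c') (hWA : ∀ v ∈ A, v ∉ W)
    (hS : SepW Q W A V ξ' ε) (hF0 : ∀ ω, 0 ≤ F ω) (hF : Loc V F) :
    (1 - ε) * Ex Q A ξ F ≤ Ex Q A ξ' F := by
  have hQ0 : 0 < Q := by linarith
  -- normalise the outside configurations
  have g0 : Good (cf A ξ ∅) := f_good.1 A ξ ∅ hξ
  have g0' : Good (cf A ξ' ∅) := f_good.1 A ξ' ∅ hξ'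
  have n0 : ∀ G, Ex Q A ξ G = Ex Q A (cf A ξ ∅) G := fun G =>
    Ex_out (fun v hv => by rw [cf_out hv]) G
  have n0' : ∀ G, Ex Q A ξ' G = Ex Q A (cf A ξ' ∅) G := fun G =>
    Ex_out (fun v hv => by rw [cf_out hv]) G
  have hle' : ∀ v, cf A ξ ∅ v = true → cf A ξ' ∅ v = true := by
    intro v hv
    by_cases h : v ∈ A
    · rw [cf_in h] at hv; simp at hv
    · rw [cf_out h] at hv ⊢
      exact hle v h hv
  have h1 := ratio_dn hQ g0 g0' hle' hF0 hV hF
  rw [← n0, ← n0, ← n0', ← n0'] at h1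
  -- the closed configuration
  have hp := cl_pos (Q := Q) hQ0 hV ξ
  have hm : Ex Q A ξ (cl V) ≤ Ex Q A (cf A ξ ∅) (cl V) := (n0 _).le
  have h3 := dec_compW hQ (cl_dec V) (cl_loc V) g0 hW A.card A ξ' rfl hV hξ' hWA
    (fun v hv => by rw [cf_in hv]; simp) (fun v hv hvt => by
      rw [cf_out hv] at hvt
      exact hle v hv hvt) hm
  have h4 : 1 - ε ≤ Ex Q A ξ' (fun ω => 1 - {ω | JnA A (SxW W A ξ') V ω}.indicator 1 ω) := by
    have h5 := hS.split (F := fun _ => 1) (fun _ => zero_le_one) fun _ _ _ => rfl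
    rw [Ex_const hQ0, mul_one] at h5
    simpa only [one_mul] using h5
  have h5 : Ex Q A ξ' (fun ω => cl V ω * (1 - {ω | JnA A (SxW W A ξ') V ω}.indicator 1 ω)) ≤
      Ex Q A ξ' (cl V) := by
    refine Ex_mono hQ0 fun S _ => ?_
    have h6 := ind_nonneg {ω | JnA A (SxW W A ξ') V ω} (cf A ξ' S)
    have h7 := cl_nonneg V (cf A ξ' S)
    nlinarith
  have h6 : Ex Q A ξ (cl V) * (1 - ε) ≤ Ex Q A ξ' (cl V) :=
    (mul_le_mul_of_nonneg_left h4 hp.le).trans (h3.trans h5)
  have hE : 0 ≤ Ex Q A ξ F := Ex_nonneg hQ0 fun S _ => hF0 _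
  have h7 : Ex Q A ξ (cl V) * ((1 - ε) * Ex Q A ξ F) ≤ Ex Q A ξ (cl V) * Ex Q A ξ' F := by
    calc Ex Q A ξ (cl V) * ((1 - ε) * Ex Q A ξ F) =
        Ex Q A ξ F * (Ex Q A ξ (cl V) * (1 - ε)) := by ring
      _ ≤ Ex Q A ξ F * Ex Q A ξ' (cl V) := mul_le_mul_of_nonneg_left h6 hE
      _ ≤ _ := h1
  exact le_of_mul_le_mul_left h7 hp

end Vale.Agent.P167.H167.Q
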