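import Vale.Agent.P167.H167.Q.Sms
import Vale.Agent.P167.H167.Equi
import Vale.Agent.P167.H562.Q.MQ3
import Vale.Agent.P167.H542.Q.Pt

/-!
# P167, general `q`, block Q-EQUI: the functional is asymptotically independent of every local function,
up to the boundary
-/

namespace Vale.Agent.P167.H167.Q

open Finset Vale.Agent.P167.FK Vale.Agent.P167.BR
open Vale.Agent.P167.FKA hiding gp
open Vale.Agent.P167.H192.Q (SRSW)
open Vale.Agent.P167.H506.Q (mem_bq)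
open Vale.Agent.P167.H542.Q (XR wR Phs)
open Vale.Agent.P167.H542.Q.PT (wR_lip wR_zero abs_wR_le)

variable {Q : ℝ} {D : Finset (ℤ × ℤ)} {η : Cfg} {p : ℤ × ℤ} {th : Finset Ed → ℝ} {f : ℤ × ℤ → ℝ}
  {ω ω' : Cfg} {A : Finset Ed} {μ0 c : ℝ}

/-! ### Second moments -/

theorem cs_ex (hQ : 0 < Q) {X Y : Cfg → ℝ} {a b : ℝ} (ha : 0 ≤ a) (hb : 0 ≤ b)
    (h1 : Ex Q D η (fun ω => X ω ^ 2) ≤ a ^ 2) (h2 : Ex Q D η (fun ω => Y ω ^ 2) ≤ b ^ 2) :
    Ex Q D η (fun ω => |X ω * Y ω|) ≤ a * b := by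
  have h := H562.QM.ex_cs (D := D) (η := η) hQ (G := fun _ => 1) (F1 := fun ω => |X ω|)
    (F2 := fun ω => |Y ω|) (fun _ => zero_le_one) ha hb zero_le_one
    (by simpa only [sq_abs, one_mul, mul_one] using h1)
    (by simpa only [sq_abs, one_mul, mul_one] using h2)
  simp only [one_mul, mul_one, ← abs_mul] at h
  exact h

theorem ex_le (hQ : 0 < Q) {X : Cfg → ℝ} {a : ℝ} (ha : 0 ≤ a)
    (h1 : Ex Q D η (fun ω => X ω ^ 2) ≤ a ^ 2) : Ex Q D η (fun ω => |X ω|) ≤ a := by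
  have h := cs_ex (D := D) (η := η) hQ (X := X) (Y := fun _ => 1) ha zero_le_one h1
    (by simp only [one_pow]; exact (Ex_const hQ 1).le)
  simpa only [mul_one] using h

theorem sq_of_four (hQ : 0 < Q) {X : Cfg → ℝ} {B : ℝ}
    (h : Ex Q D η (fun ω => X ω ^ 4) ≤ B ^ 4) : Ex Q D η (fun ω => X ω ^ 2) ≤ B ^ 2 := by
  have h1 := ex_le (D := D) (η := η) hQ (X := fun ω => X ω ^ 2) (a := B ^ 2) (sq_nonneg B) (by
    calc Ex Q D η (fun ω => (X ω ^ 2) ^ 2) = Ex Q D η (fun ω => X ω ^ 4) :=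
          Ex_congr fun S _ => by ring
      _ ≤ B ^ 4 := h
      _ = _ := by ring)
  exact (Ex_mono hQ fun S _ => le_abs_self _).trans h1

theorem cov_leQ (hQ : 0 < Q) {X Z N : Cfg → ℝ} {s b δ : ℝ} (hs : 0 ≤ s) (hb : 0 ≤ b)
    (h1 : Ex Q D η (fun ω => (X ω - Z ω) ^ 2) ≤ s ^ 2) (h2 : Ex Q D η (fun ω => N ω ^ 2) ≤ b ^ 2)
    (h3 : |Ex Q D η (fun ω => Z ω * N ω) - Ex Q D η Z * Ex Q D η N| ≤ δ) :
    |Ex Q D η (fun ω => X ω * N ω) - Ex Q D η X * Ex Q D η N| ≤ 2 * (s * b) + δ := by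
  have e1 : Ex Q D η (fun ω => X ω * N ω) = Ex Q D η (fun ω => (X ω - Z ω) * N ω) +
      Ex Q D η (fun ω => Z ω * N ω) := by
    rw [← Ex_add]
    exact Ex_congr fun S _ => by ring
  have e2 : Ex Q D η X = Ex Q D η (fun ω => X ω - Z ω) + Ex Q D η Z := by
    rw [← Ex_add]
    exact Ex_congr fun S _ => by ring
  have h4 : |Ex Q D η (fun ω => (X ω - Z ω) * N ω)| ≤ s * b :=
    (abs_Ex_le hQ _).trans (cs_ex hQ hs hb h1 h2)
  have h5 : |Ex Q D η (fun ω => X ω - Z ω)| ≤ s := (abs_Ex_le hQ _).trans (ex_le hQ hs h1)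
  have h6 : |Ex Q D η N| ≤ b := (abs_Ex_le hQ _).trans (ex_le hQ hb h2)
  have e3 : Ex Q D η (fun ω => X ω * N ω) - Ex Q D η X * Ex Q D η N =
      Ex Q D η (fun ω => (X ω - Z ω) * N ω) + -(Ex Q D η (fun ω => X ω - Z ω) * Ex Q D η N) +
        (Ex Q D η (fun ω => Z ω * N ω) - Ex Q D η Z * Ex Q D η N) := by
    rw [e1, e2]; ring
  rw [e3]
  refine (abs_add_three _ _ _).trans ?_
  have h7 : |-(Ex Q D η (fun ω => X ω - Z ω) * Ex Q D η N)| ≤ s * b := by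
    rw [abs_neg, abs_mul]
    exact mul_le_mul h5 h6 (abs_nonneg _) hs
  linarith

theorem second_momentQ (hQ : 0 < Q) {X Z E : Cfg → ℝ} {G : Set Cfg} {B s e : ℝ} (hs : 0 ≤ s)
    (he : 0 ≤ e) (hXB : Ex Q D η (fun ω => X ω ^ 4) ≤ B ^ 4)
    (hP : Ex Q D η (G.indicator 1) ≤ (s ^ 2) ^ 2)
    (hE4 : Ex Q D η (fun ω => E ω ^ 4) ≤ (e ^ 2) ^ 2)
    (hpt : ∀ ω, (X ω - Z ω) ^ 2 ≤ X ω ^ 2 * G.indicator 1 ω + X ω ^ 2 * E ω ^ 2) :
    Ex Q D η (fun ω => (X ω - Z ω) ^ 2) ≤ (B * (s + e)) ^ 2 := by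
  have h0 : Ex Q D η (fun ω => (X ω ^ 2) ^ 2) ≤ (B ^ 2) ^ 2 := by
    calc Ex Q D η (fun ω => (X ω ^ 2) ^ 2) = Ex Q D η (fun ω => X ω ^ 4) :=
          Ex_congr fun S _ => by ring
      _ ≤ B ^ 4 := hXB
      _ = _ := by ring
  have hind : ∀ ω : Cfg, (G.indicator (1 : Cfg → ℝ) ω) ^ 2 = G.indicator 1 ω := fun ω => by
    by_cases h : ω ∈ G
    · simp [Set.indicator_of_mem h]
    · simp [Set.indicator_of_notMem h]
  have b1 : Ex Q D η (fun ω => |X ω ^ 2 * G.indicator 1 ω|) ≤ B ^ 2 * s ^ 2 := by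
    refine cs_ex hQ (by positivity) (by positivity) h0 ?_
    calc Ex Q D η (fun ω => (G.indicator (1 : Cfg → ℝ) ω) ^ 2) = Ex Q D η (G.indicator 1) :=
          Ex_congr fun S _ => hind _
      _ ≤ _ := hP
  have b2 : Ex Q D η (fun ω => |X ω ^ 2 * E ω ^ 2|) ≤ B ^ 2 * e ^ 2 := by
    refine cs_ex hQ (by positivity) (by positivity) h0 ?_
    calc Ex Q D η (fun ω => (E ω ^ 2) ^ 2) = Ex Q D η (fun ω => E ω ^ 4) :=
          Ex_congr fun S _ => by ring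
      _ ≤ _ := hE4
  calc Ex Q D η (fun ω => (X ω - Z ω) ^ 2)
      ≤ Ex Q D η (fun ω => |X ω ^ 2 * G.indicator 1 ω| + |X ω ^ 2 * E ω ^ 2|) :=
        Ex_mono hQ fun S _ => (hpt _).trans (add_le_add (le_abs_self _) (le_abs_self _))
    _ = Ex Q D η (fun ω => |X ω ^ 2 * G.indicator 1 ω|) +
        Ex Q D η (fun ω => |X ω ^ 2 * E ω ^ 2|) := Ex_add _ _
    _ ≤ B ^ 2 * s ^ 2 + B ^ 2 * e ^ 2 := add_le_add b1 b2
    _ ≤ (B * (s + e)) ^ 2 := by
        have : 0 ≤ B ^ 2 * (2 * s * e) := by positivity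
        nlinarith

/-! ### The replacement of the functional -/

/-- The weight of a piece. -/
noncomputable def wq (th : Finset Ed → ℝ) (D : Finset (ℤ × ℤ)) (p : ℤ × ℤ) (f : ℤ × ℤ → ℝ)
    (A : Finset Ed) : ℝ := wR (th A) (mass D p f A)

/-- The weight of a small piece is almost one. -/
theorem wq_near {K m : ℤ} (hG : Geo K m D p) (hth : Phs μ0 c D th) (hAp : A ∈ pcs ω D) {d : ℝ}
    (hd : 1 ≤ d) (hdm : d ≤ m) (hA : Small d A) (htot : tot D f = 0) {a : ℝ}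
    (hf : ∀ z, |f z| ≤ a) : |wq th D p f A - 1| ≤ c⁻¹ * (9 * K ^ 2 * a * d ^ 2) := by
  have h1 := wR_lip hth.c0 (hth.cs A) (mass D p f A) 0
  rw [wR_zero (hth.c0.trans_le (hth.cs A)).ne', sub_zero] at h1
  exact h1.trans (mul_le_mul_of_nonneg_left (hG.mass_small hAp hd hdm hA htot hf)
    (inv_nonneg.2 hth.c0.le))

theorem wq_small {K m : ℤ} (hG : Geo K m D p) (hth : Phs μ0 c D th) {a : ℝ}
    (hf : ∀ z, |f z| ≤ a) (htot : tot D f = 0) {R : ℤ} (hR : 1 ≤ R) (hRm : 2 * R ≤ m) (j : ℕ)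
    (hj : 1 ≤ (2 * R : ℝ) / 2 ^ j) (hA : A ∈ pcs ω D) (hsm : Small ((2 * R : ℝ) / 2 ^ j) A) :
    |wq th D p f A - 1| ≤ 36 * c⁻¹ * (a * K ^ 2 * R ^ 2) * (1 / 4) ^ j := by
  have hR1 : (1 : ℝ) ≤ R := by exact_mod_cast hR
  have hρm : (2 * R : ℝ) ≤ m := by exact_mod_cast hRm
  have h1 : (2 * R : ℝ) / 2 ^ j ≤ m :=
    (div_le_self (by linarith) (one_le_pow₀ (by norm_num))).trans hρm
  have h2 := wq_near hG hth hA hj h1 hsm htot hf
  refine h2.trans (le_of_eq ?_)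
  have h3 : ((1 : ℝ) / 4) ^ j = 1 / (2 ^ j) ^ 2 := by
    rw [← pow_mul, mul_comm j 2, pow_mul, one_div, inv_pow]; norm_num
  rw [h3]
  field_simp
  ring

theorem lwq_small {K m : ℤ} (hG : Geo K m D p) (hth : Phs μ0 c D th) {a : ℝ}
    (hf : ∀ z, |f z| ≤ a) (htot : tot D f = 0) {R : ℤ} (hR : 1 ≤ R) (hRm : 2 * R ≤ m)
    (hq : 72 * c⁻¹ * (a * K ^ 2 * R ^ 2) ≤ 1) (j : ℕ) (hj : 1 ≤ (2 * R : ℝ) / 2 ^ j)
    (hA : A ∈ pcs ω D) (hsm : Small ((2 * R : ℝ) / 2 ^ j) A) :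
    |Real.log (wq th D p f A)| ≤ 72 * c⁻¹ * (a * K ^ 2 * R ^ 2) * (1 / 4) ^ j := by
  have ha : 0 ≤ a := (abs_nonneg _).trans (hf 0)
  have hq0 : 0 ≤ c⁻¹ * (a * K ^ 2 * R ^ 2) := by
    have := inv_nonneg.2 hth.c0.le
    positivity
  have h1 := wq_small hG hth hf htot hR hRm j hj hA hsm
  have h2 : 36 * c⁻¹ * (a * K ^ 2 * R ^ 2) * (1 / 4) ^ j ≤ 1 / 2 := by
    have h4 : ((1 : ℝ) / 4) ^ j ≤ 1 := pow_le_one₀ (by norm_num) (by norm_num)
    have h3 : 0 ≤ ((1 : ℝ) / 4) ^ j := by positivity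
    nlinarith
  have h3 := abs_log_le (h1.trans h2)
  calc |Real.log (wq th D p f A)| ≤ 2 * |wq th D p f A - 1| := h3
    _ ≤ _ := by linarith

/-- Off the arm event the visiting pieces are small. -/
theorem small_of_not_AE {x : ℤ × ℤ} {L R : ℤ} (hLR : L < R) (hA : A ∈ pcs ω D)
    (hV : Vis' x L A) (hG : ω ∉ AE D x L R) : Small (2 * R : ℝ) A := by
  obtain ⟨e, he, h1⟩ := hV
  have key : ∀ b ∈ A, nm (hdv b - x) < R := by
    intro b hb
    by_contra hcon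
    push Not at hcon
    exact hG (arm_of_pc hA hLR he hb h1 hcon)
  intro u hu v hv
  unfold vs at hu hv
  obtain ⟨a, ha, rfl⟩ := Finset.mem_image.1 hu
  obtain ⟨b, hb, rfl⟩ := Finset.mem_image.1 hv
  have h2 := key a ha
  have h3 := key b hb
  have h4 := H45.nm_sub_le (hdv a) x (hdv b)
  rw [H45.nm_sub_comm x (hdv b)] at h4
  have h5 : nm (hdv a - hdv b) < 2 * R := by linarith
  exact_mod_cast h5

open Classical in
/-- The product over the pieces which do not visit the box. -/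
noncomputable def Xq (th : Finset Ed → ℝ) (D : Finset (ℤ × ℤ)) (p : ℤ × ℤ) (f : ℤ × ℤ → ℝ)
    (x : ℤ × ℤ) (L : ℤ) (ω : Cfg) : ℝ :=
  ∏ A ∈ (pcs ω D).filter (fun A => ¬ Vis' x L A), wq th D p f A

theorem Xq_ind (x : ℤ × ℤ) (L : ℤ) : Ind (Bq x L) (Xq th D p f x L) := by
  classical
  intro ω ω' h
  unfold Xq
  rw [pcs_filter_eq (fun A => ¬ Vis' x L A) (S := {v : ℤ × ℤ | nm (v - x) ≤ L}ᶜ)
    (fun A hA e he => ?_) (fun v hv => h v fun hv' => hv (by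
      rw [mem_bq] at hv'
      show nm (v - x) ≤ L
      rw [H45.nm_le]
      simp only [Prod.fst_sub, Prod.snd_sub, abs_le]
      omega))]
  intro hcon
  exact hA ⟨e, he, hcon⟩

/-- Linear statistic of the small visiting pieces. -/
noncomputable def Fq (th : Finset Ed → ℝ) (D : Finset (ℤ × ℤ)) (p : ℤ × ℤ) (f : ℤ × ℤ → ℝ)
    (x : ℤ × ℤ) (L R : ℤ) (ω : Cfg) : ℝ :=
  ∑ A ∈ sm D x L (2 * R) ω, Real.log (wq th D p f A)

/-- The function which replaces the functional. -/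
noncomputable def Zq' (th : Finset Ed → ℝ) (D : Finset (ℤ × ℤ)) (p : ℤ × ℤ) (f : ℤ × ℤ → ℝ)
    (x : ℤ × ℤ) (L R : ℤ) (κ : ℝ) (ω : Cfg) : ℝ :=
  (1 - (AE D x L R).indicator 1 ω) * (Real.exp κ * Xq th D p f x L ω)

theorem Zq_ind (x : ℤ × ℤ) (L R : ℤ) (κ : ℝ) : Ind (Bq x L) (Zq' th D p f x L R κ) := by
  intro o o' h
  have h1 : Xq th D p f x L o = Xq th D p f x L o' := Xq_ind x L o o' h
  have h2 : o ∈ AE D x L R ↔ o' ∈ AE D x L R := ae_loc fun v hv => h v fun hv' => by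
    have h3 := (mem_oD.1 hv).2
    rw [mem_bq] at hv'
    have h4 : nm (v - x) ≤ L := by
      rw [H45.nm_le]
      simp only [Prod.fst_sub, Prod.snd_sub, abs_le]
      omega
    omega
  have h3 : (AE D x L R).indicator (1 : Cfg → ℝ) o = (AE D x L R).indicator 1 o' := by
    by_cases h4 : o ∈ AE D x L R
    · rw [Set.indicator_of_mem h4, Set.indicator_of_mem (h2.1 h4)]
      rfl
    · rw [Set.indicator_of_notMem h4, Set.indicator_of_notMem fun h5 => h4 (h2.2 h5)]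
  show (1 - (AE D x L R).indicator 1 o) * (Real.exp κ * Xq th D p f x L o) =
    (1 - (AE D x L R).indicator 1 o') * (Real.exp κ * Xq th D p f x L o')
  rw [h1, h3]

/-- The pointwise bound. -/
theorem Zq_pt {K m : ℤ} (hG : Geo K m D p) (hth : Phs μ0 c D th) {a : ℝ} (hf : ∀ z, |f z| ≤ a)
    (htot : tot D f = 0) {x : ℤ × ℤ} {L R : ℤ} (hL : 1 ≤ L) (hLR : L < R) (hRm : 2 * R ≤ m)
    (hq : 72 * c⁻¹ * (a * K ^ 2 * R ^ 2) ≤ 1) (κ : ℝ) (ω : Cfg) :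
    (XR th D p f ω - Zq' th D p f x L R κ ω) ^ 2 ≤ XR th D p f ω ^ 2 * (AE D x L R).indicator 1 ω +
      XR th D p f ω ^ 2 * (1 - Real.exp (-(Fq th D p f x L R ω - κ))) ^ 2 := by
  classical
  have hR1 : (1 : ℝ) ≤ R := by exact_mod_cast (by omega : (1 : ℤ) ≤ R)
  by_cases hω : ω ∈ AE D x L R
  · have h0 : (AE D x L R).indicator (1 : Cfg → ℝ) ω = 1 := Set.indicator_of_mem hω _
    have h1 : Zq' th D p f x L R κ ω = 0 := by unfold Zq'; rw [h0]; ring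
    rw [h1, h0, sub_zero, mul_one]
    have : 0 ≤ XR th D p f ω ^ 2 * (1 - Real.exp (-(Fq th D p f x L R ω - κ))) ^ 2 := by positivity
    linarith
  · have h0 : (AE D x L R).indicator (1 : Cfg → ℝ) ω = 0 := Set.indicator_of_notMem hω _
    have h1 : (pcs ω D).filter (fun A => Vis' x L A) = sm D x L (2 * R) ω := by
      ext A
      rw [Finset.mem_filter, mem_sm]
      constructor
      · rintro ⟨h2, h3⟩
        exact ⟨h2, h3, small_of_not_AE hLR h2 h3 hω⟩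
      · rintro ⟨h2, h3, -⟩
        exact ⟨h2, h3⟩
    have h2 : XR th D p f ω = Real.exp (Fq th D p f x L R ω) * Xq th D p f x L ω := by
      have h3 : XR th D p f ω = (∏ A ∈ (pcs ω D).filter (fun A => Vis' x L A),
          wq th D p f A) * Xq th D p f x L ω :=
        (Finset.prod_filter_mul_prod_filter_not _ _ _).symm
      rw [h3, h1]
      congr 1
      unfold Fq
      rw [Real.exp_sum]
      refine Finset.prod_congr rfl fun A hA => ?_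
      obtain ⟨h4, -, h5⟩ := mem_sm.1 hA
      have h6 := wq_small hG hth hf htot (by omega) hRm 0 (by rw [pow_zero, div_one]; linarith) h4
        (by rw [pow_zero, div_one]; exact h5)
      rw [pow_zero, mul_one] at h6
      rw [Real.exp_log]
      have := (abs_le.1 h6).1
      linarith
    have h3 : Zq' th D p f x L R κ ω =
        XR th D p f ω * Real.exp (-(Fq th D p f x L R ω - κ)) := by
      unfold Zq'
      rw [h0, h2]
      rw [show Real.exp (Fq th D p f x L R ω) * Xq th D p f x L ω *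
          Real.exp (-(Fq th D p f x L R ω - κ)) =
        (Real.exp (Fq th D p f x L R ω) * Real.exp (-(Fq th D p f x L R ω - κ))) *
          Xq th D p f x L ω by ring, ← Real.exp_add]
      rw [show Fq th D p f x L R ω + -(Fq th D p f x L R ω - κ) = κ by ring]
      ring
    rw [h3, h0, mul_zero, zero_add, ← mul_pow]
    refine le_of_eq ?_
    congr 1
    ring

/-- `sml_q` without `0 < a`. -/
theorem sml_q' (hQ : 1 ≤ Q) (hR : RSW Q) (hS : SRSW Q) : ∃ C : ℝ, 0 < C ∧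
    ∀ (m : ℤ) (D : Finset (ℤ × ℤ)) (η : Cfg), Reg m D η →
    ∀ (x : ℤ × ℤ) (R : ℤ) (ρ : ℝ) (φ : Finset Ed → ℝ) (a : ℝ), 1 ≤ ρ → 8 * ρ ≤ m → 0 ≤ R →
    (R : ℝ) ≤ ρ → 0 ≤ a → a ≤ 1 / 8 →
    (∀ (j : ℕ) (ω : Cfg), 1 ≤ ρ / 2 ^ j → ∀ A ∈ pcs ω D, Small (ρ / 2 ^ j) A →
      |φ A| ≤ a * (1 / 4) ^ j) →
    Ex Q D η (fun ω => (1 - Real.exp (-(∑ A ∈ sm D x R ρ ω, φ A -
      Ex Q D η (fun ω' => ∑ A ∈ sm D x R ρ ω', φ A)))) ^ 4) ≤ C * a ^ 4 := by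
  have hQ0 : 0 < Q := by linarith
  obtain ⟨C, hC, h⟩ := sml_q hQ hR hS
  refine ⟨C, hC, fun m D η hreg x R ρ φ a hρ hρm hR0 hRρ ha ha8 hφ => ?_⟩
  rcases ha.eq_or_lt with h0 | h0
  · have h1 : ∀ ω, ∑ A ∈ sm D x R ρ ω, φ A = 0 := fun ω => Finset.sum_eq_zero fun A hA => by
      obtain ⟨h2, -, h3⟩ := mem_sm.1 hA
      have h4 := hφ 0 ω (by simpa using hρ) A h2 (by simpa using h3)
      rw [← h0, zero_mul] at h4
      exact abs_nonpos_iff.1 h4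
    simp only [h1, Ex_const hQ0]
    simp [← h0]
  · exact h m D η hreg x R ρ φ a hρ hρm hR0 hRρ h0 ha8 hφ

/-- The middle radius. -/
theorem exists_mid {L R : ℤ} (hL : 1 ≤ L) (hLR : L < R) : ∃ L1 : ℤ, L ≤ L1 ∧ L1 < R ∧
    (L1 : ℝ) / R ≤ Real.sqrt ((L : ℝ) / R) ∧
    ((L + 1 : ℤ) : ℝ) / L1 ≤ 4 * Real.sqrt ((L : ℝ) / R) := by
  have hL1 : (1 : ℝ) ≤ L := by exact_mod_cast hL
  have hLR1 : (L : ℝ) < R := by exact_mod_cast hLR
  have hR0 : (0 : ℝ) < R := by linarith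
  set s : ℝ := Real.sqrt (L * R) with hs
  have hs2 : s ^ 2 = L * R := Real.sq_sqrt (by nlinarith)
  have hs0 : 0 ≤ s := Real.sqrt_nonneg _
  have hsL : (L : ℝ) ≤ s := by
    refine (pow_le_pow_iff_left₀ (by linarith) hs0 (by norm_num : (2 : ℕ) ≠ 0)).1 ?_
    rw [hs2]; nlinarith
  have hsR : s < R := by
    refine (pow_lt_pow_iff_left₀ hs0 hR0.le (by norm_num : (2 : ℕ) ≠ 0)).1 ?_
    rw [hs2]; nlinarith
  have hs1 : 1 ≤ s := hL1.trans hsL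
  have hsq : Real.sqrt ((L : ℝ) / R) = s / R := by
    have h1 : (L : ℝ) / R = (s / R) ^ 2 := by
      rw [div_pow, hs2]; field_simp
    rw [h1, Real.sqrt_sq (by positivity)]
  have hf1 : (⌊s⌋ : ℝ) ≤ s := Int.floor_le s
  have hf2 : s < ⌊s⌋ + 1 := Int.lt_floor_add_one s
  have hf3 : (1 : ℝ) ≤ ⌊s⌋ := by
    have : 1 ≤ ⌊s⌋ := Int.le_floor.2 (by exact_mod_cast hs1)
    exact_mod_cast this
  refine ⟨⌊s⌋, Int.le_floor.2 hsL, ?_, ?_, ?_⟩
  · have : (⌊s⌋ : ℝ) < R := by linarith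
    exact_mod_cast this
  · rw [hsq]
    exact div_le_div_of_nonneg_right hf1 hR0.le
  · rw [hsq, div_le_iff₀ (by linarith)]
    have h1 : s ≤ 2 * (⌊s⌋ : ℝ) := by linarith
    have h2 : (L : ℝ) = s / R * s := by
      rw [div_mul_eq_mul_div, ← pow_two, hs2]; field_simp
    have h3 : 0 ≤ s / R := by positivity
    push_cast
    calc (L : ℝ) + 1 ≤ 2 * L := by linarith
      _ = 2 * (s / R * s) := by rw [← h2]
      _ ≤ 2 * (s / R * (2 * (⌊s⌋ : ℝ))) := by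
          refine mul_le_mul_of_nonneg_left (mul_le_mul_of_nonneg_left h1 h3) (by norm_num)
      _ = _ := by ring

/-- The covariance, from mixing between two boxes and the moments of the error. -/
theorem lc_step (hQ : 1 ≤ Q) {K m : ℤ} (hreg : Reg m D η) (hG : Geo K m D p)
    (hth : Phs μ0 c D th) {a : ℝ} (hf : ∀ z, |f z| ≤ a) (htot : tot D f = 0) {x : ℤ × ℤ}
    {L L1 R : ℤ} (hL1 : 1 ≤ L1) (hLR : L1 < R) (hRm : 2 * R ≤ m)
    (hq : 72 * c⁻¹ * (a * K ^ 2 * R ^ 2) ≤ 1) {κ ε s e B b : ℝ} (hε : 0 ≤ ε) (hs0 : 0 ≤ s)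
    (he0 : 0 ≤ e) (hB : 0 ≤ B) (hb : 0 ≤ b) (hmix : MxA Q D η x (L + 1) L1 ε)
    (hXB : Ex Q D η (fun ω => XR th D p f ω ^ 4) ≤ B ^ 4)
    (harm : Ex Q D η ((AE D x L1 R).indicator 1) ≤ (s ^ 2) ^ 2)
    (hE4 : Ex Q D η (fun ω => (1 - Real.exp (-(Fq th D p f x L1 R ω - κ))) ^ 4) ≤ (e ^ 2) ^ 2)
    {N : Cfg → ℝ} (hN : Loc (Bq x (L + 1) ∩ D) N) (hNb : Ex Q D η (fun ω => N ω ^ 2) ≤ b ^ 2) :
    |Ex Q D η (fun ω => XR th D p f ω * N ω) - Ex Q D η (XR th D p f) * Ex Q D η N| ≤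
      2 * (B * (s + e) * b) + ε * (B * (1 + (s + e)) * b) := by
  have hQ0 : 0 < Q := by linarith
  have hX2 := sq_of_four hQ0 hXB
  have hXabs := ex_le hQ0 hB hX2
  have hNabs := ex_le hQ0 hb hNb
  have b3 := second_momentQ (D := D) (η := η) hQ0 (X := XR th D p f)
    (Z := Zq' th D p f x L1 R κ) (G := AE D x L1 R)
    (E := fun ω => 1 - Real.exp (-(Fq th D p f x L1 R ω - κ))) hs0 he0 hXB harm hE4
    (Zq_pt hG hth hf htot hL1 hLR hRm hq κ)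
  have hse : 0 ≤ s + e := add_nonneg hs0 he0
  have hXZ := ex_le hQ0 (mul_nonneg hB hse) b3
  have hZabs : Ex Q D η (fun ω => |Zq' th D p f x L1 R κ ω|) ≤ B * (1 + (s + e)) := by
    calc Ex Q D η (fun ω => |Zq' th D p f x L1 R κ ω|)
        ≤ Ex Q D η (fun ω => |XR th D p f ω| + |XR th D p f ω - Zq' th D p f x L1 R κ ω|) :=
          Ex_mono hQ0 fun S _ => by
            have h1 := abs_sub (XR th D p f (cf D η S))
              (XR th D p f (cf D η S) - Zq' th D p f x L1 R κ (cf D η S))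
            rwa [sub_sub_cancel] at h1
      _ = Ex Q D η (fun ω => |XR th D p f ω|) +
          Ex Q D η (fun ω => |XR th D p f ω - Zq' th D p f x L1 R κ ω|) := Ex_add _ _
      _ ≤ B + B * (s + e) := add_le_add hXabs hXZ
      _ = _ := by ring
  have hcovZ := hmix.cov hQ hε hreg.good hN
    (G := Zq' th D p f x L1 R κ) (Ind.mono Finset.inter_subset_left (Zq_ind x L1 R κ))
  have hN0 : 0 ≤ Ex Q D η (fun ω => |N ω|) := Ex_nonneg hQ0 fun _ _ => abs_nonneg _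
  have hδ : |Ex Q D η (fun ω => Zq' th D p f x L1 R κ ω * N ω) -
      Ex Q D η (Zq' th D p f x L1 R κ) * Ex Q D η N| ≤ ε * (B * (1 + (s + e)) * b) := by
    refine hcovZ.trans (mul_le_mul_of_nonneg_left ?_ hε)
    exact mul_le_mul hZabs hNabs hN0 (by positivity)
  exact cov_leQ hQ0 (mul_nonneg hB hse) hb b3 hNb hδ

theorem lc_arith {B b s e ε ra r4 k0 M0 g q : ℝ} (hB : 0 ≤ B) (hb : 0 ≤ b) (hra : 0 ≤ ra)
    (hr4 : 0 ≤ r4) (hk0 : 0 ≤ k0) (hM0 : 0 ≤ M0) (hg : 0 ≤ g) (hg1 : g ≤ 1) (hq : 0 ≤ q)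
    (hq8 : k0 * q ≤ 1 / 8) (hs0 : 0 ≤ s) (hs : s ≤ ra * g) (he : e = r4 * (k0 * q))
    (hε : ε ≤ 6 * (M0 * g)) :
    2 * (B * (s + e) * b) + ε * (B * (1 + (s + e)) * b) ≤
      (2 * (ra + r4 * k0) + 6 * M0 * (1 + ra + r4) + 8 + 4 * M0 + 1) * B * b * (g + q) := by
  have hBb : 0 ≤ B * b := mul_nonneg hB hb
  have he0 : 0 ≤ e := by rw [he]; positivity
  have hsra : s ≤ ra := hs.trans (by nlinarith)
  have her : e ≤ r4 := by
    rw [he]
    nlinarith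
  have h1 : s + e ≤ (ra + r4 * k0) * (g + q) := by
    have h2 : e = r4 * k0 * q := by rw [he]; ring
    have h3 : 0 ≤ ra * q := by positivity
    have h4 : 0 ≤ r4 * k0 * g := by positivity
    rw [h2]
    linarith
  have h2 : B * (s + e) * b ≤ (ra + r4 * k0) * (B * b) * (g + q) := by
    have := mul_le_mul_of_nonneg_left h1 hBb
    linarith
  have h5 : B * (1 + (s + e)) * b ≤ (1 + ra + r4) * (B * b) := by
    have := mul_le_mul_of_nonneg_left (by linarith : 1 + (s + e) ≤ 1 + ra + r4) hBb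
    linarith
  have h6 : 0 ≤ B * (1 + (s + e)) * b := by positivity
  have h3 : ε * (B * (1 + (s + e)) * b) ≤ 6 * M0 * (1 + ra + r4) * (B * b) * (g + q) := by
    calc ε * (B * (1 + (s + e)) * b) ≤ 6 * (M0 * g) * ((1 + ra + r4) * (B * b)) :=
          mul_le_mul hε h5 h6 (by positivity)
      _ = 6 * M0 * (1 + ra + r4) * (B * b) * g := by ring
      _ ≤ _ := mul_le_mul_of_nonneg_left (by linarith) (by positivity)
  have h4 : 0 ≤ (8 + 4 * M0 + 1) * (B * b) * (g + q) := by positivity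
  linarith

theorem lc_triv {B b ra r4 k0 M0 g q w : ℝ} (hB : 0 ≤ B) (hb : 0 ≤ b) (hra : 0 ≤ ra)
    (hr4 : 0 ≤ r4) (hk0 : 0 ≤ k0) (hM0 : 0 ≤ M0) (hg : 0 ≤ g) (hq : 0 ≤ q)
    (hw : w ≤ 2 * (B * b)) (h1 : 1 ≤ (4 + 2 * M0) * g) :
    w ≤ (2 * (ra + r4 * k0) + 6 * M0 * (1 + ra + r4) + 8 + 4 * M0 + 1) * B * b * (g + q) := by
  have hBb : 0 ≤ B * b := mul_nonneg hB hb
  have h3 := mul_le_mul_of_nonneg_left h1 hBb
  have h4 : 0 ≤ (8 + 4 * M0) * (B * b) * q := by positivity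
  have h5 : 0 ≤ (2 * (ra + r4 * k0) + 6 * M0 * (1 + ra + r4) + 1) * (B * b) * (g + q) := by
    positivity
  linarith

/-- **The functional is asymptotically independent of every local function**, up to the boundary of a
regular domain. -/
theorem local_covQ (hQ : 1 ≤ Q) (hR : RSW Q) (hS : SRSW Q) {c : ℝ} (hc : 0 < c) :
    ∃ c1 C β : ℝ, 0 < c1 ∧ 0 < C ∧ 0 < β ∧ β ≤ 1 ∧
    ∀ (K m : ℤ) (D : Finset (ℤ × ℤ)) (η : Cfg) (p : ℤ × ℤ) (μ0 : ℝ) (th : Finset Ed → ℝ),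
    Reg m D η → Geo K m D p → Phs μ0 c D th → ∀ (f : ℤ × ℤ → ℝ) (a : ℝ),
    (∀ z, |f z| ≤ a) → tot D f = 0 → ∀ x ∈ sites D, ∀ L R : ℤ, 1 ≤ L → L < R → 16 * R ≤ m →
    a * K ^ 2 * R ^ 2 ≤ c1 → ∀ N : Cfg → ℝ, Loc (Bq x (L + 1) ∩ D) N →
    ∀ B b : ℝ, 0 ≤ B → 0 ≤ b → Ex Q D η (fun ω => XR th D p f ω ^ 4) ≤ B ^ 4 →
    Ex Q D η (fun ω => N ω ^ 2) ≤ b ^ 2 →
    |Ex Q D η (fun ω => XR th D p f ω * N ω) - Ex Q D η (XR th D p f) * Ex Q D η N| ≤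
      C * B * b * (((L : ℝ) / R) ^ β + a * K ^ 2 * R ^ 2) := by
  have hQ0 : 0 < Q := by linarith
  obtain ⟨C4, hC4, hs⟩ := sml_q' hQ hR hS
  obtain ⟨Ca, αa, hCa, hαa, hαa1, harm⟩ := arm_all hQ hR hS
  obtain ⟨α0, C0, hα0, hC0, hmx⟩ := mx_all hQ hR hS
  obtain ⟨k0, hk0⟩ : ∃ k0 : ℝ, k0 = 72 * c⁻¹ := ⟨_, rfl⟩
  have hk00 : 0 < k0 := by rw [hk0]; positivity
  -- the exponent
  obtain ⟨β', hβ'⟩ : ∃ β' : ℝ, β' = min (min α0 (αa / 4)) 1 := ⟨_, rfl⟩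
  have hβ0 : 0 < β' := by rw [hβ']; positivity
  have hβ1 : β' ≤ 1 := by rw [hβ']; exact min_le_right _ _
  have hβα : β' ≤ α0 := by rw [hβ']; exact (min_le_left _ _).trans (min_le_left _ _)
  have hβa : β' ≤ αa / 4 := by rw [hβ']; exact (min_le_left _ _).trans (min_le_right _ _)
  clear hβ'
  obtain ⟨M0, hM0⟩ : ∃ M0 : ℝ, M0 = 4 ^ α0 * C0 := ⟨_, rfl⟩
  have hM00 : 0 < M0 := by rw [hM0]; positivity
  refine ⟨1 / (8 * k0), 2 * (Real.sqrt (Real.sqrt Ca) + Real.sqrt (Real.sqrt C4) * k0) +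
    6 * M0 * (1 + Real.sqrt (Real.sqrt Ca) + Real.sqrt (Real.sqrt C4)) + 8 + 4 * M0 + 1, β' / 2,
    by positivity, by positivity, by positivity, by linarith,
    fun K m D η p μ0 th hreg hG hth f a hf htot x hx L R hL hLR hRm hc2 N hN B b hB hb hXB hNb => ?_⟩
  have ha : 0 ≤ a := (abs_nonneg _).trans (hf 0)
  have hq0 : 0 ≤ a * K ^ 2 * R ^ 2 := by positivity
  have hq8 : k0 * (a * K ^ 2 * R ^ 2) ≤ 1 / 8 := by
    rw [le_div_iff₀ (by positivity)] at hc2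
    linarith
  have hq1 : 72 * c⁻¹ * (a * K ^ 2 * R ^ 2) ≤ 1 := by
    rw [← hk0]; linarith
  have hLr : (1 : ℝ) ≤ L := by exact_mod_cast hL
  have hLRr : (L : ℝ) < R := by exact_mod_cast hLR
  have hR0 : (0 : ℝ) < R := by linarith
  obtain ⟨L1, hL1a, hL1b, hL1c, hL1d⟩ := exists_mid hL hLR
  obtain ⟨u, hu⟩ : ∃ u : ℝ, u = Real.sqrt ((L : ℝ) / R) := ⟨_, rfl⟩
  rw [← hu] at hL1c hL1d
  have hLR0 : (0 : ℝ) < (L : ℝ) / R := by positivity
  have hu0 : 0 < u := by rw [hu]; exact Real.sqrt_pos.2 hLR0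
  have hu1 : u ≤ 1 := by
    rw [hu]
    refine Real.sqrt_le_one.2 ?_
    rw [div_le_one hR0]
    exact hLRr.le
  have hub : ((L : ℝ) / R) ^ (β' / 2) = u ^ β' := by
    rw [hu, Real.sqrt_eq_rpow, ← Real.rpow_mul hLR0.le]
    congr 1
    ring
  rw [hub]
  have hg0 : 0 < u ^ β' := by positivity
  have hg1 : u ^ β' ≤ 1 := Real.rpow_le_one hu0.le hu1 hβ0.le
  have hug : u ^ α0 ≤ u ^ β' := Real.rpow_le_rpow_of_exponent_ge hu0 hu1 hβα
  by_cases hcase : 4 * u ≤ 1 ∧ M0 * u ^ α0 ≤ 1 / 2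
  · obtain ⟨hc1, hc3⟩ := hcase
    have hL1pos : (0 : ℝ) < L1 := by exact_mod_cast (by omega : 0 < L1)
    have hLL : L + 1 ≤ L1 := by
      have h1 : ((L + 1 : ℤ) : ℝ) / L1 ≤ 1 := hL1d.trans hc1
      rw [div_le_one hL1pos] at h1
      exact_mod_cast h1
    have hL0 : (0 : ℝ) ≤ ((L + 1 : ℤ) : ℝ) := by exact_mod_cast (by omega : 0 ≤ L + 1)
    have hrate : C0 * (((L + 1 : ℤ) : ℝ) / L1) ^ α0 ≤ M0 * u ^ α0 := by
      calc C0 * (((L + 1 : ℤ) : ℝ) / L1) ^ α0 ≤ C0 * (4 * u) ^ α0 := by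
            refine mul_le_mul_of_nonneg_left (Real.rpow_le_rpow ?_ hL1d hα0.le) hC0.le
            positivity
        _ = M0 * u ^ α0 := by
            rw [Real.mul_rpow (by norm_num) hu0.le, hM0]; ring
    have hmix := hmx D η x (L + 1) L1 (hreg.bd x hx L1 (by omega) (by omega)) (by omega) hLL
      (hrate.trans hc3)
    have hs4 := hs m D η hreg x L1 (2 * R) (fun A => Real.log (wq th D p f A))
      (72 * c⁻¹ * (a * K ^ 2 * R ^ 2)) (by linarith) (by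
        have : (16 * R : ℝ) ≤ m := by exact_mod_cast hRm
        linarith) (by omega) (by
        have : (L1 : ℝ) ≤ R := by exact_mod_cast hL1b.le
        linarith) (by positivity) (by rw [← hk0]; exact hq8)
      (fun j ω hj A hA hsm => lwq_small hG hth hf htot (by omega) (by omega) hq1 j hj hA hsm)
    have hs2 : ((Real.sqrt (Real.sqrt (Ca * ((L1 : ℝ) / R) ^ αa))) ^ 2) ^ 2 =
        Ca * ((L1 : ℝ) / R) ^ αa := by
      rw [Real.sq_sqrt (Real.sqrt_nonneg _), Real.sq_sqrt (by positivity)]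
    have he2 : ((Real.sqrt (Real.sqrt C4) * (k0 * (a * K ^ 2 * R ^ 2))) ^ 2) ^ 2 =
        C4 * (k0 * (a * K ^ 2 * R ^ 2)) ^ 4 := by
      have h1 : ((Real.sqrt (Real.sqrt C4)) ^ 2) ^ 2 = C4 := by
        rw [Real.sq_sqrt (Real.sqrt_nonneg _), Real.sq_sqrt hC4.le]
      have h2 : ((Real.sqrt (Real.sqrt C4) * (k0 * (a * K ^ 2 * R ^ 2))) ^ 2) ^ 2 =
        ((Real.sqrt (Real.sqrt C4)) ^ 2) ^ 2 * (k0 * (a * K ^ 2 * R ^ 2)) ^ 4 := by ring
      rw [h2, h1]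
    have hsle : Real.sqrt (Real.sqrt (Ca * ((L1 : ℝ) / R) ^ αa)) ≤
        Real.sqrt (Real.sqrt Ca) * u ^ β' := by
      have h1 : Real.sqrt (Real.sqrt (Ca * ((L1 : ℝ) / R) ^ αa)) ≤
          Real.sqrt (Real.sqrt (Ca * u ^ αa)) :=
        Real.sqrt_le_sqrt (Real.sqrt_le_sqrt (mul_le_mul_of_nonneg_left
          (Real.rpow_le_rpow (by positivity) hL1c hαa.le) hCa.le))
      refine h1.trans ?_
      rw [Real.sqrt_mul hCa.le, Real.sqrt_mul (Real.sqrt_nonneg _)]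
      refine mul_le_mul_of_nonneg_left ?_ (Real.sqrt_nonneg _)
      rw [Real.sqrt_eq_rpow, Real.sqrt_eq_rpow, ← Real.rpow_mul (Real.rpow_nonneg hu0.le _),
        ← Real.rpow_mul hu0.le]
      exact Real.rpow_le_rpow_of_exponent_ge hu0 hu1 (by linarith)
    have hstep := lc_step (B := B) (b := b) hQ hreg hG hth hf htot (x := x) (L := L) (L1 := L1)
      (R := R) (by omega) hL1b (by omega) hq1
      (κ := Ex Q D η (fun ω' => ∑ A ∈ sm D x L1 (2 * R) ω', Real.log (wq th D p f A)))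
      (s := Real.sqrt (Real.sqrt (Ca * ((L1 : ℝ) / R) ^ αa)))
      (e := Real.sqrt (Real.sqrt C4) * (k0 * (a * K ^ 2 * R ^ 2))) (by positivity)
      (Real.sqrt_nonneg _) (by positivity) hB hb hmix hXB
      (by rw [hs2]; exact harm m D η hreg x hx L1 R (by omega) (by omega) (by omega))
      (by rw [he2, hk0]; exact hs4) hN hNb
    refine hstep.trans (lc_arith hB hb (Real.sqrt_nonneg _) (Real.sqrt_nonneg _) hk00.le hM00.le
      hg0.le hg1 hq0 hq8 (Real.sqrt_nonneg _) hsle rfl ?_)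
    refine mul_le_mul_of_nonneg_left (hrate.trans ?_) (by norm_num)
    exact mul_le_mul_of_nonneg_left hug hM00.le
  · -- the trivial case
    have hX2 := sq_of_four hQ0 hXB
    have hXabs := ex_le hQ0 hB hX2
    have hNabs := ex_le hQ0 hb hNb
    refine lc_triv hB hb (Real.sqrt_nonneg _) (Real.sqrt_nonneg _) hk00.le hM00.le hg0.le hq0
      ?_ ?_
    · have h1 : |Ex Q D η (fun ω => XR th D p f ω * N ω)| ≤ B * b :=
        (abs_Ex_le hQ0 _).trans (cs_ex hQ0 hB hb hX2 hNb)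
      have h2 : |Ex Q D η (XR th D p f) * Ex Q D η N| ≤ B * b := by
        rw [abs_mul]
        exact mul_le_mul ((abs_Ex_le hQ0 _).trans hXabs) ((abs_Ex_le hQ0 _).trans hNabs)
          (abs_nonneg _) hB
      refine (abs_sub _ _).trans ?_
      linarith
    · by_cases h2 : 4 * u ≤ 1
      · have h3 : ¬ M0 * u ^ α0 ≤ 1 / 2 := fun h4 => hcase ⟨h2, h4⟩
        push Not at h3
        have h5 := mul_le_mul_of_nonneg_left hug hM00.le
        nlinarith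
      · push Not at h2
        have h4 : u ≤ u ^ β' := by
          calc u = u ^ (1 : ℝ) := (Real.rpow_one _).symm
            _ ≤ u ^ β' := Real.rpow_le_rpow_of_exponent_ge hu0 hu1 hβ1
        nlinarith [mul_nonneg hM00.le hg0.le]

end Vale.Agent.P167.H167.Q
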