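import Vale.Agent.P167.FKA.All

/-!
# P167, general `q`, block Q-EQUI: mixing of the random-cluster model, uniformly in the boundary
conditions

`mix`: if `F` depends on the squares of the box `(x, ρ)`, the expectations of `F` in the box `(x, R)` for
two boundary conditions differ by at most `C (ρ / R) ^ α` times the supremum of the expectations of `|F|`
in the box `(x, ρ)`. The proof explores the open cluster of the outside of the box in the larger
configuration, one square at a time.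
-/

namespace Vale.Agent.P167.H167.Q

open Finset Vale.Agent.P167.FK Vale.Agent.P167.FKA
open Vale.Agent.P145.FB (PStep PConn)
open Vale.Agent.P167.H259 (f_markov f_fkg f_comp f_comp2)
open Relation

variable {Q : ℝ} {D : Finset (ℤ × ℤ)} {η η' : Cfg} {F : Cfg → ℝ}

/-! ### Equality of expectations -/

theorem cf_insert (D : Finset (ℤ × ℤ)) (η : Cfg) (S : Finset (ℤ × ℤ)) {a : ℤ × ℤ} (ha : a ∈ D) :
    cf D η (insert a S) = Function.update (cf D η S) a true := by
  funext v
  by_cases h : v = a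
  · subst h
    rw [Function.update_self]
    simp [cf, ha]
  · rw [Function.update_of_ne h]
    simp [cf, h]

/-- The numbers of the loops for two outside configurations with the same connections differ by a
constant. -/
theorem LD_diff (hη : Good η) (hη' : Good η')
    (h : ∀ S ⊆ D, ∀ a ∈ D, a ∉ S → (PC (cf D η S) (pa a) (pb a) ↔ PC (cf D η' S) (pa a) (pb a)))
    (S : Finset (ℤ × ℤ)) (hS : S ⊆ D) :
    (LD D (cf D η S) : ℤ) - LD D (cf D η ∅) = LD D (cf D η' S) - LD D (cf D η' ∅) := by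
  classical
  induction S using Finset.induction_on with
  | empty => simp
  | @insert a S ha ih =>
    have haD : a ∈ D := hS (Finset.mem_insert_self _ _)
    have hSD : S ⊆ D := fun v hv => hS (Finset.mem_insert_of_mem hv)
    have ih' := ih hSD
    have hcl : ∀ η : Cfg, cf D η S a = false := fun η => by simp [cf, haD, ha]
    rw [cf_insert D η S haD, cf_insert D η' S haD]
    have f1 := f_flip D (cf D η S) a (f_good.1 D η S hη) haD (hcl η)
    have f2 := f_flip D (cf D η' S) a (f_good.1 D η' S hη') haD (hcl η')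
    by_cases hc : PC (cf D η S) (pa a) (pb a)
    · have e1 := f1.1 hc
      have e2 := f2.1 ((h S hSD a haD ha).1 hc)
      omega
    · have e1 := f1.2 hc
      have e2 := f2.2 fun h' => hc ((h S hSD a haD ha).2 h')
      omega

theorem Ex_eq_of_PC (hQ : 0 < Q) (hη : Good η) (hη' : Good η')
    (h : ∀ S ⊆ D, ∀ a ∈ D, a ∉ S → (PC (cf D η S) (pa a) (pb a) ↔ PC (cf D η' S) (pa a) (pb a)))
    (hF : Loc D F) : Ex Q D η F = Ex Q D η' F := by
  classical
  -- the ratio of the weights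
  obtain ⟨c, hc, hw⟩ : ∃ c : ℝ, 0 < c ∧ ∀ S ⊆ D, Q ^ LD D (cf D η S) = c * Q ^ LD D (cf D η' S) := by
    refine ⟨Q ^ LD D (cf D η ∅) / Q ^ LD D (cf D η' ∅), by positivity, fun S hS => ?_⟩
    have h1 := LD_diff hη hη' h S hS
    have h2 : LD D (cf D η S) + LD D (cf D η' ∅) = LD D (cf D η ∅) + LD D (cf D η' S) := by omega
    rw [div_mul_eq_mul_div, eq_div_iff (by positivity), ← pow_add, ← pow_add, h2]
  have hFe : ∀ S, F (cf D η S) = F (cf D η' S) := fun S => hF _ _ fun v hv => by simp [cf, hv]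
  unfold Ex Zq
  rw [Finset.sum_congr rfl fun S hS => hw S (Finset.mem_powerset.1 hS),
    Finset.sum_congr rfl fun S hS => show Q ^ LD D (cf D η S) * F (cf D η S) =
      c * (Q ^ LD D (cf D η' S) * F (cf D η' S)) by
        rw [hw S (Finset.mem_powerset.1 hS), hFe S, mul_assoc], ← Finset.mul_sum, ← Finset.mul_sum]
  exact mul_div_mul_left _ _ hc.ne'

/-! ### Revealing one square -/

theorem good_update (hη : Good η) (v : ℤ × ℤ) (b : Bool) : Good (Function.update η v b) := by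
  have h := f_good.1 {v} η (if b then {v} else ∅) hη
  have e : cf {v} η (if b then {v} else ∅) = Function.update η v b := by
    funext w
    by_cases hw : w = v
    · subst hw
      rw [Function.update_self]
      cases b <;> simp [cf]
    · rw [Function.update_of_ne hw]
      simp [cf, hw]
  rwa [e] at h

theorem Ex_erase (D : Finset (ℤ × ℤ)) (η : Cfg) {v : ℤ × ℤ} (hv : v ∈ D) (S : Finset (ℤ × ℤ))
    (F : Cfg → ℝ) : Ex Q (D.erase v) (cf D η S) F =
      Ex Q (D.erase v) (Function.update η v (decide (v ∈ S))) F := by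
  have e : ∀ T, cf (D.erase v) (cf D η S) T =
      cf (D.erase v) (Function.update η v (decide (v ∈ S))) T := by
    intro T
    funext w
    by_cases hw : w = v
    · subst hw
      simp [cf, hv]
    · by_cases hwD : w ∈ D
      · simp [cf, hw, hwD]
      · simp [cf, hw, hwD]
  unfold Ex Zq
  simp only [e]

theorem Ex_reveal (hQ : 0 < Q) (hη : Good η) {v : ℤ × ℤ} (hv : v ∈ D) (F : Cfg → ℝ) :
    Ex Q D η F = Pr Q D η {ω | ω v = true} * Ex Q (D.erase v) (Function.update η v true) F +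
      (1 - Pr Q D η {ω | ω v = true}) * Ex Q (D.erase v) (Function.update η v false) F := by
  rw [f_markov Q (D.erase v) D η F hQ (Finset.erase_subset _ _) hη]
  set a := Ex Q (D.erase v) (Function.update η v true) F with ha
  set b := Ex Q (D.erase v) (Function.update η v false) F with hb
  have e : Ex Q D η (fun ω => Ex Q (D.erase v) ω F) =
      Ex Q D η (fun ω => a * {ω : Cfg | ω v = true}.indicator 1 ω +
        (b - b * {ω : Cfg | ω v = true}.indicator 1 ω)) := by
    refine Ex_congr fun S _ => ?_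
    rw [Ex_erase D η hv S F]
    by_cases h : v ∈ S
    · have h1 : cf D η S ∈ {ω : Cfg | ω v = true} := by
        show cf D η S v = true
        simp [cf, hv, h]
      rw [Set.indicator_of_mem h1]
      simp only [h, decide_true]
      rw [← ha]; simp
    · have h1 : cf D η S ∉ {ω : Cfg | ω v = true} := by
        show ¬ cf D η S v = true
        simp [cf, hv, h]
      rw [Set.indicator_of_notMem h1]
      simp only [h, decide_false]
      rw [← hb]; simp
  rw [e, Ex_add, Ex_mul_left, Ex_sub, Ex_mul_left, Ex_const hQ]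
  unfold Pr
  ring

/-! ### The exploration -/

/-- The site `u` is connected to the outside of the box `(x, R)` by open squares off `D`. -/
def Bad (x : ℤ × ℤ) (R : ℤ) (D : Finset (ℤ × ℤ)) (η : Cfg) (u : ℤ × ℤ) : Prop :=
  ∃ w, R ≤ nm (w - x) ∧ ReflTransGen (PStep {v | v ∉ D ∧ η v = true}) u w

theorem even_cor {v u : ℤ × ℤ} (h : Cor v u) (hu : Even (u.1 + u.2)) : u = pa v ∨ u = pb v := by
  unfold Cor at h
  unfold pa pb
  rw [Int.even_iff] at hu
  by_cases hv : Even (v.1 + v.2)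
  · rw [if_pos hv, if_pos hv]
    rw [Int.even_iff] at hv
    rcases h with ⟨h1 | h1, h2 | h2⟩
    · left; exact Prod.ext h1 h2
    · omega
    · omega
    · right; exact Prod.ext h1 h2
  · rw [if_neg hv, if_neg hv]
    rw [Int.even_iff] at hv
    rcases h with ⟨h1 | h1, h2 | h2⟩
    · omega
    · left; exact Prod.ext h1 h2
    · right; exact Prod.ext h1 h2
    · omega

theorem pa_ne_pb (v : ℤ × ℤ) : pa v ≠ pb v := by
  unfold pa pb
  split_ifs <;> simp [Prod.ext_iff]

theorem step_pab {G : Set (ℤ × ℤ)} {v : ℤ × ℤ} (hv : v ∈ G) : PStep G (pa v) (pb v) :=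
  step_of_cor hv (cor_pa v).1 (cor_pb v).1 (cor_pa v).2 (cor_pb v).2 (pa_ne_pb v)

theorem Bad.of_cor {x : ℤ × ℤ} {R : ℤ} {v u : ℤ × ℤ} (hv : v ∉ D) (hη : η v = true)
    (hb : Bad x R D η (pa v)) (hc : Cor v u) (hu : Even (u.1 + u.2)) : Bad x R D η u := by
  rcases even_cor hc hu with rfl | rfl
  · exact hb
  · obtain ⟨w, h1, h2⟩ := hb
    exact ⟨w, h1, ReflTransGen.head (step_pab (G := {v | v ∉ D ∧ η v = true}) ⟨hv, hη⟩).symm h2⟩

theorem Bad.of_cor' {x : ℤ × ℤ} {R : ℤ} {v u : ℤ × ℤ} (hv : v ∉ D) (hη : η v = true)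
    (hb : Bad x R D η u) (hc : Cor v u) (hu : Even (u.1 + u.2)) : Bad x R D η (pa v) := by
  rcases even_cor hc hu with rfl | rfl
  · exact hb
  · obtain ⟨w, h1, h2⟩ := hb
    exact ⟨w, h1, ReflTransGen.head (step_pab (G := {v | v ∉ D ∧ η v = true}) ⟨hv, hη⟩) h2⟩

theorem Bad.erase {x : ℤ × ℤ} {R : ℤ} {v u : ℤ × ℤ} {b : Bool} (hv : v ∈ D)
    (hb : Bad x R D η u) : Bad x R (D.erase v) (Function.update η v b) u := by
  obtain ⟨w, h1, h2⟩ := hb
  refine ⟨w, h1, H166.rtg_mono (fun c hc => ?_) h2⟩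
  obtain ⟨h3, h4⟩ := hc
  have hne : c ≠ v := fun h => h3 (h ▸ hv)
  refine ⟨fun h => h3 (Finset.mem_of_mem_erase h), ?_⟩
  rw [Function.update_of_ne hne]
  exact h4

theorem mem_Bq {x v : ℤ × ℤ} {R : ℤ} : v ∈ Bq x R ↔
    (x.1 - R ≤ v.1 ∧ v.1 < x.1 + R) ∧ x.2 - R ≤ v.2 ∧ v.2 < x.2 + R := by
  simp only [Bq, Finset.mem_product, Finset.mem_Ico]

theorem bq_mono {x : ℤ × ℤ} {r R : ℤ} (h : r ≤ R) : Bq x r ⊆ Bq x R := fun v hv => by
  rw [mem_Bq] at hv ⊢
  omega

/-- A corner of a square outside of the box. -/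
theorem nm_of_notMem {x v u : ℤ × ℤ} {R : ℤ} (hv : v ∉ Bq x R) (hc : Cor v u) :
    R ≤ nm (u - x) := by
  rw [mem_Bq] at hv
  unfold Cor at hc
  rw [le_nm_iff]
  simp only [Prod.fst_sub, Prod.snd_sub]
  omega

theorem nm_of_mem {x v u : ℤ × ℤ} {R : ℤ} (hv : v ∈ Bq x R) (hc : Cor v u) :
    nm (u - x) ≤ R := by
  rw [mem_Bq] at hv
  unfold Cor at hc
  rw [nm_le_iff]
  simp only [Prod.fst_sub, Prod.snd_sub]
  omega

/-- If no square of `D` has a bad corner, the connections are the same. -/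
theorem PC_of_not_bad {x : ℤ × ℤ} {R : ℤ} (hle : ∀ v, η v = true → η' v = true)
    (hinv : ∀ v ∈ Bq x R, v ∉ D → η' v = true → Bad x R D η' (pa v))
    (hnb : ∀ v ∈ D, ∀ u, Cor v u → Even (u.1 + u.2) → ¬ Bad x R D η' u)
    {S : Finset (ℤ × ℤ)} {a y : ℤ × ℤ} (ha : a ∈ D)
    (h : PC (cf D η S) (pa a) y) : ReflTransGen (PStep (S : Set (ℤ × ℤ))) (pa a) y ∧
      Even (y.1 + y.2) ∧ ∃ c ∈ D, Cor c y := by
  unfold PC at h
  induction h with
  | refl => exact ⟨ReflTransGen.refl, (cor_pa a).2, a, ha, (cor_pa a).1⟩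
  | @tail y y' huy hst ih =>
    obtain ⟨h1, h2, c, hc, hcy⟩ := ih
    obtain ⟨hc1, hc2⟩ := cor_of_step hst
    have hye' : Even (y'.1 + y'.2) := (FKA.even_step hst).1 h2
    obtain ⟨q, hq⟩ : ∃ q : ℤ × ℤ, q = (min y.1 y'.1, min y.2 y'.2) := ⟨_, rfl⟩
    rw [← hq] at hc1 hc2
    have hop : cf D η S q = true := by
      have := hst.2.2
      rw [← hq] at this
      exact this
    by_cases hqD : q ∈ D
    · have hqS : q ∈ S := by simpa [cf, hqD] using hop
      refine ⟨h1.tail ⟨hst.1, hst.2.1, ?_⟩, hye', q, hqD, hc2⟩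
      rw [← hq]
      exact hqS
    · exfalso
      have hq' : η' q = true := hle q (by simpa [cf, hqD] using hop)
      by_cases hqR : q ∈ Bq x R
      · exact hnb c hc y hcy h2 (Bad.of_cor hqD hq' (hinv q hqR hqD hq') hc1 h2)
      · exact hnb c hc y hcy h2 ⟨y, nm_of_notMem hqR hc1, ReflTransGen.refl⟩

theorem ex_abs_le (hQ : 0 < Q) {ρ : ℤ} {x : ℤ × ℤ} (hD : Bq x ρ ⊆ D) (hη : Good η) {M : ℝ}
    (hM : ∀ ξ, Good ξ → Ex Q (Bq x ρ) ξ (fun ω => |F ω|) ≤ M) : |Ex Q D η F| ≤ M := by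
  refine (abs_Ex_le hQ F).trans ?_
  rw [f_markov Q (Bq x ρ) D η _ hQ hD hη, ← Ex_const (D := D) (η := η) hQ M]
  exact Ex_mono hQ fun S _ => hM _ (f_good.1 D η S hη)

theorem incS_open (v : ℤ × ℤ) : IncS {ω : Cfg | ω v = true} := fun _ _ h h' => h v h'

/-- The estimate of one step. -/
theorem step_bound {p p' E1 E0 E1' E0' A1 A0 M : ℝ} (hp : 0 ≤ p) (hpp : p ≤ p') (hp' : p' ≤ 1)
    (h11 : |E1 - E1'| ≤ M * A1) (h01 : |E0 - E1'| ≤ M * A1) (h00 : |E0 - E0'| ≤ M * A0) :
    |p * E1 + (1 - p) * E0 - (p' * E1' + (1 - p') * E0')| ≤ M * (p' * A1 + (1 - p') * A0) := by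
  have e : p * E1 + (1 - p) * E0 - (p' * E1' + (1 - p') * E0') =
      p * (E1 - E1') + (p' - p) * (E0 - E1') + (1 - p') * (E0 - E0') := by ring
  rw [e]
  calc |p * (E1 - E1') + (p' - p) * (E0 - E1') + (1 - p') * (E0 - E0')| ≤
      |p * (E1 - E1')| + |(p' - p) * (E0 - E1')| + |(1 - p') * (E0 - E0')| := abs_add_three _ _ _
    _ = p * |E1 - E1'| + (p' - p) * |E0 - E1'| + (1 - p') * |E0 - E0'| := by
        rw [abs_mul, abs_mul, abs_mul, abs_of_nonneg hp, abs_of_nonneg (sub_nonneg.2 hpp),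
          abs_of_nonneg (sub_nonneg.2 hp')]
    _ ≤ p * (M * A1) + (p' - p) * (M * A1) + (1 - p') * (M * A0) :=
        add_le_add (add_le_add (mul_le_mul_of_nonneg_left h11 hp)
          (mul_le_mul_of_nonneg_left h01 (sub_nonneg.2 hpp)))
          (mul_le_mul_of_nonneg_left h00 (sub_nonneg.2 hp'))
    _ = _ := by ring

/-- **Mixing, inductive form.** -/
theorem mix_ind (hQ : 1 ≤ Q) {x : ℤ × ℤ} {ρ R : ℤ} (hρR : ρ ≤ R) (hF : Loc (Bq x ρ) F) {M : ℝ}
    (hM : ∀ ξ, Good ξ → Ex Q (Bq x ρ) ξ (fun ω => |F ω|) ≤ M) (k : ℕ) :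
    ∀ (D : Finset (ℤ × ℤ)) (η η' : Cfg), D.card = k → Bq x ρ ⊆ D → Good η →
      Good η' → (∀ v, η v = true → η' v = true) →
      (∀ v ∈ Bq x R, v ∉ D → η' v = true → Bad x R D η' (pa v)) →
      |Ex Q D η F - Ex Q D η' F| ≤ 2 * M * Pr Q D η' {ω | ArmPx x ρ R ω} := by
  have hQ0 : 0 < Q := by linarith
  have hM0 : 0 ≤ M := (Ex_nonneg (Q := Q) (D := Bq x ρ) (η := eta0) hQ0
    (F := fun ω => |F ω|) fun _ _ => abs_nonneg _).trans (hM eta0 f_good.2.1)
  induction k with
  | zero =>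
    intro D η η' hk hρD hη hη' hle hinv
    have hD0 : D = ∅ := Finset.card_eq_zero.1 hk
    have h1 : Ex Q D η F = Ex Q D η' F := by
      refine Ex_eq_of_PC hQ0 hη hη' (fun S _ a ha => ?_) fun ω ω' h => hF ω ω' fun v hv => h v (hρD hv)
      rw [hD0] at ha
      simp at ha
    rw [h1, sub_self, abs_zero]
    have := Pr_nonneg (D := D) (η := η') hQ0 {ω | ArmPx x ρ R ω}
    positivity
  | succ k ih =>
    intro D η η' hk hρD hη hη' hle hinv
    have hPr := Pr_nonneg (D := D) (η := η') hQ0 {ω | ArmPx x ρ R ω}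
    by_cases h1 : ∃ u, Even (u.1 + u.2) ∧ nm (u - x) ≤ ρ ∧ Bad x R D η' u
    · -- the cluster has reached the box
      obtain ⟨u, hue, hun, w, hw, huw⟩ := h1
      have hone : Pr Q D η' {ω | ArmPx x ρ R ω} = 1 := by
        refine le_antisymm (Pr_le_one hQ0 _) ?_
        unfold Pr
        rw [← Ex_const (D := D) (η := η') hQ0 1]
        refine Ex_mono hQ0 fun S _ => ?_
        have : cf D η' S ∈ {ω | ArmPx x ρ R ω} := by
          show ArmPx x ρ R (cf D η' S)
          rw [armPx_iff hρR]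
          refine ⟨u, w, hue, hun, hw, H166.rtg_mono (fun c hc => ?_) huw⟩
          obtain ⟨h3, h4⟩ := hc
          show cf D η' S c = true
          rw [cf_out h3]
          exact h4
        rw [Set.indicator_of_mem this]
        simp
      rw [hone, mul_one]
      have a1 := ex_abs_le hQ0 hρD hη hM
      have a2 := ex_abs_le hQ0 hρD hη' hM
      calc |Ex Q D η F - Ex Q D η' F| ≤ |Ex Q D η F| + |Ex Q D η' F| := abs_sub _ _
        _ ≤ 2 * M := by linarith
    · push Not at h1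
      by_cases h2 : ∃ v ∈ D, ∃ u, Cor v u ∧ Even (u.1 + u.2) ∧ Bad x R D η' u
      · -- reveal one square
        obtain ⟨v, hv, u, hcu, hue, hbu⟩ := h2
        have hvρ : v ∉ Bq x ρ := fun h => h1 u hue (nm_of_mem h hcu) hbu
        have hcard : (D.erase v).card = k := by rw [Finset.card_erase_of_mem hv, hk]; rfl
        have hsub : Bq x ρ ⊆ D.erase v := fun w hw =>
          Finset.mem_erase.2 ⟨fun h => hvρ (h ▸ hw), hρD hw⟩
        have hinv' : ∀ b : Bool, ∀ w ∈ Bq x R, w ∉ D.erase v → Function.update η' v b w = true →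
            Bad x R (D.erase v) (Function.update η' v b) (pa w) := by
          intro b w hw hwD hwo
          by_cases hwv : w = v
          · subst hwv
            refine Bad.of_cor' hwD hwo (hbu.erase hv) hcu hue
          · rw [Function.update_of_ne hwv] at hwo
            exact (hinv w hw (fun h => hwD (Finset.mem_erase.2 ⟨hwv, h⟩)) hwo).erase hv
        have hle' : ∀ b b' : Bool, (b = true → b' = true) → ∀ w, Function.update η v b w = true →
            Function.update η' v b' w = true := by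
          intro b b' hbb w hw
          by_cases hwv : w = v
          · subst hwv
            rw [Function.update_self] at hw ⊢
            exact hbb hw
          · rw [Function.update_of_ne hwv] at hw ⊢
            exact hle w hw
        have IH : ∀ b b' : Bool, (b = true → b' = true) →
            |Ex Q (D.erase v) (Function.update η v b) F -
              Ex Q (D.erase v) (Function.update η' v b') F| ≤
            2 * M * Pr Q (D.erase v) (Function.update η' v b') {ω | ArmPx x ρ R ω} := fun b b' hbb =>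
          ih _ _ _ hcard hsub (good_update hη v b) (good_update hη' v b') (hle' b b' hbb) (hinv' b')
        have hpp : Pr Q D η {ω | ω v = true} ≤ Pr Q D η' {ω | ω v = true} :=
          f_comp Q D η η' _ hQ hη hη' hle (incS_open v).incF
        have hstep := step_bound (Pr_nonneg hQ0 _) hpp (Pr_le_one hQ0 _)
          (IH true true fun h => h) (IH false true fun h => by simp at h)
          (IH false false fun h => h)
        rw [Ex_reveal hQ0 hη hv F, Ex_reveal hQ0 hη' hv F]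
        refine hstep.trans (le_of_eq ?_)
        unfold Pr
        rw [Ex_reveal hQ0 hη' hv ({ω | ArmPx x ρ R ω}.indicator 1)]
        unfold Pr
        ring
      · -- the exploration is finished
        push Not at h2
        have h3 : Ex Q D η F = Ex Q D η' F := by
          refine Ex_eq_of_PC hQ0 hη hη' (fun S hS a ha _ => ?_)
            fun ω ω' h => hF ω ω' fun v hv => h v (hρD hv)
          have hm : ∀ ξ : Cfg, ReflTransGen (PStep (S : Set (ℤ × ℤ))) (pa a) (pb a) →
              PC (cf D ξ S) (pa a) (pb a) := fun ξ h => by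
            refine H166.rtg_mono (fun c hc => ?_) h
            have h5 : c ∈ S := hc
            show cf D ξ S c = true
            simp [cf, hS h5, h5]
          constructor
          · intro h
            exact hm η' (PC_of_not_bad hle hinv h2 ha h).1
          · intro h
            exact hm η (PC_of_not_bad (fun _ h => h) hinv h2 ha h).1
        rw [h3, sub_self, abs_zero]
        positivity

/-! ### Conclusions -/

theorem pr_arm (hQ : 1 ≤ Q) {α C : ℝ} (h : ArmDec Q α C) {x : ℤ × ℤ} {ρ R : ℤ} (hρ : 1 ≤ ρ)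
    (hρR : ρ ≤ R) (hη : Good η) :
    Pr Q (Bq x R) η {ω | ArmPx x ρ R ω} ≤ C * ((ρ : ℝ) / R) ^ α := by
  have hQ0 : 0 < Q := by linarith
  have h1 := h x ρ R (Bq x R) η (fun _ => 1) hρ hρR hη Finset.sdiff_subset
    (fun _ => zero_le_one) fun _ _ _ => rfl
  simp only [one_mul] at h1
  rw [Ex_const hQ0, mul_one] at h1
  exact h1

/-- Comparison with the wired boundary condition. -/
theorem mix_wired (hQ : 1 ≤ Q) {α C : ℝ} (h : ArmDec Q α C) {x : ℤ × ℤ} {ρ R : ℤ} (hρ : 1 ≤ ρ)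
    (hρR : ρ ≤ R) (hF : Loc (Bq x ρ) F) {M : ℝ}
    (hM : ∀ ξ, Good ξ → Ex Q (Bq x ρ) ξ (fun ω => |F ω|) ≤ M) (hη : Good η) :
    |Ex Q (Bq x R) η F - Ex Q (Bq x R) eta1 F| ≤ 2 * M * (C * ((ρ : ℝ) / R) ^ α) := by
  have hQ0 : 0 < Q := by linarith
  have hM0 : 0 ≤ M := (Ex_nonneg (Q := Q) (D := Bq x ρ) (η := eta0) hQ0
    (F := fun ω => |F ω|) fun _ _ => abs_nonneg _).trans (hM eta0 f_good.2.1)
  have h1 := mix_ind hQ hρR hF hM (Bq x R).card (Bq x R) η eta1 rfl (bq_mono hρR) hη f_good.2.2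
    (fun _ _ => rfl) fun v hv hv' => absurd hv hv'
  exact h1.trans (mul_le_mul_of_nonneg_left (pr_arm hQ h hρ hρR f_good.2.2) (by positivity))

/-- A function off the box times a local function. -/
theorem mix_mul (hQ : 1 ≤ Q) {α C : ℝ} (h : ArmDec Q α C) {x : ℤ × ℤ} {ρ R : ℤ} (hρ : 1 ≤ ρ)
    (hρR : ρ ≤ R) (hF : Loc (Bq x ρ) F) {M : ℝ}
    (hM : ∀ ξ, Good ξ → Ex Q (Bq x ρ) ξ (fun ω => |F ω|) ≤ M) (hη : Good η) (hD : Bq x R ⊆ D)
    {G : Cfg → ℝ} (hG : Ind (Bq x R) G) :
    |Ex Q D η (fun ω => G ω * F ω) - Ex Q D η G * Ex Q (Bq x R) eta1 F| ≤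
      Ex Q D η (fun ω => |G ω|) * (2 * M * (C * ((ρ : ℝ) / R) ^ α)) := by
  have hQ0 : 0 < Q := by linarith
  set e := Ex Q (Bq x R) eta1 F with he
  set b := 2 * M * (C * ((ρ : ℝ) / R) ^ α) with hb
  rw [markov f_markov hQ0 hD hη hG]
  have e1 : Ex Q D η (fun ω => G ω * Ex Q (Bq x R) ω F) - Ex Q D η G * e =
      Ex Q D η (fun ω => G ω * (Ex Q (Bq x R) ω F - e)) := by
    rw [mul_comm (Ex Q D η G) e, ← Ex_mul_left, ← Ex_sub]
    exact Ex_congr fun S _ => by ring
  rw [e1]
  refine (abs_Ex_le hQ0 _).trans ?_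
  rw [mul_comm _ b, ← Ex_mul_left]
  refine Ex_mono hQ0 fun S _ => ?_
  rw [abs_mul, mul_comm b]
  exact mul_le_mul_of_nonneg_left (mix_wired hQ h hρ hρR hF hM (f_good.1 D η S hη)) (abs_nonneg _)

/-- **Mixing.** The expectations of a local function in two domains which contain the box `(x, R)`, for
two boundary conditions. -/
theorem mix (hQ : 1 ≤ Q) {α C : ℝ} (h : ArmDec Q α C) {x : ℤ × ℤ} {ρ R : ℤ} (hρ : 1 ≤ ρ)
    (hρR : ρ ≤ R) (hF : Loc (Bq x ρ) F) {M : ℝ}
    (hM : ∀ ξ, Good ξ → Ex Q (Bq x ρ) ξ (fun ω => |F ω|) ≤ M) (hη : Good η) (hη' : Good η')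
    {D D' : Finset (ℤ × ℤ)} (hD : Bq x R ⊆ D) (hD' : Bq x R ⊆ D') :
    |Ex Q D η F - Ex Q D' η' F| ≤ 4 * M * (C * ((ρ : ℝ) / R) ^ α) := by
  have hQ0 : 0 < Q := by linarith
  have key : ∀ (D : Finset (ℤ × ℤ)) (η : Cfg), Good η → Bq x R ⊆ D →
      |Ex Q D η F - Ex Q (Bq x R) eta1 F| ≤ 2 * M * (C * ((ρ : ℝ) / R) ^ α) := by
    intro D η hη hD
    have h1 := mix_mul hQ h hρ hρR hF hM hη hD (G := fun _ => 1) fun _ _ _ => rfl
    simp only [one_mul, abs_one] at h1
    rwa [Ex_const hQ0, one_mul, one_mul] at h1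
  have h1 := key D η hη hD
  have h2 := key D' η' hη' hD'
  rw [abs_le] at h1 h2 ⊢
  constructor <;> linarith

/-- **Covariances.** -/
theorem cov_le (hQ : 1 ≤ Q) {α C : ℝ} (h : ArmDec Q α C) {x : ℤ × ℤ} {ρ R : ℤ} (hρ : 1 ≤ ρ)
    (hρR : ρ ≤ R) (hF : Loc (Bq x ρ) F) {M : ℝ}
    (hM : ∀ ξ, Good ξ → Ex Q (Bq x ρ) ξ (fun ω => |F ω|) ≤ M) (hη : Good η) (hD : Bq x R ⊆ D)
    {G : Cfg → ℝ} (hG : Ind (Bq x R) G) :
    |Ex Q D η (fun ω => G ω * F ω) - Ex Q D η G * Ex Q D η F| ≤
      Ex Q D η (fun ω => |G ω|) * (4 * M * (C * ((ρ : ℝ) / R) ^ α)) := by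
  have hQ0 : 0 < Q := by linarith
  have h1 := mix_mul hQ h hρ hρR hF hM hη hD hG
  have h2 := mix_mul hQ h hρ hρR hF hM hη hD (G := fun _ => 1) fun _ _ _ => rfl
  simp only [one_mul, abs_one] at h2
  rw [Ex_const hQ0, one_mul, one_mul] at h2
  have h3 : |Ex Q D η G| ≤ Ex Q D η (fun ω => |G ω|) := abs_Ex_le hQ0 G
  set e := Ex Q (Bq x R) eta1 F
  have e1 : Ex Q D η (fun ω => G ω * F ω) - Ex Q D η G * Ex Q D η F =
      (Ex Q D η (fun ω => G ω * F ω) - Ex Q D η G * e) - Ex Q D η G * (Ex Q D η F - e) := by ring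
  rw [e1]
  refine (abs_sub _ _).trans ?_
  rw [abs_mul]
  have h4 : |Ex Q D η G| * |Ex Q D η F - e| ≤
      Ex Q D η (fun ω => |G ω|) * (2 * M * (C * ((ρ : ℝ) / R) ^ α)) :=
    mul_le_mul h3 h2 (abs_nonneg _) ((abs_nonneg _).trans h3)
  linarith

end Vale.Agent.P167.H167.Q
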