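import Vale.Agent.P167.H192.Q.SDefs
import Vale.Agent.P167.H167.Q.Jun

/-!
# P167, general `q`, block Q-MIX-J: raw arms next to a flat side

A raw arm uses only the squares of the half-plane `h ≤ v.2`; the squares below are arbitrary. The
probability decays, uniformly in the position of the box and in everything outside, by the strong
Russo-Seymour-Welsh property.
-/

namespace Vale.Agent.P167.H167.Q

open Finset Vale.Agent.P167.FK Vale.Agent.P167.FKA
open Vale.Agent.P145.FB (PStep PConn)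
open Vale.Agent.P167.H259 (f_markov f_fkg f_comp f_comp2 Ex_out cf_cf PC_mono)
open Vale.Agent.P167.H519 (cf_in ind_le_of_imp loc_mono pc_of_cor pa_cor pa_even conn_symm)
open Vale.Agent.P167.H562.GL (near_of_corx far_of_corx)
open Vale.Agent.P167.H192.TA (dq sr Pw dF mem_dF Xc)
open Vale.Agent.P167.H632 (cs pr)
open Vale.Agent.P167.H192.Q (etac pX SRSW)
open Relation

variable {Q : ℝ}

/-- The configuration with the squares below `h` closed. -/
def mk (h : ℤ) (ω : Cfg) : Cfg := fun v => if h ≤ v.2 then ω v else false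

theorem op_mk (h : ℤ) (ω : Cfg) : op (mk h ω) = op ω ∩ {v | h ≤ v.2} := by
  ext v
  show (mk h ω v = true) ↔ (ω v = true ∧ h ≤ v.2)
  unfold mk
  split_ifs with h1
  · exact ⟨fun h2 => ⟨h2, h1⟩, fun h2 => h2.1⟩
  · exact ⟨fun h2 => absurd h2 (by simp), fun h2 => absurd h2.2 h1⟩

theorem mk_mono {h : ℤ} {ω ω' : Cfg} (hle : ∀ v, ω v = true → ω' v = true) :
    ∀ v, mk h ω v = true → mk h ω' v = true := by
  intro v hv
  unfold mk at *
  split_ifs at hv ⊢ with h1
  exact hle v hv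

/-- A raw arm. -/
def RA (h : ℤ) (x : ℤ × ℤ) (r R : ℤ) : Set Cfg := {ω | ArmPx x r R (mk h ω)}

theorem ra_inc (h : ℤ) (x : ℤ × ℤ) (r R : ℤ) : IncS (RA h x r R) := fun _ _ hle h' =>
  inc_arm x r R _ _ (mk_mono hle) h'

theorem ra_sub {h : ℤ} {x : ℤ × ℤ} {r R r' R' : ℤ} (hr : r ≤ r') (hrR' : r' ≤ R') (hR : R' ≤ R) :
    RA h x r R ⊆ RA h x r' R' := fun _ h' => arm_sub (x := x) hr hrR' hR h'

/-- The squares of the half-plane in an annulus. -/
noncomputable def hann (h : ℤ) (x : ℤ × ℤ) (r R : ℤ) : Finset (ℤ × ℤ) :=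
  (Bq x R \ Bq x r).filter fun v => h ≤ v.2

theorem mem_hann {h : ℤ} {x v : ℤ × ℤ} {r R : ℤ} : v ∈ hann h x r R ↔
    (v ∈ Bq x R ∧ v ∉ Bq x r) ∧ h ≤ v.2 := by
  unfold hann
  rw [Finset.mem_filter, Finset.mem_sdiff]

theorem ra_loc (h : ℤ) (x : ℤ × ℤ) (r R : ℤ) : Loc (Bq x R) ((RA h x r R).indicator 1) := by
  intro ω ω' hw
  have h1 := loc_arm x r R (mk h ω) (mk h ω') fun v hv => by
    unfold mk
    rw [hw v hv]
  exact h1

/-- The squares of `Bq x r` are irrelevant. -/
theorem path_ann {F F' : Set (ℤ × ℤ)} {x : ℤ × ℤ} {r : ℤ}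
    (hF : ∀ v, v ∈ F → v ∉ Bq x r → v ∈ F') {u v : ℤ × ℤ}
    (h : ReflTransGen (PStep F) u v) (hu : nm (u - x) ≤ r) (hv : r ≤ nm (v - x)) :
    ∃ u', nm (u' - x) = r ∧ ReflTransGen (PStep F') u' v ∧ ReflTransGen (PStep F) u u' := by
  have key : ∀ w, ReflTransGen (PStep F) u w → nm (w - x) ≤ r - 1 ∨
      ∃ u', nm (u' - x) = r ∧ ReflTransGen (PStep F') u' w ∧ ReflTransGen (PStep F) u u' := by
    intro w hw
    induction hw with
    | refl =>
      rcases hu.eq_or_lt with h1 | h1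
      · exact Or.inr ⟨u, h1, ReflTransGen.refl, ReflTransGen.refl⟩
      · exact Or.inl (by omega)
    | @tail w w' hww hww' ih =>
      have h2 := nm_step (x := x) hww'
      have h3 := nm_step' (x := x) hww'
      rcases lt_trichotomy (nm (w' - x)) r with h4 | h4 | h4
      · exact Or.inl (by omega)
      · exact Or.inr ⟨w', h4, ReflTransGen.refl, hww.tail hww'⟩
      · rcases ih with h5 | ⟨u', h5, h6, h7⟩
        · omega
        · refine Or.inr ⟨u', h5, h6.tail ⟨hww'.1, hww'.2.1, hF _ hww'.2.2 ?_⟩, h7⟩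
          intro h8
          have := near_of_corx h8 (cor_of_step hww').2
          omega
  rcases key v h with h1 | h1
  · omega
  · exact h1

theorem ra_indep (h : ℤ) (x : ℤ × ℤ) {r R : ℤ} (hrR : r ≤ R) :
    Loc (hann h x r R) ((RA h x r R).indicator 1) := by
  have key : ∀ ω ω' : Cfg, (∀ v ∈ hann h x r R, ω v = ω' v) → ω ∈ RA h x r R →
      ω' ∈ RA h x r R := by
    intro ω ω' hw hω
    have hω' : ArmPx x r R (mk h ω) := hω
    rw [armPx_iff hrR] at hω'
    obtain ⟨u, v, hu, hur, hvR, huv⟩ := hω'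
    -- stop at the exit
    obtain ⟨v', hv', hp⟩ := exit huv (show nm (u - x) ≤ R by omega) hvR
    obtain ⟨hin, hp⟩ := hp
    have hp2 : ReflTransGen (PStep (op (mk h ω) ∩ {q | q ∈ Bq x R})) u v' := by
      clear hv'
      induction hp with
      | refl => exact ReflTransGen.refl
      | @tail a c hab hac ih =>
        refine ih.tail ⟨hac.1.1, hac.1.2.1, hac.1.2.2, ?_⟩
        have hh := hac.1
        have ha : nm (a - x) ≤ R := by
          rcases ReflTransGen.cases_tail hab with h8 | ⟨d, -, hd⟩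
          · rw [h8]; exact hin
          · exact hd.2
        exact step_mem (F := op (mk h ω)) hh ha hac.2
    obtain ⟨u', hu', hp3, hp4⟩ := path_ann (F' := op (mk h ω') ∩ {q | q ∈ Bq x R})
      (x := x) (r := r) (fun q hq hqr => by
        refine ⟨?_, hq.2⟩
        have h5 : q ∈ op ω ∩ {v | h ≤ v.2} := by rw [← op_mk]; exact hq.1
        show q ∈ op (mk h ω')
        rw [op_mk]
        refine ⟨?_, h5.2⟩
        show ω' q = true
        rw [← hw q (mem_hann.2 ⟨⟨hq.2, hqr⟩, h5.2⟩)]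
        exact h5.1) hp2 hur (by omega)
    show ArmPx x r R (mk h ω')
    rw [armPx_iff hrR]
    refine ⟨u', v', ?_, hu'.le, hv'.ge, rtg_mono Set.inter_subset_left hp3⟩
    have := rtg_parity hp4
    rw [Int.even_iff] at *
    omega
  intro ω ω' hw
  by_cases h1 : ω ∈ RA h x r R
  · rw [Set.indicator_of_mem h1, Set.indicator_of_mem (key ω ω' hw h1)]
    rfl
  · rw [Set.indicator_of_notMem h1, Set.indicator_of_notMem fun h2 =>
      h1 (key ω' ω (fun v hv => (hw v hv).symm) h2)]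

/-- A raw arm crosses the half annulus. -/
theorem xc_of_ra {b : ℤ × ℤ} {r R : ℤ} (hrR : r < R) {ω : Cfg}
    (hω : ω ∈ RA b.2 b r R) : ω ∈ Xc true b r R := by
  have hω' : ArmPx b r R (mk b.2 ω) := hω
  rw [armPx_iff hrR.le] at hω'
  obtain ⟨u, s, hu, hur, hsR, hus⟩ := hω'
  rw [op_mk] at hus
  have key : ∀ t, ReflTransGen (PStep (op ω ∩ {v | b.2 ≤ v.2})) u t →
      Even (t.1 + t.2) ∧ (nm (t - b) ≤ r ∨
        (r < nm (t - b) ∧ nm (t - b) < R ∧ ∃ y, y ∈ sr b r R ∧ (y.1 + y.2) % 2 = pr true ∧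
          nm (y - b) ≤ r ∧ Pw (cs true ω ∩ dq b r R) y t) ∨ ω ∈ Xc true b r R) := by
    intro t ht
    induction ht with
    | refl => exact ⟨hu, Or.inl hur⟩
    | @tail t t' _ htt' ih =>
      obtain ⟨hte, ih⟩ := ih
      have hte' : Even (t'.1 + t'.2) := (FKA.even_step htt').1 hte
      refine ⟨hte', ?_⟩
      obtain ⟨v, hv⟩ : ∃ v : ℤ × ℤ, v = (min t.1 t'.1, min t.2 t'.2) := ⟨_, rfl⟩
      have hcor := cor_of_step htt'
      have hvF : v ∈ op ω ∩ {v | b.2 ≤ v.2} := by rw [hv]; exact htt'.2.2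
      rw [← hv] at hcor
      have hv2 : b.2 ≤ v.2 := hvF.2
      have h2 := nm_step (x := b) htt'
      have h3 := nm_step' (x := b) htt'
      have hpr : (t.1 + t.2) % 2 = pr true := by
        rw [Int.even_iff] at hte
        exact hte
      rcases ih with h4 | ⟨h4, h5, y, hy1, hy2, hy3, hy4⟩ | h4
      · by_cases h5 : nm (t' - b) ≤ r
        · exact Or.inl h5
        · have h6 : nm (t - b) = r := by omega
          have h7 : nm (t' - b) = r + 1 := by omega
          have hvd : v ∈ dq b r R := by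
            have a1 := nm_le_iff.1 h6.le
            have a2 := nm_le_iff.1 h7.le
            have a3 := le_nm_iff.1 h7.ge
            obtain ⟨c1, c2⟩ := hcor
            simp only [Cor, Prod.fst_sub, Prod.snd_sub, dq, Set.mem_ofPred_eq] at *
            omega
          have hts : t ∈ sr b r R := by
            have a1 := nm_le_iff.1 h6.le
            have a3 := le_nm_iff.1 h6.ge
            obtain ⟨c1, c2⟩ := hcor
            simp only [Cor, Prod.fst_sub, Prod.snd_sub, sr, Set.mem_ofPred_eq] at *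
            omega
          have hstep : PStep (cs true ω ∩ dq b r R) t t' :=
            ⟨htt'.1, htt'.2.1, by rw [← hv]; exact ⟨hvF.1, hvd⟩⟩
          by_cases h8 : R ≤ nm (t' - b)
          · exact Or.inr (Or.inr ⟨t, t', hts, hpr, h6.le, ReflTransGen.single hstep, h8⟩)
          · exact Or.inr (Or.inl ⟨by omega, by omega, t, hts, hpr, h6.le,
              ReflTransGen.single hstep⟩)
      · have hvd : v ∈ dq b r R := by
          have a1 := nm_le_iff.1 (show nm (t - b) ≤ R - 1 by omega)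
          have a3 := le_nm_iff.1 (show r + 1 ≤ nm (t - b) by omega)
          obtain ⟨c1, c2⟩ := hcor
          simp only [Cor, Prod.fst_sub, Prod.snd_sub, dq, Set.mem_ofPred_eq] at *
          omega
        have hstep : PStep (cs true ω ∩ dq b r R) t t' :=
          ⟨htt'.1, htt'.2.1, by rw [← hv]; exact ⟨hvF.1, hvd⟩⟩
        by_cases h8 : R ≤ nm (t' - b)
        · exact Or.inr (Or.inr ⟨y, t', hy1, hy2, hy3, hy4.tail hstep, h8⟩)
        · by_cases h9 : nm (t' - b) ≤ r
          · exact Or.inl h9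
          · exact Or.inr (Or.inl ⟨by omega, by omega, y, hy1, hy2, hy3, hy4.tail hstep⟩)
      · exact Or.inr (Or.inr h4)
  rcases (key s hus).2 with h1 | h1 | h1
  · omega
  · omega
  · exact h1

/-- The crossing event of a half annulus is increasing for the open squares. -/
theorem xc_inc (b : ℤ × ℤ) (r R : ℤ) : IncS (Xc true b r R) := by
  rintro ω ω' hle ⟨y, y', h1, h2, h3, h4, h5⟩
  refine ⟨y, y', h1, h2, h3, rtg_mono ?_ h4, h5⟩
  intro v hv
  exact ⟨hle v hv.1, hv.2⟩

/-- Duality for the crossings of half annuli. -/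
theorem pX_true (hQ0 : 0 < Q) (b : ℤ × ℤ) (r R : ℤ) :
    pX Q true (b.1 + 1, b.2) r R ≤ pX Q false b r R := by
  have e1 : dF (b.1 + 1, b.2) r R = (dF b r R).image (fun v => (v.1 + 1, v.2)) := by
    ext v
    rw [mem_dF, Finset.mem_image]
    constructor
    · intro h
      refine ⟨(v.1 - 1, v.2), mem_dF.2 ?_, by simp⟩
      simp only [dq, Set.mem_ofPred_eq] at h ⊢
      omega
    · rintro ⟨w, hw, rfl⟩
      rw [mem_dF] at hw
      simp only [dq, Set.mem_ofPred_eq] at hw ⊢
      omega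
  have e2 : (etac true : Cfg) = du (etac false) := rfl
  unfold pX
  rw [e1, e2]
  unfold Pr
  rw [f_dual.2 Q (dF b r R) (etac false) _ hQ0 (H192.Q.good_etac false)]
  have key : ∀ ω : Cfg, du ω ∈ Xc true (b.1 + 1, b.2) r R → ω ∈ Xc false b r R := by
    rintro ω ⟨y, y', h1, h2, h3, h4, h5⟩
    have hstep : ∀ u v : ℤ × ℤ, PStep (cs true (du ω) ∩ dq (b.1 + 1, b.2) r R) u v →
        PStep (cs false ω ∩ dq b r R) (u.1 - 1, u.2) (v.1 - 1, v.2) := by
      rintro u v ⟨k1, k2, k3⟩
      have k4 : (!(ω (min u.1 v.1 - 1, min u.2 v.2))) = true := k3.1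
      have k5 := k3.2
      simp only [dq, Set.mem_ofPred_eq] at k5
      refine ⟨?_, ?_, ?_, ?_⟩
      · show v.1 - 1 = u.1 - 1 + 1 ∨ v.1 - 1 = u.1 - 1 - 1
        omega
      · simpa using k2
      · show ω (min (u.1 - 1) (v.1 - 1), min u.2 v.2) = false
        rw [min_sub_sub_right]
        simpa using k4
      · simp only [dq, Set.mem_ofPred_eq]
        rw [min_sub_sub_right]
        omega
    refine ⟨(y.1 - 1, y.2), (y'.1 - 1, y'.2), ?_, ?_, ?_, ?_, ?_⟩
    · simp only [sr, Set.mem_ofPred_eq] at h1 ⊢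
      omega
    · simp only [pr] at h2 ⊢
      simp only [if_true, Bool.false_eq_true, if_false] at h2 ⊢
      omega
    · rw [nm_le_iff] at h3 ⊢
      simp only [Prod.fst_sub, Prod.snd_sub] at h3 ⊢
      omega
    · exact ReflTransGen.lift (fun u : ℤ × ℤ => ((u.1 - 1, u.2) : ℤ × ℤ)) hstep _ _ h4
    · rw [le_nm_iff] at h5 ⊢
      simp only [Prod.fst_sub, Prod.snd_sub] at h5 ⊢
      omega
  refine Ex_mono hQ0 fun S _ => ?_
  by_cases h : du (cf (dF b r R) (etac false) S) ∈ Xc true (b.1 + 1, b.2) r R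
  · rw [Set.indicator_of_mem h, Set.indicator_of_mem (key _ h)]
    simp
  · rw [Set.indicator_of_notMem h]
    exact ind_nonneg _ _

theorem pX_true' (hQ0 : 0 < Q) {c : ℝ} {Λ : ℤ}
    (h : ∀ (b : ℤ × ℤ) (r : ℤ), 1 ≤ r → pX Q false b r (Λ * r) ≤ 1 - c) (b : ℤ × ℤ) (r : ℤ)
    (hr : 1 ≤ r) : pX Q true b r (Λ * r) ≤ 1 - c := by
  have h1 := pX_true hQ0 (b.1 - 1, b.2) r (Λ * r)
  have e : ((b.1 - 1, b.2).1 + 1, (b.1 - 1, b.2).2) = b := by simp
  rw [e] at h1
  exact h1.trans (h _ _ hr)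

/-- **One scale**: raw arms at any position. -/
theorem ra_one (hQ : 1 ≤ Q) (hR : RSW Q) (hS : SRSW Q) : ∃ (Λ : ℤ) (c : ℝ), 2 ≤ Λ ∧ 0 < c ∧ c < 1 ∧
    ∀ (h : ℤ) (x : ℤ × ℤ) (r : ℤ) (ω : Cfg), 1 ≤ r → h ≤ x.2 → Good ω →
      Ex Q (hann h x r (Λ * r)) ω ((RA h x r (Λ * r)).indicator 1) ≤ 1 - c := by
  have hQ0 : 0 < Q := by linarith
  obtain ⟨L, c1, hL, hc1, hc1', hb⟩ := two_sided hQ f_markov f_good f_fkg f_comp
    (rswp_of_rsw hQ0 hR)
  obtain ⟨K, c2, hK, hc2, hx⟩ := hS
  have hx' := pX_true' hQ0 hx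
  refine ⟨K * (L + 1) + L, min c1 c2, by nlinarith, lt_min hc1 hc2,
    lt_of_le_of_lt (min_le_left _ _) hc1', ?_⟩
  intro h x r ω hr hhx hω
  set R : ℤ := (K * (L + 1) + L) * r with hRdef
  have hLr : L * r ≤ R := by
    have : 0 ≤ K * (L + 1) * r := by positivity
    rw [hRdef]
    linarith
  by_cases hd : h + L * r ≤ x.2
  · -- far from the side
    have hsub : Bq x (L * r) \ Bq x r ⊆ hann h x r R := by
      intro v hv
      rw [Finset.mem_sdiff] at hv
      rw [mem_hann]
      refine ⟨⟨?_, hv.2⟩, ?_⟩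
      · have := hv.1
        simp only [Bq, Finset.mem_product, Finset.mem_Ico] at this ⊢
        omega
      · have := hv.1
        simp only [Bq, Finset.mem_product, Finset.mem_Ico] at this
        omega
    rw [f_markov Q _ _ ω _ hQ0 hsub hω, ← Ex_const (Q := Q) (D := hann h x r R) (η := ω) hQ0
      (1 - min c1 c2)]
    refine Ex_mono hQ0 fun S _ => ?_
    refine le_trans ?_ ((hb x r (cf (hann h x r R) ω S) hr (f_good.1 _ _ _ hω)).trans
      (by linarith [min_le_left c1 c2]))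
    refine Ex_mono hQ0 fun T _ => ind_le_of_imp ?_
    intro h1
    have h2 : ArmPx x r R (mk h _) := h1
    refine arm_sub (x := x) le_rfl (by nlinarith) hLr (inc_arm x r R _ _ (fun v hv => ?_) h2)
    unfold mk at hv
    split_ifs at hv
    exact hv
  · -- near the side
    push Not at hd
    set b : ℤ × ℤ := (x.1, h) with hb'
    set r' : ℤ := (L + 1) * r with hr'
    have hr'1 : 1 ≤ r' := by nlinarith
    have hsub : dF b r' (K * r') ⊆ hann h x r R := by
      intro v hv
      rw [mem_dF] at hv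
      rw [mem_hann]
      have e1 : r' = L * r + r := by rw [hr']; ring
      have e2 : R = K * r' + L * r := by rw [hRdef, hr']; ring
      simp only [dq, Set.mem_ofPred_eq, hb'] at hv
      obtain ⟨g1, g2, g3, g4, g5⟩ := hv
      refine ⟨⟨?_, ?_⟩, g3⟩
      · simp only [Bq, Finset.mem_product, Finset.mem_Ico]
        have : 0 ≤ L * r := by nlinarith
        omega
      · simp only [Bq, Finset.mem_product, Finset.mem_Ico]
        have : 0 ≤ L * r := by nlinarith
        omega
    rw [f_markov Q _ _ ω _ hQ0 hsub hω, ← Ex_const (Q := Q) (D := hann h x r R) (η := ω) hQ0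
      (1 - min c1 c2)]
    refine Ex_mono hQ0 fun S _ => ?_
    have h3 : Ex Q (dF b r' (K * r')) (cf (hann h x r R) ω S) ((Xc true b r' (K * r')).indicator 1) ≤
        pX Q true b r' (K * r') := by
      unfold pX Pr
      exact f_comp Q _ _ _ _ hQ (f_good.1 _ _ _ hω) (H192.Q.good_etac true)
        (fun _ _ => rfl) (xc_inc _ _ _).incF
    refine le_trans ?_ ((h3.trans (hx' b r' hr'1)).trans (by linarith [min_le_right c1 c2]))
    refine Ex_mono hQ0 fun T _ => ind_le_of_imp ?_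
    intro h1
    refine xc_of_ra (by nlinarith) ?_
    have h2 : ArmPx x r R (mk h _) := h1
    show ArmPx b r' (K * r') (mk h _)
    have hKr : 0 ≤ L * r := by nlinarith
    have e1 : r' = L * r + r := by rw [hr']; ring
    have e2 : R = K * r' + L * r := by rw [hRdef, hr']; ring
    rw [armPx_iff (by nlinarith)] at h2 ⊢
    obtain ⟨u, s, k1, k2, k3, k4⟩ := h2
    refine ⟨u, s, k1, ?_, ?_, k4⟩
    · rw [nm_le_iff] at k2 ⊢
      simp only [Prod.fst_sub, Prod.snd_sub, hb'] at k2 ⊢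
      omega
    · rw [le_nm_iff] at k3 ⊢
      simp only [Prod.fst_sub, Prod.snd_sub, hb'] at k3 ⊢
      omega

/-- **Decay of the raw arms**, uniformly in the position and in everything outside of the half
annulus. -/
theorem ra_dec (hQ : 1 ≤ Q) (hR : RSW Q) (hS : SRSW Q) : ∃ α C : ℝ, 0 < α ∧ 0 < C ∧
    ∀ (h : ℤ) (x : ℤ × ℤ) (r R : ℤ) (D : Finset (ℤ × ℤ)) (η : Cfg) (G : Cfg → ℝ), h ≤ x.2 → 1 ≤ r →
      r ≤ R → Good η → hann h x r R ⊆ D → (∀ ω, 0 ≤ G ω) → Ind (hann h x r R) G →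
      Ex Q D η (fun ω => G ω * (RA h x r R).indicator 1 ω) ≤
        C * ((r : ℝ) / R) ^ α * Ex Q D η G := by
  have hQ0 : 0 < Q := by linarith
  obtain ⟨L, c, hL, hc0, hc1, hone⟩ := ra_one hQ hR hS
  obtain ⟨α, C, hα, hC, hpow⟩ := pow_decay (a := 1 - c) (by linarith) (by linarith) hL
  refine ⟨α, C, hα, hC, ?_⟩
  intro h x r R D η G hhx hr hrR hη hD hG0 hG
  have hsub : ∀ a b : ℤ, a ≤ b → Bq x a ⊆ Bq x b := by
    intro a b hab v hv
    simp only [Bq, Finset.mem_product, Finset.mem_Ico] at hv ⊢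
    omega
  have key : ∀ n : ℕ, L ^ n * r ≤ R → ∃ P : Cfg → ℝ, (∀ ω, 0 ≤ P ω) ∧
      (∀ ω, ω ∈ RA h x r R → 1 ≤ P ω) ∧ Loc (Bq x (L ^ n * r)) P ∧
      Ex Q D η (fun ω => G ω * P ω) ≤ (1 - c) ^ n * Ex Q D η G := by
    intro n
    induction n with
    | zero =>
      intro _
      exact ⟨fun _ => 1, fun _ => zero_le_one, fun _ _ => le_refl _, fun _ _ _ => rfl, by simp⟩
    | succ n ih =>
      intro hn
      have hLn : (1 : ℤ) ≤ L ^ n := one_le_pow₀ (by omega)
      have hrn : r ≤ L ^ n * r := by nlinarith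
      have e : L ^ (n + 1) * r = L * (L ^ n * r) := by ring
      have hrn' : L ^ n * r ≤ L ^ (n + 1) * r := by rw [e]; nlinarith
      obtain ⟨P, h0, h1, h2, h3⟩ := ih (hrn'.trans hn)
      refine ⟨fun ω => P ω * (RA h x (L ^ n * r) (L * (L ^ n * r))).indicator 1 ω,
        fun ω => mul_nonneg (h0 ω) (ind_nonneg _ _), ?_, ?_, ?_⟩
      · intro ω hω
        have h4 : ω ∈ RA h x (L ^ n * r) (L * (L ^ n * r)) :=
          ra_sub hrn (by rw [← e]; exact hrn') (by rw [← e]; exact hn) hω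
        show 1 ≤ P ω * (RA h x (L ^ n * r) (L * (L ^ n * r))).indicator 1 ω
        rw [Set.indicator_of_mem h4]
        simpa using h1 ω hω
      · intro ω ω' h4
        have h5 : P ω = P ω' := h2 ω ω' fun v hv => h4 v (hsub _ _ hrn' hv)
        have h6 := ra_loc h x (L ^ n * r) (L * (L ^ n * r)) ω ω' fun v hv =>
          h4 v (by rw [e]; exact hv)
        simp only [h5, h6]
      · have hAD : hann h x (L ^ n * r) (L * (L ^ n * r)) ⊆ hann h x r R := by
          intro v hv
          rw [mem_hann] at hv ⊢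
          exact ⟨⟨hsub _ _ (by rw [← e]; exact hn) hv.1.1, fun h' => hv.1.2 (hsub _ _ hrn h')⟩,
            hv.2⟩
        have h7 := markov_le f_markov f_good hQ0 (hAD.trans hD) hη
          (F := (RA h x (L ^ n * r) (L * (L ^ n * r))).indicator 1)
          (G := fun ω => G ω * P ω) (a := 1 - c) ?_ (fun ω => mul_nonneg (hG0 ω) (h0 ω))
          (fun ω hω => hone h x (L ^ n * r) ω (by omega) hhx hω)
        · simp only [mul_assoc] at h7 ⊢
          refine h7.trans ?_
          rw [pow_succ, mul_comm ((1 - c) ^ n), mul_assoc]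
          exact mul_le_mul_of_nonneg_left h3 (by linarith)
        · refine (hG.mono hAD).mul (h2.ind ?_)
          rw [Finset.disjoint_left]
          intro v hv hv'
          exact (mem_hann.1 hv').1.2 hv
  have hGE : 0 ≤ Ex Q D η G := Ex_nonneg hQ0 fun _ _ => hG0 _
  have h5 : ∀ n : ℕ, L ^ n * r ≤ R →
      Ex Q D η (fun ω => G ω * (RA h x r R).indicator 1 ω) ≤
        (1 - c) ^ n * Ex Q D η G := by
    intro n hn
    obtain ⟨P, h0, h1, -, h3⟩ := key n hn
    refine le_trans (Ex_mono hQ0 fun S _ => ?_) h3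
    refine mul_le_mul_of_nonneg_left ?_ (hG0 _)
    by_cases h4 : cf D η S ∈ RA h x r R
    · rw [Set.indicator_of_mem h4]
      exact h1 _ h4
    · rw [Set.indicator_of_notMem h4]
      exact h0 _
  rcases hGE.eq_or_lt with h6 | h6
  · have := h5 0 (by simpa using hrR)
    rw [← h6, mul_zero] at this ⊢
    exact this
  · have h7 := hpow (Ex Q D η (fun ω => G ω * (RA h x r R).indicator 1 ω) / Ex Q D η G)
      r R hr hrR fun n hn => by rw [div_le_iff₀ h6]; exact h5 n hn
    rwa [div_le_iff₀ h6] at h7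

end Vale.Agent.P167.H167.Q
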