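import Vale.Agent.P167.H167.Q.ExSp
import Vale.Agent.P167.H601.M.Geo

/-!
# P167, general `q`, block Q-LAM: the upper bound of the product of the weights

`XW_le`: the product of all the weights is bounded by the product of the local products, up to a
power of the number of the large segments. `u_S`: 718's `U_S`.
-/

namespace Vale.Agent.P167.H167.Q

open Finset Vale.Agent.P167.BR Vale.Agent.P167.FK
open Vale.Agent.P167.FKA (Ex_mono Ex_congr Ex_const Ex_mul_left Ex_nonneg abs_Ex_le)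
open Vale.Agent.P167.E6 (IsPolygon Encloses)
open Vale.Agent.P167.H192.Q (SRSW)
open Vale.Agent.P167.H365.NQ (XW)
open Vale.Agent.P167.H562.QM (MajA)
open Vale.Agent.P167.H601.LG
open Vale.Agent.P167.H601.M (TS Cls spx mem_spx mom_geo card_zone exists_rad)
open Vale.Agent.P167.H601.S2 (one_le_A0 TX_nonneg)
open Vale.Agent.P167.H718.Lam (Pg)
open Vale.Agent.P167.H975 (TX)

/-- **The product of the weights** is bounded by the product of the local products. -/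
theorem XW_le {θ : ℝ} (h0 : 0 < θ) (h1 : θ ≤ Real.pi / 3) {n N k L : ℕ} {q : ZMod N → ℤ × ℤ}
    {D : Finset (ℤ × ℤ)} {τ : ℕ → ℤ} {ω : Cfg} (hG : GeoN n N q τ) (hq : IsPolygon q)
    (hD : Encloses q D) (hS : SepL L N τ k) {r : ℤ} (hr0 : 0 ≤ r) (hr : 6 * r < n)
    (hrL : 4 * r < L) {t : ℝ} (ht : t ≤ r / 16) {M : ℕ} (hM : MajA D t ω M)
    (hT : 0 ≤ TS θ q D k τ r ω) :
    |XW D (wJ θ ((θ - Real.pi) / 2) q D k τ) ω| ≤
      (1 / Real.sin θ + 1 / Real.sin (2 * θ)) ^ M * TS θ q D k τ r ω := by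
  classical
  have hA0 := one_le_A0 h0 h1
  obtain ⟨w, hw⟩ : ∃ w : Finset Ed → ℝ, w = wJ θ ((θ - Real.pi) / 2) q D k τ := ⟨_, rfl⟩
  obtain ⟨B, hB⟩ : ∃ B : ℕ → Finset (Finset Ed), B = fun j : ℕ => (pcs ω D).filter
    fun A => ∀ e ∈ A, hdv e ∈ Bq (q (j : ZMod N)) r := ⟨_, rfl⟩
  have hmB : ∀ j A, A ∈ B j ↔ A ∈ pcs ω D ∧ ∀ e ∈ A, hdv e ∈ Bq (q (j : ZMod N)) r := by
    intro j A
    rw [hB]
    exact mem_filter
  have hdis : ∀ i ∈ spx N k τ, ∀ j ∈ spx N k τ, i ≠ j → Disjoint (B i) (B j) := by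
    intro i hi j hj hij
    obtain ⟨a1, a2⟩ := mem_spx.1 hi
    obtain ⟨b1, b2⟩ := mem_spx.1 hj
    have h3 := spe_far hG hS (d := 2 * r) (by omega) (by omega) a1 b1 a2 b2 hij
    rw [disjoint_left]
    intro A hA hA'
    rw [hmB] at hA hA'
    obtain ⟨e, he⟩ := pcs_nonempty hA.1
    exact (disjoint_left.1 (disj_Bq (R := r) (r := r) (by omega))) (hA.2 e he) (hA'.2 e he)
  have hTS : TS θ q D k τ r ω = ∏ A ∈ (spx N k τ).biUnion B, w A := by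
    rw [prod_biUnion fun i hi j hj hij => hdis i hi j hj hij]
    unfold TS TX
    refine prod_congr rfl fun j _ => ?_
    rw [← hw]
    refine prod_congr ?_ fun _ _ => rfl
    ext A
    rw [hmB, mem_filter]
  have hsub : (spx N k τ).biUnion B ⊆ pcs ω D := by
    intro A hA
    obtain ⟨j, -, hj⟩ := mem_biUnion.1 hA
    exact ((hmB j A).1 hj).1
  have hXW : XW D w ω = (∏ A ∈ pcs ω D \ (spx N k τ).biUnion B, w A) *
      ∏ A ∈ (spx N k τ).biUnion B, w A := by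
    unfold XW
    rw [prod_sdiff hsub]
  rw [← hw, hXW, ← hTS, abs_mul, abs_of_nonneg hT, abs_prod]
  refine mul_le_mul_of_nonneg_right ?_ hT
  obtain ⟨S, hSd⟩ : ∃ S, S = pcs ω D \ (spx N k τ).biUnion B := ⟨_, rfl⟩
  rw [← hSd, ← prod_filter_mul_prod_filter_not S (fun A => w A ≠ 1)]
  have h3 : ∏ A ∈ S.filter (fun A => ¬ w A ≠ 1), |w A| = 1 := by
    refine prod_eq_one fun A hA => ?_
    rw [mem_filter] at hA
    rw [not_not.1 hA.2, abs_one]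
  rw [h3, mul_one]
  have hcard : (S.filter fun A => w A ≠ 1).card ≤ M := by
    refine card_zone h0 h1 hG hq hD (r' := r) (by omega) ht hM (fun A hA => ?_) (k := k)
      (β := (θ - Real.pi) / 2) fun A hA => ?_
    · rw [mem_filter, hSd, mem_sdiff] at hA
      exact hA.1.1
    · rw [mem_filter, hSd, mem_sdiff] at hA
      refine ⟨by rw [← hw]; exact hA.2, fun j hj hsj hin => hA.1.2 ?_⟩
      exact mem_biUnion.2 ⟨j, mem_spx.2 ⟨hj, hsj⟩, (hmB j A).2 ⟨hA.1.1, hin⟩⟩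
  calc ∏ A ∈ S.filter (fun A => w A ≠ 1), |w A|
      ≤ ∏ _A ∈ S.filter (fun A => w A ≠ 1), (1 / Real.sin θ + 1 / Real.sin (2 * θ)) := by
        refine prod_le_prod (fun A _ => abs_nonneg _) fun A hA => ?_
        rw [mem_filter, hSd, mem_sdiff] at hA
        rw [hw]
        exact abs_wJ_le h0 h1 hq hD hA.1.1
    _ = (1 / Real.sin θ + 1 / Real.sin (2 * θ)) ^ (S.filter fun A => w A ≠ 1).card :=
        prod_const _
    _ ≤ _ := pow_le_pow_right₀ hA0 hcard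

/-- **The local products are nonnegative** (classes of `Typ`). -/
theorem T_nonneg {θ : ℝ} (h0 : 0 < θ) (h1 : θ ≤ Real.pi / 3) {n N k L : ℕ} {q : ZMod N → ℤ × ℤ}
    {D : Finset (ℤ × ℤ)} {τ : ℕ → ℤ} {ω : Cfg} (hG : GeoN n N q τ) (hq : IsPolygon q)
    (hD : Encloses q D) (hS : SepL L N τ k) (hT : Typ N k τ ((θ - Real.pi) / 2) θ) {r : ℤ}
    (hr : 3 * (r + 1) < n) (hrL : 4 * (r + 1) < L) {j : ℕ} (hj : j < N) (hsj : Spe τ k j) :
    0 ≤ TX (wJ θ ((θ - Real.pi) / 2) q D k τ) D (q (j : ZMod N)) r ω := by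
  obtain ⟨c, hc, -, H⟩ := exists_low_loc h0 h1
  refine TX_nonneg fun A hA hin => ?_
  rcases H hG hq hD hA hS hT hr hrL hj hsj hin with h | ⟨-, -, -, hl, hF, hK⟩
  · exact hc.le.trans h
  · rw [wJ_fw2 rfl hl hF, hK]
    simp

/-- **The upper bound.** -/
theorem u_S {θ : ℝ} (h0 : 0 < θ) (h1 : θ ≤ Real.pi / 3) (hR : RSW (2 * Real.cos θ))
    (hSR : SRSW (2 * Real.cos θ)) : H718.Lam.U_S θ := by
  intro σ R hσ
  have hcos : 1 / 2 ≤ Real.cos θ := by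
    rw [← Real.cos_pi_div_three]
    exact Real.cos_le_cos_of_nonneg_of_le_pi h0.le (by linarith [Real.pi_pos]) h1
  have hQ0 : 0 < 2 * Real.cos θ := by linarith
  have hA0 := one_le_A0 h0 h1
  obtain ⟨ρ₁, hρ₁, HM⟩ := mom_geo h0 h1 hR hSR σ R hσ
  obtain ⟨ρ₂, hρ₂, HE⟩ := ex_sp h0 h1 hR hSR σ R hσ
  refine ⟨min (min ρ₁ ρ₂) (min 1 σ / 80), by positivity, fun ρ hρ hρ0 => ?_⟩
  have e1 : ρ ≤ ρ₁ := hρ0.trans ((min_le_left _ _).trans (min_le_left _ _))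
  have e2 : ρ ≤ ρ₂ := hρ0.trans ((min_le_left _ _).trans (min_le_right _ _))
  have e3 : ρ ≤ min 1 σ / 80 := hρ0.trans (min_le_right _ _)
  have e4 := min_le_left 1 σ
  have e5 := min_le_right 1 σ
  obtain ⟨n₃, hn₃⟩ := exists_rad (W := 1) (σ := σ) le_rfl hρ (by push_cast; linarith)
    (by push_cast; linarith)
  obtain ⟨c, C, n₁, hc, hC, HM⟩ := HM ρ hρ e1 (ρ / 32)
    (Real.log (1 / Real.sin θ + 1 / Real.sin (2 * θ))) (by positivity) (Real.log_nonneg hA0)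
  obtain ⟨c', C', n₂, hc', hC', HE⟩ := HE ρ hρ e2
  refine ⟨C * C', max (max n₁ n₂) n₃, by positivity, fun n hn X hX hT hdir => ?_⟩
  have hn1 : n₁ ≤ n := (le_max_left _ _).trans ((le_max_left _ _).trans hn)
  have hn2 : n₂ ≤ n := (le_max_right _ _).trans ((le_max_left _ _).trans hn)
  have hn3 : n₃ ≤ n := (le_max_right _ _).trans hn
  obtain ⟨r1, r2, r3⟩ := hn₃ n hn3
  obtain ⟨r, hr⟩ : ∃ r : ℤ, r = ⌊ρ * (n : ℝ)⌋ := ⟨_, rfl⟩
  rw [← hr] at r1 r2 r3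
  rw [one_mul] at r2 r3
  have r2' : 40 * (r + 1) < (n : ℤ) := by exact_mod_cast r2
  have hGeo : H601.M.Geo n σ R X.q X.D X.k X.τ :=
    ⟨hX.geo, hX.poly, hX.enc, hX.bd, hX.sep, hX.kle, hX.dia, hX.len⟩
  have hCls : Cls X.q X.k X.τ := by
    by_cases hk : X.k = 0 ∨ X.k = X.N
    · exact Cls.cor hk (hT.one hk)
    · have hkN := hX.kle
      have k1 : 0 < X.k := by omega
      have k2 : X.k < X.N := by omega
      exact Cls.dob k1 k2 (hT.dob k1 k2).1 (hT.dob k1 k2).2 (hdir k1 k2)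
  obtain ⟨hTS, HM⟩ := HM n hn1 hGeo hCls
  obtain ⟨Nf, -, hN, HM⟩ := HM 0
  have HM := HM X.η hX.reg.good hX.reg.one
  have hsp : X.sp = spx X.N X.k X.τ := by
    ext j
    rw [mem_sp, mem_spx]
  have hTn : ∀ j ∈ X.sp, ∀ ω, 0 ≤ X.T θ j ⌊ρ * n⌋ ω := by
    intro j hj ω
    rw [← hr]
    obtain ⟨a1, a2⟩ := mem_sp.1 hj
    exact T_nonneg h0 h1 hX.geo hX.poly hX.enc hX.sep hT (by omega) (by omega) a1 a2
  have HE := (HE n hn2 X hX hTn).2
  have hTSe : TS θ X.q X.D X.k X.τ ⌊ρ * n⌋ = fun ω => ∏ j ∈ X.sp, X.T θ j ⌊ρ * n⌋ ω := by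
    funext ω
    rw [hsp]
    rfl
  have hXW : ∀ ω, |XW X.D (X.w θ) ω| ≤ TS θ X.q X.D X.k X.τ ⌊ρ * n⌋ ω *
      Real.exp (Real.log (1 / Real.sin θ + 1 / Real.sin (2 * θ)) * (Nf ω : ℝ)) := by
    intro ω
    have h3 := XW_le h0 h1 hX.geo hX.poly hX.enc hX.sep (r := ⌊ρ * (n : ℝ)⌋) (by omega)
      (by omega) (by omega) (t := ρ / 32 * n) (by
        have h4 := Int.lt_floor_add_one (ρ * (n : ℝ))
        have h5 : (1 : ℝ) ≤ ⌊ρ * (n : ℝ)⌋ := by rw [← hr]; exact_mod_cast r1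
        linarith) (hN ω) (hTS ω)
    have h4 : Real.exp (Real.log (1 / Real.sin θ + 1 / Real.sin (2 * θ)) * (Nf ω : ℝ)) =
        (1 / Real.sin θ + 1 / Real.sin (2 * θ)) ^ (Nf ω) := by
      rw [mul_comm, Real.exp_nat_mul, Real.exp_log (by linarith)]
    rw [h4, mul_comm (TS _ _ _ _ _ _ _)]
    exact h3
  calc |X.eX θ| ≤ X.E θ (fun ω => |XW X.D (X.w θ) ω|) := abs_Ex_le hQ0 _
    _ ≤ X.E θ (fun ω => TS θ X.q X.D X.k X.τ ⌊ρ * n⌋ ω *
        Real.exp (Real.log (1 / Real.sin θ + 1 / Real.sin (2 * θ)) * (Nf ω : ℝ))) :=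
        Ex_mono hQ0 fun S _ => hXW _
    _ ≤ C * X.E θ (TS θ X.q X.D X.k X.τ ⌊ρ * n⌋) := HM
    _ ≤ C * (C' * ∏ j ∈ X.sp, X.eT θ j ⌊ρ * n⌋) := by
        refine mul_le_mul_of_nonneg_left ?_ hC.le
        rw [hTSe]
        exact HE
    _ = C * C' * ∏ j ∈ X.sp, X.eT θ j ⌊ρ * n⌋ := by ring

end Vale.Agent.P167.H167.Q
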